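import Mathlib

/-! Uniform probabilities on finite types. -/

namespace Vale.Agent.P330

open Finset
open scoped BigOperators

open Classical in
/-- The indicator of a proposition. -/
noncomputable def ind (A : Prop) : ℝ := if A then 1 else 0

/-- The probability of an event under the uniform distribution. -/
noncomputable def pr {P : Type} [Fintype P] (A : P → Prop) : ℝ := 𝔼 x, ind (A x)

variable {P P' : Type} [Fintype P] [Fintype P']

lemma ind_nonneg (A : Prop) : 0 ≤ ind A := by unfold ind; split_ifs <;> norm_num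
lemma ind_le_one (A : Prop) : ind A ≤ 1 := by unfold ind; split_ifs <;> norm_num
lemma ind_pos {A : Prop} (h : A) : ind A = 1 := by unfold ind; rw [if_pos h]
lemma ind_neg {A : Prop} (h : ¬A) : ind A = 0 := by unfold ind; rw [if_neg h]
lemma ind_mono {A B : Prop} (h : A → B) : ind A ≤ ind B := by
  by_cases hA : A
  · rw [ind_pos hA, ind_pos (h hA)]
  · rw [ind_neg hA]; exact ind_nonneg _
lemma ind_congr {A B : Prop} (h : A ↔ B) : ind A = ind B :=
  le_antisymm (ind_mono h.1) (ind_mono h.2)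
lemma ind_not (A : Prop) : ind (¬A) = 1 - ind A := by
  by_cases hA : A
  · rw [ind_pos hA, ind_neg (not_not.2 hA)]; norm_num
  · rw [ind_neg hA, ind_pos hA]; norm_num
lemma ind_or_le (A B : Prop) : ind (A ∨ B) ≤ ind A + ind B := by
  by_cases hA : A
  · rw [ind_pos hA]; linarith [ind_le_one (A ∨ B), ind_nonneg B]
  · by_cases hB : B
    · rw [ind_pos hB]; linarith [ind_le_one (A ∨ B), ind_nonneg A]
    · rw [ind_neg hA, ind_neg hB, ind_neg (by tauto)]; norm_num
lemma ind_and (A B : Prop) : ind (A ∧ B) = ind A * ind B := by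
  by_cases hA : A
  · rw [ind_pos hA, one_mul]; exact ind_congr (by tauto)
  · rw [ind_neg hA, zero_mul, ind_neg (by tauto)]
lemma ind_sq (A : Prop) : ind A ^ 2 = ind A := by
  rw [sq, ← ind_and]; exact ind_congr (by tauto)

lemma ex_mono {f g : P → ℝ} (h : ∀ x, f x ≤ g x) : 𝔼 x, f x ≤ 𝔼 x, g x :=
  expect_le_expect fun x _ => h x
lemma ex_nonneg {f : P → ℝ} (h : ∀ x, 0 ≤ f x) : 0 ≤ 𝔼 x, f x :=
  expect_nonneg fun x _ => h x
lemma ex_const [Nonempty P] (c : ℝ) : 𝔼 _x : P, c = c := expect_const univ_nonempty c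
lemma ex_le_const {f : P → ℝ} {c : ℝ} (hc : 0 ≤ c) (h : ∀ x, f x ≤ c) : 𝔼 x, f x ≤ c := by
  cases isEmpty_or_nonempty P with
  | inl _ => simpa using hc
  | inr _ => exact (ex_mono h).trans (ex_const c).le
lemma ex_add (f g : P → ℝ) : 𝔼 x, (f x + g x) = 𝔼 x, f x + 𝔼 x, g x := expect_add_distrib _ _ _
lemma ex_sub (f g : P → ℝ) : 𝔼 x, (f x - g x) = 𝔼 x, f x - 𝔼 x, g x := expect_sub_distrib _ _ _
lemma ex_mul (c : ℝ) (f : P → ℝ) : 𝔼 x, (c * f x) = c * 𝔼 x, f x := (mul_expect _ _ _).symm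
lemma ex_equiv (e : P ≃ P') (f : P' → ℝ) : 𝔼 x, f (e x) = 𝔼 y, f y :=
  Fintype.expect_equiv e _ _ fun _ => rfl
lemma ex_prod (f : P × P' → ℝ) : 𝔼 z, f z = 𝔼 x, 𝔼 y, f (x, y) := by
  rw [← expect_product, univ_product_univ]
lemma ex_comm (f : P → P' → ℝ) : 𝔼 x, 𝔼 y, f x y = 𝔼 y, 𝔼 x, f x y := expect_comm _ _ _
lemma ex_eq (f : P → ℝ) : 𝔼 x, f x = (∑ x, f x) / Fintype.card P := by
  rw [expect_eq_sum_div_card, card_univ]
lemma ex_sum {J : Type} (s : Finset J) (f : J → P → ℝ) :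
    𝔼 x, ∑ j ∈ s, f j x = ∑ j ∈ s, 𝔼 x, f j x := expect_sum_comm _ _ _
lemma ex_sq_le (f : P → ℝ) : (𝔼 x, f x) ^ 2 ≤ 𝔼 x, f x ^ 2 := by
  cases isEmpty_or_nonempty P with
  | inl _ => simp
  | inr _ =>
    have h : 0 ≤ 𝔼 x, (f x - 𝔼 y, f y) ^ 2 := ex_nonneg fun _ => sq_nonneg _
    have e : 𝔼 x, (f x - 𝔼 y, f y) ^ 2 =
        𝔼 x, ((f x ^ 2 - 2 * (𝔼 y, f y) * f x) + (𝔼 y, f y) ^ 2) :=
      expect_congr rfl fun x _ => by ring
    rw [e, ex_add, ex_sub, ex_mul, ex_const] at h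
    nlinarith

lemma pr_nonneg (A : P → Prop) : 0 ≤ pr A := ex_nonneg fun _ => ind_nonneg _
lemma pr_le_one (A : P → Prop) : pr A ≤ 1 := ex_le_const zero_le_one fun _ => ind_le_one _
lemma pr_mono {A B : P → Prop} (h : ∀ x, A x → B x) : pr A ≤ pr B :=
  ex_mono fun x => ind_mono (h x)
lemma pr_congr {A B : P → Prop} (h : ∀ x, A x ↔ B x) : pr A = pr B :=
  le_antisymm (pr_mono fun x => (h x).1) (pr_mono fun x => (h x).2)
lemma pr_not [Nonempty P] (A : P → Prop) : pr (fun x => ¬A x) = 1 - pr A := by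
  unfold pr
  simp only [ind_not]
  rw [ex_sub, ex_const]
lemma pr_or_le (A B : P → Prop) : pr (fun x => A x ∨ B x) ≤ pr A + pr B := by
  unfold pr
  rw [← ex_add]
  exact ex_mono fun x => ind_or_le _ _
lemma pr_le_add {A B C : P → Prop} (h : ∀ x, A x → B x ∨ C x) : pr A ≤ pr B + pr C :=
  (pr_mono h).trans (pr_or_le B C)
lemma pr_le_add3 {A B C D : P → Prop} (h : ∀ x, A x → B x ∨ C x ∨ D x) :
    pr A ≤ pr B + pr C + pr D := by
  have h1 := pr_le_add h
  have h2 := pr_or_le C D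
  linarith
lemma pr_false {A : P → Prop} (h : ∀ x, ¬A x) : pr A = 0 := by
  unfold pr
  simp only [fun x => ind_neg (h x)]
  simp
lemma pr_true [Nonempty P] {A : P → Prop} (h : ∀ x, A x) : pr A = 1 := by
  unfold pr
  simp only [fun x => ind_pos (h x)]
  exact ex_const 1
lemma pr_equiv (e : P ≃ P') (A : P' → Prop) : pr (fun x => A (e x)) = pr A :=
  ex_equiv e fun y => ind (A y)
lemma pr_prod (A : P × P' → Prop) : pr A = 𝔼 x, pr fun y => A (x, y) := ex_prod _
lemma pr_prod' (A : P × P' → Prop) : pr A = 𝔼 y, pr fun x => A (x, y) :=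
  (ex_prod _).trans (ex_comm _)
lemma pr_fst [Nonempty P'] (A : P → Prop) : pr (fun z : P × P' => A z.1) = pr A := by
  rw [pr_prod]
  exact expect_congr rfl fun x _ => ex_const (ind (A x))
lemma pr_snd [Nonempty P] (A : P' → Prop) : pr (fun z : P × P' => A z.2) = pr A := by
  rw [pr_prod']
  exact expect_congr rfl fun x _ => ex_const (ind (A x))
lemma exists_of_pr_pos {A : P → Prop} (h : 0 < pr A) : ∃ x, A x := by
  by_contra h'
  push Not at h'
  rw [pr_false h'] at h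
  exact lt_irrefl _ h
lemma exists_not_of_pr_lt [Nonempty P] {A : P → Prop} (h : pr A < 1) : ∃ x, ¬A x :=
  exists_of_pr_pos (A := fun x => ¬A x) (by rw [pr_not]; linarith)

open Classical in
lemma pr_eq_card (A : P → Prop) : pr A = ((univ.filter A).card : ℝ) / Fintype.card P := by
  unfold pr
  rw [ex_eq]
  congr 1
  unfold ind
  rw [sum_boole]

lemma pr_exists_le {J : Type} [Fintype J] (A : J → P → Prop) :
    pr (fun x => ∃ j, A j x) ≤ ∑ j, pr (A j) := by
  unfold pr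
  rw [← ex_sum]
  refine ex_mono fun x => ?_
  by_cases h : ∃ j, A j x
  · obtain ⟨j, hj⟩ := h
    rw [ind_pos ⟨j, hj⟩, ← ind_pos hj]
    exact single_le_sum (f := fun j => ind (A j x)) (fun _ _ => ind_nonneg _) (mem_univ j)
  · rw [ind_neg h]; exact sum_nonneg fun _ _ => ind_nonneg _

lemma pr_exists_le' {J : Type} [Fintype J] {A : J → P → Prop} {c : ℝ} (h : ∀ j, pr (A j) ≤ c) :
    pr (fun x => ∃ j, A j x) ≤ Fintype.card J * c :=
  (pr_exists_le A).trans ((sum_le_sum fun j _ => h j).trans (by simp))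

/-- Markov's inequality. -/
lemma markov {f : P → ℝ} (hf : ∀ x, 0 ≤ f x) {t : ℝ} (ht : 0 < t) :
    pr (fun x => t ≤ f x) ≤ (𝔼 x, f x) / t := by
  rw [le_div_iff₀ ht, mul_comm, pr, ← ex_mul]
  refine ex_mono fun x => ?_
  by_cases h : t ≤ f x
  · rw [ind_pos h]; linarith
  · rw [ind_neg h]; linarith [hf x]

/-- An event of probability below `1 / card` is empty. -/
lemma not_of_pr_lt {A : P → Prop} (h : pr A * Fintype.card P < 1) (x : P) : ¬A x := by
  classical
  intro hx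
  have : Nonempty P := ⟨x⟩
  have hc : (0 : ℝ) < Fintype.card P := by exact_mod_cast Fintype.card_pos
  rw [pr_eq_card, div_mul_cancel₀ _ hc.ne'] at h
  have : 0 < (univ.filter A).card := card_pos.2 ⟨x, by simpa using hx⟩
  have : (1 : ℝ) ≤ (univ.filter A).card := by exact_mod_cast this
  linarith

/-- A family of permutations is a sampler with parameter `β`. -/
def Samp {J Q : Type} [Fintype J] [Fintype Q] (β : ℝ) (π : J → Equiv.Perm Q) : Prop :=
  ∀ h : Q → ℝ, 𝔼 x, ((𝔼 j, h (π j x)) - 𝔼 y, h y) ^ 2 ≤ β * 𝔼 y, h y ^ 2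

/-- Chebyshev's inequality for a sampler. -/
lemma Samp.cheb {J Q : Type} [Fintype J] [Fintype Q] {β : ℝ} {π : J → Equiv.Perm Q}
    (hs : Samp β π) (hβ : 0 ≤ β) {h : Q → ℝ} (h0 : ∀ x, 0 ≤ h x) (h1 : ∀ x, h x ≤ 1) {t : ℝ}
    (ht : 0 < t) :
    pr (fun x => t ≤ |(𝔼 j, h (π j x)) - 𝔼 y, h y|) ≤ β * (𝔼 y, h y) / t ^ 2 := by
  have h2 := markov (f := fun x => ((𝔼 j, h (π j x)) - 𝔼 y, h y) ^ 2) (fun _ => sq_nonneg _)
    (pow_pos ht 2)
  refine (pr_mono fun x hx => ?_).trans (h2.trans ?_)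
  · show t ^ 2 ≤ _
    rw [← sq_abs (_ - _)]
    exact pow_le_pow_left₀ ht.le hx 2
  · refine div_le_div_of_nonneg_right ((hs h).trans ?_) (pow_pos ht 2).le
    exact mul_le_mul_of_nonneg_left (ex_mono fun x => by nlinarith [h0 x, h1 x]) hβ

lemma Samp.reindex {J J' Q : Type} [Fintype J] [Fintype J'] [Fintype Q] {β : ℝ}
    {π : J → Equiv.Perm Q} (hs : Samp β π) (e : J' ≃ J) : Samp β fun j => π (e j) := fun h => by
  have : ∀ x, 𝔼 j, h (π (e j) x) = 𝔼 j, h (π j x) := fun x => ex_equiv e fun j => h (π j x)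
  simp only [this]
  exact hs h

lemma Samp.congr {J Q Q' : Type} [Fintype J] [Fintype Q] [Fintype Q'] {β : ℝ}
    {π : J → Equiv.Perm Q} (hs : Samp β π) (e : Q ≃ Q') :
    Samp β fun j => e.permCongr (π j) := fun h => by
  have h1 := hs fun x => h (e x)
  rw [ex_equiv e h, ex_equiv e fun y => h y ^ 2] at h1
  rw [← ex_equiv e]
  simpa using h1

end Vale.Agent.P330
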