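import Vale.Agent.P330.YSys

/-! Numbers as codes of positions. -/

namespace Vale.Agent.P330

open Finset
open scoped BigOperators

/-- A numbering of the rows. -/
noncomputable def rowE : Row ≃ Fin 22 := Fintype.equivFinOfCardEq (by simp)

/-- The point with a given code. -/
def dX (M N n : ℕ) : XX M N := fun l => (n / M ^ l.val % M : ℕ)

/-- The vector with a given code. -/
noncomputable def dA (p N n : ℕ) : CC N → ZMod p :=
  fun z => (n / p ^ (rowE z.1 * (RR N + 2) + z.2) % p : ℕ)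

/-- The direction with a given code. -/
def dI (N c : ℕ) [NeZero c] (n : ℕ) : II N c := (n, Fin.ofNat c (n / N))

/-- The number of vectors. -/
def nV (p N : ℕ) : ℕ := p ^ (22 * (RR N + 2))

/-- The number of replica indices. -/
def nW (M p c N : ℕ) : ℕ := N * c * (nV p N * M ^ N)

/-- The number of positions. -/
def nP (M p c N : ℕ) : ℕ := M ^ N * (nV p N * nW M p c N)

/-- The replica index with a given code. -/
noncomputable def dW (M p c N : ℕ) [NeZero c] (n : ℕ) : WW M p c N :=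
  (dI N c (n % (N * c)), dA p N (n / (N * c) % nV p N), dX M N (n / (N * c) / nV p N))

/-- The position with a given code. -/
noncomputable def dP (M p c N : ℕ) [NeZero c] (n : ℕ) : PP M p c N :=
  (dX M N (n % M ^ N), dA p N (n / M ^ N % nV p N), dW M p c N (n / M ^ N / nV p N))

variable {M p c N : ℕ} [Fact M.Prime] [Fact p.Prime]

/-- The code of a point. -/
def cX (x : XX M N) : ℕ := ∑ l ∈ range N, (x l).val * M ^ l

/-- The code of a vector. -/
noncomputable def cA (a : CC N → ZMod p) : ℕ :=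
  ∑ r, ∑ s ∈ range (RR N + 2), (ext a r s).val * p ^ (rowE r * (RR N + 2) + s)

/-- The code of a direction. -/
def cI (i : II N c) : ℕ := i.1.val + N * i.2

/-- The code of a replica index. -/
noncomputable def cW (w : WW M p c N) : ℕ := cI w.1 + N * c * (cA w.2.1 + nV p N * cX w.2.2)

/-- The code of a position. -/
noncomputable def cP (z : PP M p c N) : ℕ := cX z.1 + M ^ N * (cA z.2.1 + nV p N * cW z.2.2)

lemma CCode_lt {b : ℕ} {x : ℕ → ℕ} (hx : ∀ l, x l < b) (K : ℕ) :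
    ∑ l ∈ range K, x l * b ^ l < b ^ K := by
  induction K with
  | zero => simp
  | succ K ih =>
    rw [sum_range_succ, pow_succ']
    have h : (x K + 1) * b ^ K ≤ b * b ^ K := Nat.mul_le_mul_right _ (hx K)
    rw [add_mul, one_mul] at h
    omega

lemma CCode_dig {b : ℕ} {x : ℕ → ℕ} (hx : ∀ l, x l < b) {K j : ℕ} (h : j < K) :
    (∑ l ∈ range K, x l * b ^ l) / b ^ j % b = x j := by
  have hb : 0 < b := (Nat.zero_le _).trans_lt (hx 0)
  induction K with
  | zero => omega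
  | succ K ih =>
    rw [sum_range_succ]
    rcases Nat.lt_succ_iff_lt_or_eq.1 h with h1 | rfl
    · obtain ⟨t, rfl⟩ := Nat.exists_eq_add_of_lt h1
      have e : x (j + t + 1) * b ^ (j + t + 1) = b ^ j * (b * (x (j + t + 1) * b ^ t)) := by ring
      rw [e, Nat.add_mul_div_left _ _ (pow_pos hb j), Nat.add_mul_mod_self_left, ih h1]
    · rw [Nat.add_mul_div_right _ _ (pow_pos hb j), Nat.div_eq_of_lt (CCode_lt hx j), zero_add,
        Nat.mod_eq_of_lt (hx j)]

lemma CCode_exp (b n K : ℕ) : ∑ l ∈ range K, n / b ^ l % b * b ^ l = n % b ^ K := by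
  induction K with
  | zero => simp [Nat.mod_one]
  | succ K ih => rw [sum_range_succ, ih, Nat.mod_pow_succ, mul_comm]

lemma CCode_blk (g : ℕ → ℕ) (L k : ℕ) :
    ∑ l ∈ range (k * L), g l = ∑ i ∈ range k, ∑ s ∈ range L, g (i * L + s) := by
  induction k with
  | zero => simp
  | succ k ih => rw [Nat.succ_mul, sum_range_add, ih, sum_range_succ]

lemma CCode_mix {a b n m : ℕ} (ha : a < n) (hb : b < m) : a + n * b < n * m := by
  have h : n * (b + 1) ≤ n * m := Nat.mul_le_mul_left _ hb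
  rw [mul_add, mul_one] at h
  omega

lemma CCode_mod {a n : ℕ} (ha : a < n) (b : ℕ) : (a + n * b) % n = a := by
  rw [Nat.add_mul_mod_self_left, Nat.mod_eq_of_lt ha]

lemma CCode_div {a n : ℕ} (ha : a < n) (b : ℕ) : (a + n * b) / n = b := by
  rw [Nat.add_mul_div_left _ _ ((Nat.zero_le _).trans_lt ha), Nat.div_eq_of_lt ha, zero_add]

lemma CCode_A (a : CC N → ZMod p) (y : ℕ → ℕ)
    (h : ∀ r (s : Fin (RR N + 2)), (a (r, s)).val = y (rowE r * (RR N + 2) + s)) :
    cA a = ∑ l ∈ range (22 * (RR N + 2)), y l * p ^ l := by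
  rw [CCode_blk, ← Fin.sum_univ_eq_sum_range
    (fun i => ∑ s ∈ range (RR N + 2), y (i * (RR N + 2) + s) * p ^ (i * (RR N + 2) + s)) 22,
    ← rowE.sum_comp, cA]
  refine sum_congr rfl fun r _ => sum_congr rfl fun s hs => ?_
  rw [ext, dif_pos (mem_range.1 hs), h]

lemma CCode_Y (a : CC N → ZMod p) : ∃ y : ℕ → ℕ, (∀ l, y l < p) ∧
    ∀ r (s : Fin (RR N + 2)), (a (r, s)).val = y (rowE r * (RR N + 2) + s) := by
  refine ⟨fun l => (a (rowE.symm (Fin.ofNat 22 (l / (RR N + 2))), Fin.ofNat _ l)).val,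
    fun l => ZMod.val_lt _, fun r s => ?_⟩
  have h1 : Fin.ofNat 22 ((rowE r * (RR N + 2) + s) / (RR N + 2)) = rowE r := by
    ext
    rw [Fin.val_ofNat, add_comm, mul_comm, CCode_div s.2, Nat.mod_eq_of_lt (rowE r).2]
  have h2 : Fin.ofNat (RR N + 2) (rowE r * (RR N + 2) + s) = s := by
    ext
    rw [Fin.val_ofNat, add_comm, mul_comm, CCode_mod s.2]
  simp only [h1, h2, Equiv.symm_apply_apply]

variable [NeZero N] [NeZero c]

lemma cX_lt (x : XX M N) : cX x < M ^ N := by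
  exact CCode_lt (x := fun l => (x l).val) (fun _ => ZMod.val_lt _) N

lemma dX_cX (x : XX M N) : dX M N (cX x) = x := by
  funext l
  rw [dX, cX, CCode_dig (x := fun l => (x l).val) (fun _ => ZMod.val_lt _) (ZMod.val_lt l),
    ZMod.natCast_zmod_val, ZMod.natCast_zmod_val]

lemma cX_dX {n : ℕ} (h : n < M ^ N) : cX (dX M N n) = n := by
  rw [← Nat.mod_eq_of_lt h, ← CCode_exp, CCode_exp, Nat.mod_eq_of_lt h, cX]
  conv_rhs => rw [← Nat.mod_eq_of_lt h, ← CCode_exp]
  refine sum_congr rfl fun l hl => ?_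
  rw [dX, ZMod.val_natCast, ZMod.val_natCast, Nat.mod_eq_of_lt (mem_range.1 hl), Nat.mod_mod]

lemma sum_dX {R : Type} [AddCommMonoid R] (f : XX M N → R) :
    ∑ x, f x = ∑ n ∈ range (M ^ N), f (dX M N n) := by
  refine sum_bij' (fun x _ => cX x) (fun n _ => dX M N n) (fun x _ => mem_range.2 (cX_lt x))
    (fun _ _ => mem_univ _) (fun x _ => dX_cX x) (fun n hn => cX_dX (mem_range.1 hn))
    fun x _ => ?_
  rw [dX_cX]

lemma cA_lt (a : CC N → ZMod p) : cA a < nV p N := by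
  obtain ⟨y, h1, h2⟩ := CCode_Y a
  rw [CCode_A a y h2]
  exact CCode_lt h1 _

lemma dA_cA (a : CC N → ZMod p) : dA p N (cA a) = a := by
  obtain ⟨y, h1, h2⟩ := CCode_Y a
  funext ⟨r, s⟩
  have h : (rowE r : ℕ) * (RR N + 2) + s < 22 * (RR N + 2) := by
    have h3 := CCode_mix s.2 (rowE r).2
    rwa [add_comm, mul_comm, mul_comm _ 22] at h3
  rw [dA, CCode_A a y h2, CCode_dig h1 h, ← h2, ZMod.natCast_zmod_val]

lemma cA_dA {n : ℕ} (h : n < nV p N) : cA (dA p N n) = n := by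
  rw [CCode_A _ (fun l => n / p ^ l % p), CCode_exp]
  · exact Nat.mod_eq_of_lt h
  · intro r s
    rw [dA, ZMod.val_natCast, Nat.mod_mod]

lemma cI_lt (i : II N c) : cI i < N * c := by
  exact CCode_mix (ZMod.val_lt _) i.2.2

lemma dI_cI (i : II N c) : dI N c (cI i) = i := by
  refine Prod.ext ?_ (Fin.ext ?_)
  · simp [dI, cI]
  · simp only [dI, cI, Fin.val_ofNat]
    rw [CCode_div (ZMod.val_lt _), Nat.mod_eq_of_lt i.2.2]

lemma cI_dI {n : ℕ} (h : n < N * c) : cI (dI N c n) = n := by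
  simp only [dI, cI, Fin.val_ofNat, ZMod.val_natCast]
  rw [Nat.mod_eq_of_lt (Nat.div_lt_of_lt_mul h), Nat.mod_add_div]

lemma cW_lt (w : WW M p c N) : cW w < nW M p c N := by
  exact CCode_mix (cI_lt _) (CCode_mix (cA_lt _) (cX_lt _))

lemma dW_cW (w : WW M p c N) : dW M p c N (cW w) = w := by
  rw [dW, cW, CCode_mod (cI_lt _), CCode_div (cI_lt _), CCode_mod (cA_lt _), CCode_div (cA_lt _),
    dI_cI, dA_cA, dX_cX]

lemma cW_dW {n : ℕ} (h : n < nW M p c N) : cW (dW M p c N n) = n := by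
  have h1 := Nat.div_lt_of_lt_mul h
  have h2 := Nat.div_lt_of_lt_mul h1
  have p1 : 0 < N * c := Nat.pos_of_mul_pos_right ((Nat.zero_le _).trans_lt h)
  have p2 : 0 < nV p N := Nat.pos_of_mul_pos_right ((Nat.zero_le _).trans_lt h1)
  simp only [dW, cW]
  rw [cI_dI (Nat.mod_lt _ p1), cA_dA (Nat.mod_lt _ p2), cX_dX h2, Nat.mod_add_div,
    Nat.mod_add_div]

lemma cP_lt (z : PP M p c N) : cP z < nP M p c N := by
  exact CCode_mix (cX_lt _) (CCode_mix (cA_lt _) (cW_lt _))

lemma dP_cP (z : PP M p c N) : dP M p c N (cP z) = z := by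
  rw [dP, cP, CCode_mod (cX_lt _), CCode_div (cX_lt _), CCode_mod (cA_lt _), CCode_div (cA_lt _),
    dX_cX, dA_cA, dW_cW]

lemma cP_dP {n : ℕ} (h : n < nP M p c N) : cP (dP M p c N n) = n := by
  have h1 := Nat.div_lt_of_lt_mul h
  have h2 := Nat.div_lt_of_lt_mul h1
  have p1 : 0 < M ^ N := Nat.pos_of_mul_pos_right ((Nat.zero_le _).trans_lt h)
  have p2 : 0 < nV p N := Nat.pos_of_mul_pos_right ((Nat.zero_le _).trans_lt h1)
  simp only [dP, cP]
  rw [cX_dX (Nat.mod_lt _ p1), cA_dA (Nat.mod_lt _ p2), cW_dW h2, Nat.mod_add_div,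
    Nat.mod_add_div]

/-- The numbering of the replica indices. -/
noncomputable def eW (M p c N : ℕ) [Fact M.Prime] [Fact p.Prime] [NeZero N] [NeZero c] :
    WW M p c N ≃ Fin (nW M p c N) :=
  ⟨fun w => ⟨cW w, cW_lt w⟩, fun n => dW M p c N n, dW_cW, fun n => Fin.ext (cW_dW n.2)⟩

/-- The numbering of the positions. -/
noncomputable def eP (M p c N : ℕ) [Fact M.Prime] [Fact p.Prime] [NeZero N] [NeZero c] :
    PP M p c N ≃ Fin (nP M p c N) :=
  ⟨fun z => ⟨cP z, cP_lt z⟩, fun n => dP M p c N n, dP_cP, fun n => Fin.ext (cP_dP n.2)⟩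

end Vale.Agent.P330
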