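import Vale.Agent.P330.CTab

/-! The decoder is computed in polynomial time. -/

namespace Vale.Agent.P330

open Vale.Agent.Lib.TM Finset
open scoped BigOperators

variable {α : Type} [Enc α] {M p c : ℕ} [Fact M.Prime] [Fact p.Prime] [NeZero c]
  {N : α → ℕ} [∀ a, NeZero (N a)] {J : Type} [Fintype J] {cx : ∀ a, Cx M p c (N a) J}
  (χ : AddChar (ZMod M) (ZMod p))

/-- A computable family of words. -/
def WdCT (N : α → ℕ) (u : ∀ a, PP M p c (N a) → ZMod p) : Prop :=
  FinCT fun z : α × ℕ => u z.1 (dP M p c (N z.1) z.2)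

lemma WdCT.app (hN : LogN N) {u : ∀ a, PP M p c (N a) → ZMod p} (hu : WdCT N u)
    {z : ∀ a, PP M p c (N a)} (hz : PCT N z) : FinCT fun a => u a (z a) := by
  exact (FinCT.comp' (g := fun a => (a, cP (z a))) hu (CT.id.mk (hz.code hN))).of_eq fun a => by
    simp only [dP_cP]

omit [∀ a, NeZero (N a)] in
lemma CDec_comp {β : Type} [Enc β] {u : ∀ a, PP M p c (N a) → ZMod p} (hu : WdCT N u) {f : β → α}
    (hf : CT 0 f) : WdCT (fun b => N (f b)) fun b => u (f b) :=
  FinCT.comp' (g := fun z : β × ℕ => (f z.1, z.2)) hu (by fun_prop)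

/-- The list of the values of a word. -/
noncomputable def CDecE (M c N : ℕ) [NeZero c] (u : PP M p c N → ZMod p) : List ℕ :=
  (List.range (nP M p c N)).map fun n => (u (dP M p c N n)).val

/-- The word with a given list of values. -/
noncomputable def CDecD (M c N : ℕ) (l : List ℕ) (z : PP M p c N) : ZMod p :=
  (l.getD (cP z) 0 : ℕ)

lemma CDec_de {N : ℕ} [NeZero N] (u : PP M p c N → ZMod p) :
    CDecD M c N (CDecE M c N u) = u := funext fun z => by
  simp [CDecD, CDecE, List.getD_eq_getElem?_getD, cP_lt z, dP_cP]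

lemma CDec_enc (hN : LogN N) {u : ∀ a, PP M p c (N a) → ZMod p} (hu : WdCT N u) :
    CT 0 fun a => CDecE M c (N a) (u a) :=
  CT.map (f := fun a n => (u a (dP M p c (N a) n)).val) (FinCT.toCT hu ZMod.val)
    ((hN.nP M p c).1.range (hN.nP M p c).2)

lemma CDec_dec (hN : LogN N) {l : α → List ℕ} (hl : CT 0 l) :
    WdCT (M := M) (p := p) (c := c) N fun a => CDecD M c (N a) (l a) :=
  FinCT.zmod p ((hl.comp CT.id.fst).getD
    ((p_dP (hN.comp CT.id.fst) CT.id.snd).code (hN.comp CT.id.fst)) (CT.const 0))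

lemma CDec_step (hM : (M : ZMod p) ≠ 0) (h : CxCT N cx) (R : Rule (QQ M J) (GG p) (ZMod p))
    {u : ∀ a, PP M p c (N a) → ZMod p} (hu : WdCT N u) :
    WdCT N fun a => corStep R ((cx a).sys χ) (u a) := by
  classical
  have : Fintype Fac := inferInstance
  have : Fintype PD := inferInstance
  have : Fintype (XD M) := inferInstance
  have : Fintype (QQ M J) := inferInstance
  have : Fintype (Row → Fin 3 → ZMod p) := inferInstance
  have : Fintype (Bool → Fin 5 → ZMod p) := inferInstance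
  have : Fintype ((Fin 5 → Bool) → Fin 5 → ZMod p) := inferInstance
  have : Fintype (Bool → Bool → (Fin 5 → Bool) → Fin 5 → ZMod p) := inferInstance
  have : Fintype (GG p) := inferInstance
  have h' := h.comp (f := fun z : α × ℕ => z.1) CT.id.fst
  have hz := p_dP (M := M) (p := p) (c := c) h'.hN (n := fun z : α × ℕ => z.2) CT.id.snd
  exact (h'.tab χ hM hz).op2 (FinCT.pi fun q =>
    (CDec_comp hu CT.id.fst).app h'.hN (h'.adF χ q hz)) R.cor

theorem CxCT.iter (hM : (M : ZMod p) ≠ 0) (h : CxCT N cx) (R : Rule (QQ M J) (GG p) (ZMod p))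
    {u : ∀ a, PP M p c (N a) → ZMod p} (hu : WdCT N u) {t : α → ℕ} (ht : CT 0 t) (hB : Bd 0 t) :
    WdCT N fun a => (corStep R ((cx a).sys χ))^[t a] (u a) := by
  have e : ∀ a k, (fun l => CDecE M c (N a) (corStep R ((cx a).sys χ) (CDecD M c (N a) l)))^[k]
      (CDecE M c (N a) (u a)) = CDecE M c (N a) ((corStep R ((cx a).sys χ))^[k] (u a)) := by
    intro a k
    induction k with
    | zero => rfl
    | succ k ih => rw [Function.iterate_succ_apply', Function.iterate_succ_apply', ih, CDec_de]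
  have h' := h.comp (f := fun z : α × List ℕ => z.1) CT.id.fst
  have key := ct_iterL
    (f := fun a l => CDecE M c (N a) (corStep R ((cx a).sys χ) (CDecD M c (N a) l))) p
    (CDec_enc h'.hN (CDec_step χ hM h' R (CDec_dec h'.hN CT.id.snd))) (CDec_enc h.hN hu) ht hB
    (h.hN.nP M p c).2 fun a l => ⟨by simp [CDecE], fun x hx => by
      obtain ⟨n, -, rfl⟩ := List.mem_map.1 hx
      exact ZMod.val_lt _⟩
  exact FinCT.of_eq (CDec_dec (M := M) (c := c) h.hN key) fun z => by simp only [e, CDec_de]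

theorem CxCT.extW (h : CxCT N cx) {u : ∀ a, PP M p c (N a) → ZMod p} (hu : WdCT N u) (σ : Slot) :
    CT 0 fun a => (cx a).extW χ (u a) σ := by
  have h1 := h.hN.comp (f := fun z : α × ℕ => z.1) CT.id.fst
  have h2 := h1.comp (f := fun w : (α × ℕ) × ℕ => w.1) CT.id.fst
  have hx := pt_dX (M := M) h2 (n := fun w => w.2) CT.id.snd
  have hR : CT 0 fun w : (α × ℕ) × ℕ => RR (N w.1.1) :=
    (CT.const 5).mul (h2.1.div (CT.const 11))
  have ht := hx.tw h2 (m := fun w => -sh (N w.1.1) σ)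
    (ct_val_neg h2 (ct_val_add h2 (ct_lo h2 _) (ct_val_cast h2 hR)))
  have hz : PCT (M := M) (p := p) (c := c) (fun w : (α × ℕ) × ℕ => N w.1.1) fun w =>
      (tw (-sh (N w.1.1) σ) (dX M (N w.1.1) w.2), Pi.single (.inl (σ, 0), 0) 1, 0) :=
    ⟨ht, VecCT.single h2 _, WCT.zero⟩
  have ha := (CDec_comp hu (f := fun w : (α × ℕ) × ℕ => w.1.1) CT.id.fst.fst).app h2 hz
  have hi := ((h.al (!ing σ) 0).comp (f := fun w : (α × ℕ) × ℕ => w.1) CT.id.fst).ip h2 hx
  have hs := FnCT.sum h1 (φ := fun z x => u z.1 (tw (-sh (N z.1) σ) x,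
      Pi.single (.inl (σ, 0), 0) 1, 0) * χ (-ip ((cx z.1).al (!ing σ) 0 z.2) x))
    (ha.op2 hi fun s t => s * χ (-t))
  have hp := FinCT.zmod p (h1.pow M 1 h1.1 fun a => by omega).1
  have hc : FinCT fun z : α × ℕ => coef χ (fun y => u z.1 (tw (-sh (N z.1) σ) y,
      Pi.single (.inl (σ, 0), 0) 1, 0)) ((cx z.1).al (!ing σ) 0 z.2) :=
    (hp.op2 hs fun s t => s⁻¹ * t).of_eq fun z => by rw [coef, Nat.cast_pow]
  have hk : CT 0 fun a => (cx a).A.k := h.A.fst
  exact CT.map (f := fun a i => decide (coef χ (fun y => u a (tw (-sh (N a) σ) y,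
    Pi.single (.inl (σ, 0), 0) 1, 0)) ((cx a).al (!ing σ) 0 i) = 1))
    (hc.toCT fun v => decide (v = 1)) (hk.range h.bk)

end Vale.Agent.P330
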