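import Vale.Agent.Lib.PCP.Exp

/-! Polynomial-time toolkit: functions with finitely many values, digits, searches. -/

namespace Vale.Agent.P330

open Vale.Agent.Lib.TM

variable {α β : Type} [Enc α] [Enc β]

open Classical in
/-- A function with values in a finite type whose fibres are decidable in polynomial time. -/
def FinCT {Z : Type} (f : α → Z) : Prop := ∀ z, CT 0 fun a => decide (f a = z)

lemma ct_mapC {S : Type} (l : List S) (f : S → α → β) (h : ∀ s, CT 0 (f s)) :
    CT 0 fun a => l.map fun s => f s a := by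
  induction l with
  | nil => exact CT.const []
  | cons s l ih => exact (h s).cons ih

lemma ct_flatMapC {S : Type} (l : List S) (f : S → α → List β) (h : ∀ s, CT 0 (f s)) :
    CT 0 fun a => l.flatMap fun s => f s a :=
  (ct_mapC l f h).flatten.of_eq fun _ => List.flatMap_def.symm

/-- Case analysis on a finite value. -/
theorem FinCT.elim {Z : Type} [Fintype Z] {f : α → Z} (hf : FinCT f) {g : Z → α → β}
    (hg : ∀ z, CT 0 (g z)) : CT 0 fun a => g (f a) a := by
  classical
  have h : ∀ l : List Z, ∃ G : α → Tr, CT 0 G ∧ ∀ a, f a ∈ l → G a = enc (g (f a) a) := fun l => by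
    induction l with
    | nil => exact ⟨_, CT.const .nil, fun a h => absurd h List.not_mem_nil⟩
    | cons z l ih =>
      obtain ⟨G, h1, h2⟩ := ih
      refine ⟨_, (hf z).cond ((hg z).of_enc_eq (g := fun a => enc (g z a)) fun _ => rfl) h1,
        fun a ha => ?_⟩
      by_cases e : f a = z
      · simp [e]
      · simp [e, h2 a ((List.mem_cons.1 ha).resolve_left e)]
  obtain ⟨G, h1, h2⟩ := h Finset.univ.toList
  exact h1.of_enc_eq fun a => h2 a (by simp)

theorem FinCT.comp {Z Z' : Type} [Fintype Z] {f : α → Z} (hf : FinCT f) (g : Z → Z') :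
    FinCT fun a => g (f a) := by
  classical
  exact fun z' => hf.elim (g := fun z _ => decide (g z = z')) fun _ => CT.const _

theorem FinCT.comp' {Z : Type} {f : β → Z} (hf : FinCT f) {g : α → β} (hg : CT 0 g) :
    FinCT fun a => f (g a) := fun z => (hf z).comp hg

theorem FinCT.prod {Z Z' : Type} {f : α → Z} {g : α → Z'} (hf : FinCT f) (hg : FinCT g) :
    FinCT fun a => (f a, g a) := fun z =>
  ((hf z.1).and (hg z.2)).of_eq fun a => by
    rw [Bool.eq_iff_iff]
    simp only [Bool.and_eq_true, decide_eq_true_eq, Prod.ext_iff]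

theorem FinCT.pi {J Z : Type} [Fintype J] {f : α → J → Z} (hf : ∀ j, FinCT fun a => f a j) :
    FinCT f := fun z =>
  (CT.all (f := fun _ b => b) CT.id.snd
    (ct_mapC Finset.univ.toList _ fun j => hf j (z j))).of_eq fun a => by
      rw [Bool.eq_iff_iff]
      simp [funext_iff]

theorem FinCT.bool {f : α → Bool} (hf : CT 0 f) : FinCT f := fun z =>
  (hf.beqBool (CT.const z)).of_eq fun a => by
    rw [Bool.eq_iff_iff]
    simp

theorem FinCT.zmod (p : ℕ) [NeZero p] {f : α → ℕ} (hf : CT 0 f) :
    FinCT fun a => (f a : ZMod p) := fun z =>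
  ((hf.mod (CT.const p)).beqNat (CT.const z.val)).of_eq fun a => by
    rw [Bool.eq_iff_iff, ← ZMod.val_natCast]
    simp only [beq_iff_eq, decide_eq_true_eq]
    exact (ZMod.val_injective p).eq_iff

theorem FinCT.of_eq {Z : Type} {f g : α → Z} (hf : FinCT f) (h : ∀ a, f a = g a) : FinCT g := by
  obtain rfl : f = g := funext h
  exact hf

/-- The `len` lowest digits of `n` in base `b`. -/
def digs (b len n : ℕ) : List ℕ := (List.range len).map fun l => n / b ^ l % b

/-- The number with the given digits in base `b`. -/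
def undigs (b : ℕ) (l : List ℕ) : ℕ := l.foldr (fun x r => x + b * r) 0

theorem ct_digs (b : ℕ) {len n : α → ℕ} (hl : CT 0 len) (hB : Bd 0 len) (hn : CT 0 n) :
    CT 0 fun a => digs b (len a) (n a) := by
  have h1 : CT 0 fun q : α × ℕ => b ^ min q.2 (len q.1) :=
    (CT.const b).pow (CT.id.snd.min (hl.comp CT.id.fst))
      ((hB.comp (CT.fst (e := 0) CT.id).size).of_le fun _ => min_le_right _ _)
  refine (CT.map (f := fun a l => n a / b ^ min l (len a) % b)
    (((hn.comp CT.id.fst).div h1).mod (CT.const b)) (hl.range hB)).of_eq fun a => ?_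
  exact List.map_congr_left fun l h => by rw [min_eq_left (List.mem_range.1 h).le]

theorem ct_undigs (b : ℕ) {l : α → List ℕ} (hl : CT 0 l) : CT 0 fun a => undigs b (l a) :=
  (CT.foldl (g := fun _ s x => x + b * s) (by fun_prop) (CT.const 0) hl.reverse
    (G := fun p => sz p.2 + (sz b + 5)) ((CT.snd (e := 0) CT.id).size.add (Bd.const _))
    (fun a s x => by
      have h1 := sz_add_le x (b * s)
      have h2 := sz_mul_le b s
      simp only
      omega)).of_eq fun a => List.foldl_reverse

lemma undigs_range (b len : ℕ) (f : ℕ → ℕ) :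
    undigs b ((List.range len).map f) = ∑ l ∈ Finset.range len, f l * b ^ l := by
  induction len generalizing f with
  | zero => rfl
  | succ m ih =>
    have h := ih fun l => f (l + 1)
    rw [List.range_succ_eq_map, Finset.sum_range_succ', List.map_cons, List.map_map]
    change f 0 + b * undigs b ((List.range m).map fun l => f (l + 1)) = _
    rw [h, Finset.mul_sum, pow_zero, mul_one, add_comm]
    congr 1
    exact Finset.sum_congr rfl fun l _ => by ring

lemma digs_length (b len n : ℕ) : (digs b len n).length = len := by simp [digs]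

lemma digs_getD (b : ℕ) {len l : ℕ} (n : ℕ) (h : l < len) :
    (digs b len n).getD l 0 = n / b ^ l % b := by
  simp [digs, List.getD_eq_getElem?_getD, h]

/-- All lists of length `r` with entries from `l`. -/
def tups {γ : Type} (l : List γ) : ℕ → List (List γ)
  | 0 => [[]]
  | r + 1 => l.flatMap fun a => (tups l r).map (a :: ·)

lemma mem_tups {γ : Type} {l : List γ} {r : ℕ} {t : List γ} :
    t ∈ tups l r ↔ t.length = r ∧ ∀ x ∈ t, x ∈ l := by
  induction r generalizing t with
  | zero =>
    simp only [tups, List.mem_singleton, List.length_eq_zero_iff]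
    exact ⟨fun h => ⟨h, by simp [h]⟩, fun h => h.1⟩
  | succ r ih =>
    simp only [tups, List.mem_flatMap, List.mem_map, ih]
    constructor
    · rintro ⟨a, ha, s, ⟨h1, h2⟩, rfl⟩
      exact ⟨by simp [h1], List.forall_mem_cons.2 ⟨ha, h2⟩⟩
    · rintro ⟨h1, h2⟩
      obtain _ | ⟨a, s⟩ := t
      · simp at h1
      · exact ⟨a, (List.forall_mem_cons.1 h2).1, s,
          ⟨by simpa using h1, (List.forall_mem_cons.1 h2).2⟩, rfl⟩

lemma ct_tups {l : α → List β} (hl : CT 0 l) (r : ℕ) : CT 0 fun a => tups (l a) r := by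
  induction r with
  | zero => exact CT.const _
  | succ r ih =>
    exact CT.flatMap (f := fun a x => (tups (l a) r).map (x :: ·))
      (CT.map (f := fun (p : α × β) t => p.2 :: t) (by fun_prop) (ih.comp CT.id.fst)) hl

/-- Iterating a map on lists of numbers below `b` of fixed length. -/
theorem ct_iterL {f : α → List ℕ → List ℕ} {init : α → List ℕ} {t len : α → ℕ} (b : ℕ)
    (hf : CT 0 fun z : α × List ℕ => f z.1 z.2) (hi : CT 0 init) (ht : CT 0 t) (htB : Bd 0 t)
    (hlen : Bd 0 len) (h : ∀ a l, (f a l).length ≤ len a ∧ ∀ x ∈ f a l, x < b) :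
    CT 0 fun a => (f a)^[t a] (init a) := by
  refine (CT.foldl_inv (g := fun a s (_ : ℕ) => f a s)
    (B := fun a => sz (init a) + (len a * (sz b + 1) + 1))
    (hf.comp (g := fun p : α × List ℕ × ℕ => (p.1, p.2.1)) (by fun_prop)) hi (ht.range htB)
    (hi.size.add ((hlen.mul (Bd.const _)).add (Bd.const _)))
    (fun a s _ => sz s ≤ sz (init a) + (len a * (sz b + 1) + 1)) (fun a => Nat.le_add_right _ _)
    (fun a s _ _ _ => ?_) fun _ _ _ h => h).of_eq fun a => ?_
  · refine (sz_list_le fun x hx => sz_mono ((h a s).2 x hx).le).trans (le_add_left ?_)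
    exact Nat.add_le_add_right (Nat.mul_le_mul_right _ (h a s).1) _
  · rw [List.foldl_const, List.length_range]

/-- Polynomial output size. -/
theorem ct_poly {f : α → β} (hf : CT 0 f) :
    ∃ q : Polynomial ℕ, ∀ a, sz (f a) ≤ q.eval (sz a) := by
  obtain ⟨C, hC⟩ := hf.size
  refine ⟨(4 * Polynomial.X + 4) ^ C, fun a => (hC a).trans ?_⟩
  simp only [bd, lg, zero_add, pow_one, Polynomial.eval_pow, Polynomial.eval_add,
    Polynomial.eval_mul, Polynomial.eval_ofNat, Polynomial.eval_X]
  rw [mul_comm, pow_mul]
  refine Nat.pow_le_pow_left ?_ _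
  have h2 := Nat.size_pos.mpr (sz_pos a)
  have h3 := Nat.lt_size.mp (show (sz a).size - 1 < (sz a).size by omega)
  rw [show (sz a).size + 1 = (sz a).size - 1 + 2 by omega, pow_add]
  omega

end Vale.Agent.P330
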