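import Vale.Agent.P330.MachI
import Vale.Agent.P330.CTBase

/-! The machine is computed in polynomial time. -/

namespace Vale.Agent.P330

open Vale.Agent.Lib.TM

section

variable {α β : Type} [Enc α] [Enc β]

@[fun_prop]
theorem MachCT_ite {P : α → Prop} {_ : DecidablePred P} {f g : α → β}
    (hP : CT 0 fun a => decide (P a)) (hf : CT 0 f) (hg : CT 0 g) :
    CT 0 fun a => if P a then f a else g a :=
  (hP.cond hf hg).of_eq fun a => by by_cases h : P a <;> simp [h]

@[fun_prop]
theorem MachCT_eq {m n : α → ℕ} (hm : CT 0 m) (hn : CT 0 n) : CT 0 fun a => decide (m a = n a) :=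
  (hm.beqNat hn).of_eq fun a => by rw [Bool.eq_iff_iff]; simp

@[fun_prop]
theorem MachCT_eqB {m n : α → Bool} (hm : CT 0 m) (hn : CT 0 n) :
    CT 0 fun a => decide (m a = n a) :=
  (hm.beqBool hn).of_eq fun a => by rw [Bool.eq_iff_iff]; simp

@[fun_prop]
theorem MachCT_eqL {m n : α → List Bool} (hm : CT 0 m) (hn : CT 0 n) :
    CT 0 fun a => decide (m a = n a) := by
  have h : CT 0 fun a => decide ((m a).length = (n a).length) &&
      (List.range (m a).length).all fun i => (m a).getD i false == (n a).getD i false := by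
    fun_prop
  refine h.of_eq fun a => ?_
  rw [Bool.eq_iff_iff]
  simp only [Bool.and_eq_true, decide_eq_true_eq, List.all_eq_true, List.mem_range, beq_iff_eq]
  refine ⟨fun h => List.ext_getElem h.1 fun i h1 h2 => ?_, fun h => by simp [h]⟩
  rw [← List.getD_eq_getElem _ false h1, ← List.getD_eq_getElem _ false h2]
  exact h.2 i h1

@[fun_prop]
theorem MachCT_toNat {c : α → Bool} (hc : CT 0 c) : CT 0 fun a => (c a).toNat :=
  (hc.cond (CT.const 1) (CT.const 0)).of_eq fun a => by cases c a <;> rfl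

@[fun_prop]
theorem MachCT_gate {g : α → BGate} {w : α → List Bool} (hg : CT 0 g) (hw : CT 0 w) :
    CT 0 fun a => gateVal (g a) (w a) := by
  unfold gateVal
  fun_prop

end

theorem ct_wires : CT 0 fun z : Circ × List Bool => wires z.1 z.2 :=
  CT.foldl (g := fun _ w g => w ++ [gateVal g w]) (by fun_prop) CT.id.snd CT.id.fst.fst
    (Bd.const 6) fun a s x => by
      have := sz_append s [gateVal x s]
      simp only [sz_cons, sz_bool, sz_nil] at this
      omega

theorem ct_run : CT 0 fun z : Circ × List Bool => z.1.run z.2 :=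
  CT.map (f := fun (z : Circ × List Bool) o => (wires z.1 z.2).getD o false)
    ((ct_wires.comp CT.id.fst).getD CT.id.snd (CT.const _)) CT.id.fst.snd

theorem ct_ev : CT 0 fun z : Desc × List Bool => z.1.ev z.2 := by
  unfold Desc.ev Desc.tt Desc.ix bnum
  fun_prop

theorem ct_step (dir : Bool) : CT 0 fun z : Mach × List Bool => z.1.step dir z.2 := by
  refine CT.map (f := fun (z : Mach × List Bool) D => Desc.ev D z.2)
    (ct_ev.comp (CT.id.snd.mk CT.id.fst.snd)) ?_
  unfold Mach.prog
  fun_prop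

/-- The first solution in a list of candidates. -/
def EoL.pick (I : EoL) (l : List (List Bool)) : List Bool :=
  (l.filter fun v => decide (v.length = I.1 ∧ v ≠ List.replicate v.length false ∧
    (I.2.2.run (I.2.1.run v) ≠ v ∨ I.2.1.run (I.2.2.run v) ≠ v))).headD []

theorem EoL.pick_sol {I : EoL} {l : List (List Bool)} (h : ∃ v ∈ l, I.Sol v) :
    I.Sol (I.pick l) := by
  obtain ⟨v, h1, h2⟩ := h
  unfold EoL.pick
  generalize hl : l.filter _ = l'
  have h3 : v ∈ l' := hl ▸ List.mem_filter.2 ⟨h1, decide_eq_true ⟨h2.1, h2.1 ▸ h2.2.1, h2.2.2⟩⟩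
  obtain _ | ⟨u, l'⟩ := l'
  · exact absurd h3 List.not_mem_nil
  · have h4 := of_decide_eq_true (List.mem_filter.1 (hl ▸ List.mem_cons_self : u ∈ _)).2
    exact ⟨h4.1, h4.1 ▸ h4.2.1, h4.2.2⟩

theorem ct_pick : CT 0 fun z : EoL × List (List Bool) => z.1.pick z.2 := by
  refine CT.headD (CT.filter (f := fun (z : EoL × List (List Bool)) v => decide (v.length = z.1.1 ∧
    v ≠ List.replicate v.length false ∧ (z.1.2.2.run (z.1.2.1.run v) ≠ v ∨
      z.1.2.1.run (z.1.2.2.run v) ≠ v))) ?_ CT.id.snd) (CT.const _)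
  have h1 : CT 0 fun p : (EoL × List (List Bool)) × List Bool => p.1.1.2.1 := by fun_prop
  have h2 : CT 0 fun p : (EoL × List (List Bool)) × List Bool => p.1.1.2.2 := by fun_prop
  simp only [Bool.decide_and, Bool.decide_or, ne_eq, decide_not, ← List.map_const']
  exact (MachCT_eq (by fun_prop) (by fun_prop)).and ((MachCT_eqL CT.id.snd (by fun_prop)).not.and
    ((MachCT_eqL (ct_run.comp (h2.mk (ct_run.comp (h1.mk CT.id.snd)))) CT.id.snd).not.or
      (MachCT_eqL (ct_run.comp (h1.mk (ct_run.comp (h2.mk CT.id.snd)))) CT.id.snd).not))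

/-- The instance with the number of inputs replaced by the number of outputs. -/
def EoL.norm (I : EoL) : EoL := (I.2.1.2.length, I.2)

lemma EoL.Valid.norm_eq {I : EoL} (h : I.Valid) : I.norm = I :=
  Prod.ext h.2.1.2.1 rfl

section

variable {α : Type} [Enc α] {I : α → EoL} {q t : α → ℕ}

open EoL

@[fun_prop]
theorem MachCT_wires {C : α → Circ} {v : α → List Bool} (hC : CT 0 C) (hv : CT 0 v) :
    CT 0 fun a => wires (C a) (v a) := ct_wires.comp (hC.mk hv)

@[fun_prop]
theorem MachCT_gS (hI : CT 0 I) : CT 0 fun a => (I a).gS := by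
  unfold gS
  fun_prop

@[fun_prop]
theorem MachCT_gP (hI : CT 0 I) : CT 0 fun a => (I a).gP := by
  unfold gP
  fun_prop

@[fun_prop]
theorem MachCT_tY (hI : CT 0 I) : CT 0 fun a => (I a).tY := by
  unfold tY
  fun_prop

@[fun_prop]
theorem MachCT_tP (hI : CT 0 I) : CT 0 fun a => (I a).tP := by
  unfold tP
  fun_prop

@[fun_prop]
theorem MachCT_tD (hI : CT 0 I) : CT 0 fun a => (I a).tD := by
  unfold tD
  fun_prop

@[fun_prop]
theorem MachCT_T (hI : CT 0 I) : CT 0 fun a => (I a).T := by
  unfold T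
  fun_prop

@[fun_prop]
theorem MachCT_oS (hI : CT 0 I) : CT 0 fun a => (I a).oS := by
  unfold oS
  fun_prop

@[fun_prop]
theorem MachCT_oY (hI : CT 0 I) : CT 0 fun a => (I a).oY := by
  unfold oY
  fun_prop

@[fun_prop]
theorem MachCT_oP (hI : CT 0 I) : CT 0 fun a => (I a).oP := by
  unfold oP
  fun_prop

@[fun_prop]
theorem MachCT_k (hI : CT 0 I) : CT 0 fun a => (I a).k := by
  unfold k
  fun_prop

@[fun_prop]
theorem MachCT_bth (hI : CT 0 I) (hq : CT 0 q) : CT 0 fun a => (I a).bth (q a) := by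
  unfold bth
  fun_prop

@[fun_prop]
theorem MachCT_dth (hI : CT 0 I) (hq : CT 0 q) : CT 0 fun a => (I a).dth (q a) := by
  unfold dth
  fun_prop

@[fun_prop]
theorem MachCT_alive (hI : CT 0 I) (hq : CT 0 q) (ht : CT 0 t) :
    CT 0 fun a => (I a).alive (q a) (t a) := by
  unfold alive
  fun_prop

@[fun_prop]
theorem MachCT_con (hI : CT 0 I) (hq : CT 0 q) (ht : CT 0 t) :
    CT 0 fun a => (I a).con (q a) (t a) := by
  unfold con
  fun_prop

@[fun_prop]
theorem MachCT_shG {g : α → BGate} (hq : CT 0 q) (hg : CT 0 g) :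
    CT 0 fun a => shG (q a) (g a) := by
  unfold shG
  fun_prop

@[fun_prop]
theorem MachCT_op {d : α → Bool} (hI : CT 0 I) (hd : CT 0 d) (hq : CT 0 q) :
    CT 0 fun a => (I a).op (d a) (q a) := by
  unfold op
  fun_prop

theorem MachCT_tab (F : (Bool → Bool → Bool) → List Bool) (hq : CT 0 q) :
    CT 0 fun a => F (opV (q a)) := by
  have h : CT 0 fun a => if q a = 0 then F (opV 0) else if q a = 1 then F (opV 1)
      else F (opV 2) := by fun_prop
  refine h.of_eq fun a => ?_
  split_ifs with h0 h1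
  · rw [h0]
  · rw [h1]
  · refine congrArg F (funext fun x => funext fun y => ?_)
    simp [opV, h0, h1]

@[fun_prop]
theorem MachCT_updT (hq : CT 0 q) : CT 0 fun a => updT (q a) :=
  MachCT_tab (fun o => mkT fun β => if β 0 then o (β 3) (β 4) else if β 1 then false else β 2) hq

@[fun_prop]
theorem MachCT_neT (hq : CT 0 q) : CT 0 fun a => neT (q a) :=
  MachCT_tab (fun o => mkT fun β => β 0 && (β 1 != o (β 3) (β 4))) hq

theorem MachCT_upd (d : Bool) (hI : CT 0 I) (hq : CT 0 q) : CT 0 fun a => (I a).upd d (q a) := by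
  unfold upd
  simp only [List.replicate]
  fun_prop

theorem MachCT_chk (g : Bool) (hI : CT 0 I) (ht : CT 0 t) (hq : CT 0 q) :
    CT 0 fun a => (I a).chk g (t a) (q a) := by
  unfold chk
  simp only [Bool.decide_or, ne_eq, decide_not]
  fun_prop

theorem MachCT_cellv {x y : α → List Bool} (hI : CT 0 I) (hx : CT 0 x) (hy : CT 0 y)
    (ht : CT 0 t) (hq : CT 0 q) : CT 0 fun a => (I a).cellv (x a) (y a) (t a) (q a) := by
  unfold cellv
  fun_prop

theorem MachCT_bT (hI : CT 0 I) : Bd 0 fun a => (I a).T :=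
  have h1 : Bd 0 fun a => (I a).gS := hI.snd.fst.fst.bd_length
  have h2 : Bd 0 fun a => (I a).gP := hI.snd.snd.fst.bd_length
  (((((h1.add (Bd.const 1)).add h2).add h1).add h2).add (Bd.const 3))

theorem MachCT_bk (hI : CT 0 I) (hB : Bd 0 fun a => (I a).1) : Bd 0 fun a => (I a).k :=
  ((((MachCT_bT hI).add hB).add hI.snd.fst.fst.bd_length).add hB).add hI.snd.snd.fst.bd_length

theorem MachCT_mach (hI : CT 0 I) (hB : Bd 0 fun a => (I a).1) : CT 0 fun a => (I a).mach := by
  have hk := (MachCT_k hI).range (MachCT_bk hI hB)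
  have hT := (MachCT_T hI).range (MachCT_bT hI)
  have h0 : CT 0 fun a => List.replicate (I a).1 false :=
    (CT.map (f := fun _ _ => false) (CT.const _) (hI.fst.range hB)).of_eq fun a => by simp
  have hu : ∀ d, CT 0 fun a => (List.range (I a).k).map ((I a).upd d) := fun d =>
    CT.map (f := fun a q => (I a).upd d q) (MachCT_upd d (hI.comp CT.id.fst) CT.id.snd) hk
  have hc : ∀ g, CT 0 fun a => (I a).cks g := fun g =>
    CT.flatMap (f := fun a t => (List.range (I a).k).map ((I a).chk g t))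
      (CT.map (f := fun (p : α × ℕ) q => (I p.1).chk g p.2 q)
        (MachCT_chk g (hI.comp CT.id.fst.fst) CT.id.fst.snd CT.id.snd) (hk.comp CT.id.fst)) hT
  have hw : CT 0 fun a => (I a).cst (List.replicate (I a).1 false) (List.replicate (I a).1 false)
      ((I a).tP + 1) :=
    CT.map (f := fun a q => (I a).cellv (List.replicate (I a).1 false)
      (List.replicate (I a).1 false) ((I a).tP + 1) q) (MachCT_cellv (hI.comp CT.id.fst)
        (h0.comp CT.id.fst) (h0.comp CT.id.fst) (by fun_prop) CT.id.snd) hk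
  exact (MachCT_k hI).mk ((hu true).mk ((hu false).mk ((hc false).mk ((hc true).mk
    (hw.mk (by fun_prop))))))

theorem MachCT_norm : CT 0 fun I : EoL => I.norm := by
  unfold EoL.norm
  fun_prop

end

theorem ct_mach : CT 0 fun I : EoL => I.norm.mach :=
  MachCT_mach MachCT_norm (CT.snd (e := 0) CT.id).fst.snd.bd_length

theorem ct_cands : CT 0 fun z : EoL × List Bool => z.1.norm.cands z.2 := by
  have h1 : CT 0 fun z : EoL × List Bool => z.1.norm := MachCT_norm.comp CT.id.fst
  have h2 : CT 0 fun z : EoL × List Bool => List.range z.1.norm.1 :=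
    CT.range_length CT.id.fst.snd.fst.snd
  exact (CT.map (f := fun (z : EoL × List Bool) j => z.2.getD (z.1.norm.T + j) false)
    (CT.id.fst.snd.getD ((MachCT_T (h1.comp CT.id.fst)).add CT.id.snd) (CT.const _)) h2).cons
      ((CT.map (f := fun (z : EoL × List Bool) j => z.2.getD (z.1.norm.oY + j) false)
        (CT.id.fst.snd.getD ((MachCT_oY (h1.comp CT.id.fst)).add CT.id.snd) (CT.const _))
          h2).cons (CT.const _))

end Vale.Agent.P330
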