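import Vale.Agent.P330.CCode
import Vale.Agent.P330.MachCT

/-! Polynomial time families of points, vectors and positions. -/

namespace Vale.Agent.P330

open Vale.Agent.Lib.TM Finset
open scoped BigOperators

variable {α β : Type} [Enc α] [Enc β]

theorem FinCT.const {Z : Type} (z : Z) : FinCT fun _ : α => z := by
  exact fun _ => CT.const _

theorem FinCT.op2 {Z Z' Z'' : Type} [Fintype Z] [Fintype Z'] {f : α → Z} {g : α → Z'}
    (hf : FinCT f) (hg : FinCT g) (o : Z → Z' → Z'') : FinCT fun a => o (f a) (g a) :=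
  (hf.prod hg).comp fun z => o z.1 z.2

theorem FinCT.ite {Z : Type} {P : α → Prop} [DecidablePred P] (hP : CT 0 fun a => decide (P a))
    {f g : α → Z} (hf : FinCT f) (hg : FinCT g) : FinCT fun a => if P a then f a else g a := by
  refine fun z => (MachCT_ite hP (hf z) (hg z)).of_eq fun a => ?_
  by_cases h : P a <;> simp [h]

theorem FinCT.toCT {Z : Type} [Fintype Z] {f : α → Z} (hf : FinCT f) (g : Z → β) :
    CT 0 fun a => g (f a) := hf.elim (g := fun z _ => g z) fun _ => CT.const _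

theorem CFam_sum {f : α → ℕ → ℕ} {n : α → ℕ} (hf : CT 0 fun z : α × ℕ => f z.1 z.2)
    (hn : CT 0 n) (hB : Bd 0 n) : CT 0 fun a => ∑ i ∈ range (n a), f a i :=
  (CT.map (f := f) hf (hn.range hB)).sum.of_eq fun _ => rfl

theorem FinCT.sum_range {q : ℕ} [NeZero q] {f : α → ℕ → ZMod q} {n : α → ℕ}
    (hf : FinCT fun z : α × ℕ => f z.1 z.2) (hn : CT 0 n) (hB : Bd 0 n) :
    FinCT fun a => ∑ i ∈ range (n a), f a i := by
  refine (FinCT.zmod q (CFam_sum (f := fun a i => (f a i).val) (hf.toCT ZMod.val) hn hB)).of_eq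
    fun a => ?_
  simp only [Nat.cast_sum, ZMod.natCast_zmod_val]

theorem FinCT.sum_fin {q : ℕ} [NeZero q] {T : Type} [Fintype T] {f : α → T → ZMod q}
    (hf : ∀ t, FinCT fun a => f a t) : FinCT fun a => ∑ t, f a t := by
  classical
  exact (FinCT.pi hf).comp fun u => ∑ t, u t

theorem ct_sum_range {f : α → ℕ → ℕ} {n : α → ℕ} (hf : CT 0 fun z : α × ℕ => f z.1 z.2)
    (hn : CT 0 n) (hB : Bd 0 n) : CT 0 fun a => ∑ i ∈ range (n a), f a i := by
  exact CFam_sum hf hn hB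

/-- A logarithmic parameter. -/
def LogN (N : α → ℕ) : Prop := CT 0 N ∧ Bd 0 fun a => 2 ^ N a

lemma LogN.comp {N : α → ℕ} (h : LogN N) {f : β → α} (hf : CT 0 f) : LogN fun b => N (f b) :=
  ⟨h.1.comp hf, h.2.comp hf.size⟩

lemma LogN.bd {N : α → ℕ} (h : LogN N) : Bd 0 N := h.2.of_le fun _ => Nat.lt_two_pow_self.le

lemma CFam_pow {t : α → ℕ} (h : Bd 0 t) (k : ℕ) : Bd 0 fun a => t a ^ k := by
  induction k with
  | zero => exact Bd.const 1
  | succ k ih => exact ih.mul h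

lemma LogN.pow {N : α → ℕ} (h : LogN N) (b C : ℕ) {n : α → ℕ} (hn : CT 0 n)
    (hC : ∀ a, n a ≤ C * (N a + 1)) : CT 0 (fun a => b ^ n a) ∧ Bd 0 fun a => b ^ n a := by
  refine ⟨(CT.const b).pow hn (((Bd.const C).mul (h.bd.add (Bd.const 1))).of_le hC),
    ((CFam_pow h.2 (b * C)).mul (Bd.const (2 ^ (b * C)))).of_le fun a => ?_⟩
  calc b ^ n a ≤ (2 ^ b) ^ n a := Nat.pow_le_pow_left Nat.lt_two_pow_self.le _
    _ ≤ (2 ^ b) ^ (C * (N a + 1)) := Nat.pow_le_pow_right (by positivity) (hC a)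
    _ = _ := by rw [← pow_mul, ← pow_mul, ← pow_add]; congr 1; ring

lemma CFam_nV {N : α → ℕ} (h : LogN N) (p : ℕ) :
    CT 0 (fun a => nV p (N a)) ∧ Bd 0 fun a => nV p (N a) :=
  h.pow p 44 ((CT.const 22).mul (((CT.const 5).mul (h.1.div (CT.const 11))).add (CT.const 2)))
    fun a => by unfold RR; omega

lemma LogN.nW {N : α → ℕ} (h : LogN N) (M p c : ℕ) :
    CT 0 (fun a => nW M p c (N a)) ∧ Bd 0 fun a => nW M p c (N a) := by
  have h1 := CFam_nV h p
  have h2 := h.pow M 1 h.1 fun a => by omega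
  exact ⟨(h.1.mul (CT.const c)).mul (h1.1.mul h2.1), (h.bd.mul (Bd.const c)).mul (h1.2.mul h2.2)⟩

lemma LogN.nP {N : α → ℕ} (h : LogN N) (M p c : ℕ) :
    CT 0 (fun a => nP M p c (N a)) ∧ Bd 0 fun a => nP M p c (N a) := by
  have h1 := CFam_nV h p
  have h2 := h.pow M 1 h.1 fun a => by omega
  have h3 := h.nW M p c
  exact ⟨h2.1.mul (h1.1.mul h3.1), h2.2.mul (h1.2.mul h3.2)⟩

variable {M p c : ℕ} [Fact M.Prime] [Fact p.Prime] {N : α → ℕ}

/-- A computable family of points. -/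
def PtCT (N : α → ℕ) (x : ∀ a, XX M (N a)) : Prop := FinCT fun z : α × ℕ => x z.1 z.2

/-- A computable family of vectors. -/
def VecCT (N : α → ℕ) (v : ∀ a, CC (N a) → ZMod p) : Prop :=
  ∀ r, FinCT fun z : α × ℕ => ext (v z.1) r z.2

/-- A computable family of directions. -/
def IdxCT (N : α → ℕ) (i : ∀ a, II (N a) c) : Prop :=
  CT 0 (fun a => (i a).1.val) ∧ FinCT fun a => (i a).2

/-- A computable family of replica indices. -/
def WCT (N : α → ℕ) (w : ∀ a, WW M p c (N a)) : Prop :=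
  IdxCT N (fun a => (w a).1) ∧ VecCT N (fun a => (w a).2.1) ∧ PtCT N fun a => (w a).2.2

/-- A computable family of positions. -/
def PCT (N : α → ℕ) (z : ∀ a, PP M p c (N a)) : Prop :=
  PtCT N (fun a => (z a).1) ∧ VecCT N (fun a => (z a).2.1) ∧ WCT N fun a => (z a).2.2

/-- A computable family of functions of points. -/
def FnCT (N : α → ℕ) (φ : ∀ a, XX M (N a) → ZMod p) : Prop :=
  FinCT fun z : α × ℕ => φ z.1 (dX M (N z.1) z.2)

lemma PtCT.comp {x : ∀ a, XX M (N a)} (h : PtCT N x) {f : β → α} (hf : CT 0 f) :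
    PtCT (fun b => N (f b)) fun b => x (f b) :=
  FinCT.comp' (g := fun z : β × ℕ => (f z.1, z.2)) h (by fun_prop)

lemma VecCT.comp {v : ∀ a, CC (N a) → ZMod p} (h : VecCT N v) {f : β → α} (hf : CT 0 f) :
    VecCT (fun b => N (f b)) fun b => v (f b) := fun r =>
  FinCT.comp' (g := fun z : β × ℕ => (f z.1, z.2)) (h r) (by fun_prop)

lemma FnCT.comp {φ : ∀ a, XX M (N a) → ZMod p} (h : FnCT N φ) {f : β → α} (hf : CT 0 f) :
    FnCT (fun b => N (f b)) fun b => φ (f b) :=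
  FinCT.comp' (g := fun z : β × ℕ => (f z.1, z.2)) h (by fun_prop)

variable [∀ a, NeZero (N a)] {x y : ∀ a, XX M (N a)} {u v : ∀ a, CC (N a) → ZMod p}

lemma PtCT.zero : PtCT (M := M) N fun _ => 0 := by
  exact FinCT.const 0

lemma PtCT.e0 (hN : LogN N) : PtCT (M := M) N fun _ => Pi.single 0 1 := by
  refine (FinCT.ite (MachCT_eq (CT.id.snd.mod (hN.1.comp CT.id.fst)) (CT.const 0))
    (FinCT.const (1 : ZMod M)) (FinCT.const 0)).of_eq fun z => ?_
  simp only [Pi.single_apply, ZMod.natCast_eq_zero_iff, Nat.dvd_iff_mod_eq_zero]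

lemma PtCT.add (hx : PtCT N x) (hy : PtCT N y) : PtCT N fun a => x a + y a := by
  exact FinCT.op2 hx hy (· + ·)

lemma PtCT.sub (hx : PtCT N x) (hy : PtCT N y) : PtCT N fun a => x a - y a := by
  exact FinCT.op2 hx hy (· - ·)

lemma PtCT.smul {t : α → ZMod M} (ht : FinCT t) (hx : PtCT N x) : PtCT N fun a => t a • x a := by
  exact FinCT.op2 (ht.comp' CT.id.fst) hx (· * ·)

lemma PtCT.sum {T : Type} [Fintype T] {x : T → ∀ a, XX M (N a)} (hx : ∀ t, PtCT N (x t)) :
    PtCT N fun a => ∑ t, x t a := by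
  exact (FinCT.sum_fin hx).of_eq fun z => (Finset.sum_apply _ _ _).symm

lemma PtCT.ite {P : α → Prop} [DecidablePred P] (hP : CT 0 fun a => decide (P a)) (hx : PtCT N x)
    (hy : PtCT N y) : PtCT N fun a => if P a then x a else y a := by
  refine (FinCT.ite (hP.comp CT.id.fst) hx hy).of_eq fun z => ?_
  by_cases h : P z.1 <;> simp only [h, if_true, if_false]

lemma PtCT.tw (hN : LogN N) {m : ∀ a, ZMod (N a)} (hm : CT 0 fun a => (m a).val) (hx : PtCT N x) :
    PtCT N fun a => tw (m a) (x a) := by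
  refine (FinCT.comp' (g := fun z : α × ℕ => (z.1, z.2 + (N z.1 - (m z.1).val))) hx
    (CT.id.fst.mk (CT.id.snd.add ((hN.1.sub hm).comp CT.id.fst)))).of_eq fun z => ?_
  simp only [P330.tw, Nat.cast_add, Nat.cast_sub (ZMod.val_lt _).le, ZMod.natCast_self,
    ZMod.natCast_zmod_val, sub_eq_add_neg, zero_add]

lemma PtCT.mask (hN : LogN N) {P : ∀ a, ZMod (N a) → Prop} [∀ a, DecidablePred (P a)]
    (hP : CT 0 fun z : α × ℕ => decide (P z.1 z.2)) (hx : PtCT N x) :
    PtCT N fun a l => if P a l then x a l else 0 := by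
  exact FinCT.ite hP hx (FinCT.const 0)

lemma PtCT.ip (hN : LogN N) (hy : PtCT N y) (hx : PtCT N x) : FinCT fun a => ip (y a) (x a) := by
  refine (FinCT.sum_range (f := fun a i => y a i * x a i) (FinCT.op2 hy hx (· * ·)) hN.1
    hN.bd).of_eq fun a => ?_
  exact sum_nbij' (fun i => (i : ZMod (N a))) ZMod.val (fun _ _ => mem_univ _)
    (fun l _ => mem_range.2 (ZMod.val_lt l)) (fun i hi => ZMod.val_cast_of_lt (mem_range.1 hi))
    (fun l _ => ZMod.natCast_zmod_val l) fun _ _ => rfl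

lemma PtCT.code (hN : LogN N) (hx : PtCT N x) : CT 0 fun a => cX (x a) := by
  have h1 : CT 0 fun q : α × ℕ => M ^ min q.2 (N q.1) :=
    (CT.const M).pow (CT.id.snd.min (hN.1.comp CT.id.fst))
      ((hN.bd.comp (CT.fst (e := 0) CT.id).size).of_le fun _ => min_le_right _ _)
  refine (ct_sum_range (f := fun a l => (x a l).val * M ^ min l (N a))
    ((FinCT.toCT hx ZMod.val).mul h1) hN.1 hN.bd).of_eq fun a => ?_
  exact sum_congr rfl fun l hl => by rw [min_eq_left (mem_range.1 hl).le]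

lemma pt_dX (hN : LogN N) {n : α → ℕ} (hn : CT 0 n) : PtCT N fun a => dX M (N a) (n a) := by
  have h1 : CT 0 fun q : α × ℕ => M ^ (q.2 % N q.1) :=
    (CT.const M).pow (CT.id.snd.mod (hN.1.comp CT.id.fst))
      ((hN.bd.comp (CT.fst (e := 0) CT.id).size).of_le fun _ =>
        (Nat.mod_lt _ (NeZero.pos _)).le)
  refine (FinCT.zmod M (((hn.comp CT.id.fst).div h1).mod (CT.const M))).of_eq fun z => ?_
  simp only [dX, ZMod.val_natCast]

lemma ct_val_cast (hN : LogN N) {n : α → ℕ} (hn : CT 0 n) :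
    CT 0 fun a => ((n a : ZMod (N a))).val := by
  exact (hn.mod hN.1).of_eq fun a => (ZMod.val_natCast _ _).symm

lemma ct_val_add (hN : LogN N) {m m' : ∀ a, ZMod (N a)} (hm : CT 0 fun a => (m a).val)
    (hm' : CT 0 fun a => (m' a).val) : CT 0 fun a => (m a + m' a).val := by
  exact ((hm.add hm').mod hN.1).of_eq fun a => (ZMod.val_add _ _).symm

lemma ct_val_neg (hN : LogN N) {m : ∀ a, ZMod (N a)} (hm : CT 0 fun a => (m a).val) :
    CT 0 fun a => (-m a).val := by
  exact ((hN.1.sub hm).mod hN.1).of_eq fun a => (ZMod.neg_val' _).symm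

lemma FnCT.app (hN : LogN N) {φ : ∀ a, XX M (N a) → ZMod p} (hφ : FnCT N φ) (hx : PtCT N x) :
    FinCT fun a => φ a (x a) := by
  refine (FinCT.comp' (g := fun a => (a, cX (x a))) hφ (CT.id.mk (hx.code hN))).of_eq fun a => ?_
  simp only [dX_cX]

lemma FnCT.sum (hN : LogN N) {φ : ∀ a, XX M (N a) → ZMod p} (hφ : FnCT N φ) :
    FinCT fun a => ∑ x, φ a x := by
  have h2 := hN.pow M 1 hN.1 fun a => by omega
  exact (FinCT.sum_range (f := fun a n => φ a (dX M (N a) n)) hφ h2.1 h2.2).of_eq fun a =>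
    (sum_dX _).symm

end Vale.Agent.P330
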