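import Vale.Agent.P330.Av

/-! Expression trees of generalized gates, their semantics, Kleene circuits and averages. -/

namespace Vale.Agent.P330

open Finset
open scoped BigOperators

/-- Expression trees; `cst a b` is the constant `a / (a + b + 1)`. -/
inductive Ex (ι : Type) where
  | inp (i : ι)
  | cst (a b : ℕ)
  | half (e : Ex ι)
  | add (e f : Ex ι)
  | less (e f : Ex ι)
  | neg (e : Ex ι)
  | dis (e f : Ex ι)
  | con (e f : Ex ι)

variable {ι : Type}

/-- The root is a gate. -/
def Ex.IsGate : Ex ι → Prop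
  | .inp _ => False
  | _ => True

/-- In the unit interval. -/
def In01 (v : ℝ) : Prop := 0 ≤ v ∧ v ≤ 1

/-- `v` is a possible root value when all gates are `ε`-satisfied and the inputs are `y`. -/
def Sem (ε : ℝ) (y : ι → ℝ) : Ex ι → ℝ → Prop
  | .inp i, v => v = y i
  | .cst a b, v => In01 v ∧ |v - (a : ℝ) / (a + b + 1)| ≤ ε
  | .half e, v => In01 v ∧ ∃ u, Sem ε y e u ∧ |v - u / 2| ≤ ε
  | .add e f, v => In01 v ∧ ∃ u w, Sem ε y e u ∧ Sem ε y f w ∧ |v - min (u + w) 1| ≤ ε
  | .less e f, v => In01 v ∧ ∃ u w, Sem ε y e u ∧ Sem ε y f w ∧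
      (u < w - ε → 1 - ε ≤ v) ∧ (w + ε < u → v ≤ ε)
  | .neg e, v => In01 v ∧ ∃ u, Sem ε y e u ∧ (u ≤ ε → 1 - ε ≤ v) ∧ (1 - ε ≤ u → v ≤ ε)
  | .dis e f, v => In01 v ∧ ∃ u w, Sem ε y e u ∧ Sem ε y f w ∧
      (1 - ε ≤ u ∨ 1 - ε ≤ w → 1 - ε ≤ v) ∧ (u ≤ ε ∧ w ≤ ε → v ≤ ε)
  | .con e f, v => In01 v ∧ ∃ u w, Sem ε y e u ∧ Sem ε y f w ∧
      (1 - ε ≤ u ∧ 1 - ε ≤ w → 1 - ε ≤ v) ∧ (u ≤ ε ∨ w ≤ ε → v ≤ ε)

/-- The real number `v` represents the bit `b`. -/
def Is (ε : ℝ) : Bool → ℝ → Prop
  | true, v => 1 - ε ≤ v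
  | false, v => v ≤ ε

/-- Disjunction of a list. -/
def Ex.anyL (l : List (Ex ι)) : Ex ι := l.foldr .dis (.cst 0 0)

/-- Conjunction of a list. -/
def Ex.allL (l : List (Ex ι)) : Ex ι := l.foldr .con (.neg (.cst 0 0))

/-- A total assignment extends a part assignment. -/
def Ext {J S : Type} (π : J → Option S) (β : J → S) : Prop := ∀ j b, π j = some b → β j = b

open Classical in
/-- The Kleene circuit of a Boolean function: the disjunction of all implicants. -/
noncomputable def kl {J : Type} [Fintype J] (e : J → Ex ι) (g : (J → Bool) → Prop) : Ex ι :=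
  Ex.anyL (((univ : Finset (J → Option Bool)).filter fun π => ∀ β, Ext π β → g β).toList.map
    fun π => Ex.allL ((univ : Finset J).toList.map fun j =>
      match π j with
      | none => Ex.neg (.cst 0 0)
      | some true => e j
      | some false => Ex.neg (e j)))

open Classical in
/-- Decoding a symbol from its bits. -/
noncomputable def dcd {S : Type} [Inhabited S] (β : S → Bool) : S :=
  if h : ∃ s, β s = true then h.choose else default

/-- The reals `v` represent bits that decode to the symbol `c`. -/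
def Pure {S : Type} [Inhabited S] (ε : ℝ) (v : S → ℝ) (c : S) : Prop :=
  ∃ β : S → Bool, (∀ s, Is ε (β s) (v s)) ∧ dcd β = c

/-- Rounding to a symbol. -/
noncomputable def rnd {S : Type} [Inhabited S] (v : S → ℝ) : S :=
  dcd fun s => decide (1 / 2 < v s)

/-- The Kleene circuit of a predicate of symbols (given by input nodes) and bits. -/
noncomputable def ks {J K S : Type} [Fintype J] [Fintype K] [Fintype S] [Inhabited S]
    (nd : J → S → ι) (b : K → Ex ι) (g : (J → S) → (K → Bool) → Prop) : Ex ι :=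
  kl (J := (J × S) ⊕ K) (Sum.elim (fun z => .inp (nd z.1 z.2)) b)
    fun β => g (fun j => dcd fun s => β (.inl (j, s))) fun k => β (.inr k)

/-- The average over a binary tree. -/
def avgT : (h : ℕ) → ((Fin h → Bool) → Ex ι) → Ex ι
  | 0, e => e default
  | h + 1, e => .add (.half (avgT h fun j => e (Fin.cons false j)))
      (.half (avgT h fun j => e (Fin.cons true j)))

/-- Comparison with the threshold `a / d`. -/
def cmpE (a d : ℕ) (e : Ex ι) : Ex ι := .less (.cst a (d - a - 1)) e

variable {ε : ℝ} {y : ι → ℝ}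

lemma Sem.in01 (hy : ∀ i, In01 (y i)) {e : Ex ι} {v : ℝ} (h : Sem ε y e v) : In01 v := by
  cases e with
  | inp i =>
    have h' : v = y i := h
    rw [h']
    exact hy i
  | cst a b => exact h.1
  | half e => exact h.1
  | add e f => exact h.1
  | less e f => exact h.1
  | neg e => exact h.1
  | dis e f => exact h.1
  | con e f => exact h.1

lemma anyL_isGate (l : List (Ex ι)) : (Ex.anyL l).IsGate := by
  cases l <;> exact trivial

lemma allL_isGate (l : List (Ex ι)) : (Ex.allL l).IsGate := by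
  cases l <;> exact trivial

lemma kl_isGate {J : Type} [Fintype J] (e : J → Ex ι) (g : (J → Bool) → Prop) :
    (kl e g).IsGate := anyL_isGate _

lemma ks_isGate {J K S : Type} [Fintype J] [Fintype K] [Fintype S] [Inhabited S]
    (nd : J → S → ι) (b : K → Ex ι) (g : (J → S) → (K → Bool) → Prop) : (ks nd b g).IsGate :=
  kl_isGate _ _

lemma expr_zero {v : ℝ} (hv : Sem ε y (.cst 0 0) v) : Is ε false v := by
  have h := hv.2
  simp only [Nat.cast_zero, zero_div, sub_zero] at h
  exact (le_abs_self v).trans h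

lemma expr_neg {e : Ex ι} {b : Bool} (h : ∀ u, Sem ε y e u → Is ε b u) {v : ℝ}
    (hv : Sem ε y (.neg e) v) : Is ε (!b) v := by
  obtain ⟨-, u, hu, h1, h2⟩ := hv
  cases b with
  | false => exact h1 (h u hu)
  | true => exact h2 (h u hu)

lemma expr_one {v : ℝ} (hv : Sem ε y (.neg (.cst 0 0)) v) : Is ε true v :=
  expr_neg (b := false) (fun _ => expr_zero) hv

lemma allL_true {l : List (Ex ι)} (h : ∀ e ∈ l, ∀ u, Sem ε y e u → Is ε true u) {v : ℝ}
    (hv : Sem ε y (Ex.allL l) v) : Is ε true v := by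
  induction l generalizing v with
  | nil => exact expr_one hv
  | cons a l ih =>
    obtain ⟨-, u, w, hu, hw, h1, -⟩ := hv
    exact h1 ⟨h a List.mem_cons_self u hu, ih (fun e he => h e (List.mem_cons_of_mem _ he)) hw⟩

lemma allL_false {l : List (Ex ι)} {e : Ex ι} (he : e ∈ l) (h : ∀ u, Sem ε y e u → Is ε false u)
    {v : ℝ} (hv : Sem ε y (Ex.allL l) v) : Is ε false v := by
  induction l generalizing v with
  | nil => exact absurd he List.not_mem_nil
  | cons a l ih =>
    obtain ⟨-, u, w, hu, hw, -, h2⟩ := hv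
    rcases List.mem_cons.1 he with rfl | he'
    · exact h2 (Or.inl (h u hu))
    · exact h2 (Or.inr (ih he' hw))

lemma anyL_false {l : List (Ex ι)} (h : ∀ e ∈ l, ∀ u, Sem ε y e u → Is ε false u) {v : ℝ}
    (hv : Sem ε y (Ex.anyL l) v) : Is ε false v := by
  induction l generalizing v with
  | nil => exact expr_zero hv
  | cons a l ih =>
    obtain ⟨-, u, w, hu, hw, -, h2⟩ := hv
    exact h2 ⟨h a List.mem_cons_self u hu, ih (fun e he => h e (List.mem_cons_of_mem _ he)) hw⟩

lemma anyL_true {l : List (Ex ι)} {e : Ex ι} (he : e ∈ l) (h : ∀ u, Sem ε y e u → Is ε true u)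
    {v : ℝ} (hv : Sem ε y (Ex.anyL l) v) : Is ε true v := by
  induction l generalizing v with
  | nil => exact absurd he List.not_mem_nil
  | cons a l ih =>
    obtain ⟨-, u, w, hu, hw, h1, -⟩ := hv
    rcases List.mem_cons.1 he with rfl | he'
    · exact h1 (Or.inl (h u hu))
    · exact h1 (Or.inr (ih he' hw))

/-- A Kleene circuit outputs the forced value. -/
theorem kl_spec {J : Type} [Fintype J] {e : J → Ex ι} {g : (J → Bool) → Prop}
    (π : J → Option Bool) (hπ : ∀ j b, π j = some b → ∀ u, Sem ε y (e j) u → Is ε b u) (c : Bool)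
    (hc : ∀ β, Ext π β → (g β ↔ c = true)) {v : ℝ} (hv : Sem ε y (kl e g) v) : Is ε c v := by
  classical
  unfold kl at hv
  cases c with
  | true =>
    refine anyL_true (List.mem_map.2 ⟨π, mem_toList.2 (mem_filter.2
      ⟨mem_univ _, fun β hβ => (hc β hβ).2 rfl⟩), rfl⟩) (fun u hu => allL_true ?_ hu) hv
    intro e' he' w hw
    obtain ⟨j, -, rfl⟩ := List.mem_map.1 he'
    rcases hj : π j with _ | _ | _
    · rw [hj] at hw
      exact expr_one hw
    · rw [hj] at hw
      exact expr_neg (hπ j false hj) hw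
    · rw [hj] at hw
      exact hπ j true hj w hw
  | false =>
    refine anyL_false (fun e' he' u hu => ?_) hv
    obtain ⟨π', hπ', rfl⟩ := List.mem_map.1 he'
    have h1 := (mem_filter.1 (mem_toList.1 hπ')).2
    obtain ⟨j, b, hj, hj'⟩ : ∃ j b, π j = some b ∧ π' j = some (!b) := by
      by_contra h2
      have h3 : Ext π fun j => (π j).getD ((π' j).getD false) := fun j b hb => by
        simp only [hb, Option.getD_some]
      have h4 : Ext π' fun j => (π j).getD ((π' j).getD false) := fun j b hb => by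
        rcases hj : π j with _ | b'
        · simp only [hj, hb, Option.getD_some, Option.getD_none]
        · simp only [hj, Option.getD_some]
          by_contra h5
          exact h2 ⟨j, b', hj, by rw [hb, Bool.eq_not_of_ne (Ne.symm h5)]⟩
      exact Bool.false_ne_true ((hc _ h3).1 (h1 _ h4))
    refine allL_false (List.mem_map.2 ⟨j, mem_toList.2 (mem_univ j), rfl⟩) (fun w hw => ?_) hu
    rw [hj'] at hw
    cases b with
    | false => exact hπ j false hj w hw
    | true => exact expr_neg (hπ j true hj) hw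

theorem ks_spec {J K S : Type} [Fintype J] [Fintype K] [Fintype S] [Inhabited S]
    {nd : J → S → ι} {b : K → Ex ι} {g : (J → S) → (K → Bool) → Prop}
    (ρ : J → Option S) (hρ : ∀ j c, ρ j = some c → Pure ε (fun s => y (nd j s)) c)
    (π : K → Option Bool) (hπ : ∀ k c, π k = some c → ∀ u, Sem ε y (b k) u → Is ε c u) (c : Bool)
    (hc : ∀ r β, Ext ρ r → Ext π β → (g r β ↔ c = true)) {v : ℝ} (hv : Sem ε y (ks nd b g) v) :
    Is ε c v := by
  have h1 : ∀ j, ∃ β : S → Bool, ∀ c, ρ j = some c →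
      (∀ s, Is ε (β s) (y (nd j s))) ∧ dcd β = c := by
    intro j
    rcases hj : ρ j with _ | c
    · exact ⟨fun _ => false, fun c h => by cases h⟩
    · obtain ⟨β, hβ⟩ := hρ j c hj
      exact ⟨β, fun c' h => Option.some.inj h ▸ hβ⟩
  choose B hB using h1
  refine kl_spec (Sum.elim (fun z => (ρ z.1).map fun _ => B z.1 z.2) π) ?_ c ?_ hv
  · rintro (⟨j, s⟩ | k) b' hb u hu
    · obtain ⟨c', hc', rfl⟩ := Option.map_eq_some_iff.1 hb
      have h2 : u = y (nd j s) := hu
      rw [h2]
      exact (hB j c' hc').1 s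
    · exact hπ k b' hb u hu
  · intro β hβ
    refine hc _ _ (fun j c' hj => ?_) fun k b' hk => hβ (.inr k) b' hk
    rw [← (hB j c' hj).2]
    congr 1
    funext s
    exact hβ (.inl (j, s)) _ (by simp only [Sum.elim_inl, hj, Option.map_some])

/-- A symbol computed by Kleene circuits has the forced value. -/
theorem ks_pure {J K S S' : Type} [Fintype J] [Fintype K] [Fintype S] [Inhabited S] [Inhabited S']
    {nd : J → S → ι} {b : K → Ex ι} {G : (J → S) → (K → Bool) → S'}
    (ρ : J → Option S) (hρ : ∀ j c, ρ j = some c → Pure ε (fun s => y (nd j s)) c)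
    (π : K → Option Bool) (hπ : ∀ k c, π k = some c → ∀ u, Sem ε y (b k) u → Is ε c u) (c : S')
    (hc : ∀ r β, Ext ρ r → Ext π β → G r β = c) {v : S' → ℝ}
    (hv : ∀ s, Sem ε y (ks nd b fun r β => G r β = s) (v s)) : Pure ε v c := by
  classical
  refine ⟨fun s => decide (c = s), fun s => ks_spec ρ hρ π hπ _ (fun r β h1 h2 => ?_) (hv s), ?_⟩
  · rw [hc r β h1 h2, decide_eq_true_iff]
  · have h : ∃ s, decide (c = s) = true := ⟨c, decide_eq_true rfl⟩
    unfold dcd
    rw [dif_pos h]
    exact (of_decide_eq_true h.choose_spec).symm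

lemma Pure.rnd_eq {S : Type} [Inhabited S] (hε : ε < 1 / 2) {v : S → ℝ} {c : S}
    (h : Pure ε v c) : rnd v = c := by
  obtain ⟨β, h1, rfl⟩ := h
  unfold rnd
  congr 1
  funext s
  have h2 := h1 s
  cases hb : β s with
  | false =>
    rw [hb] at h2
    exact decide_eq_false (not_lt.2 (le_trans h2 hε.le))
  | true =>
    rw [hb] at h2
    have h3 : 1 - ε ≤ v s := h2
    exact decide_eq_true (by linarith)

lemma pure_rnd {S : Type} [Inhabited S] (hε : ε < 1 / 2) {v : S → ℝ}
    (h : ∀ s, Is ε true (v s) ∨ Is ε false (v s)) : Pure ε v (rnd v) := by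
  refine ⟨fun s => decide (1 / 2 < v s), fun s => ?_, rfl⟩
  beta_reduce
  rcases h s with h1 | h1
  · have h3 : 1 - ε ≤ v s := h1
    rwa [decide_eq_true (show 1 / 2 < v s by linarith)]
  · rwa [decide_eq_false (not_lt.2 (le_trans h1 hε.le))]

theorem avgT_spec (hε : 0 ≤ ε) (h : ℕ) {e : (Fin h → Bool) → Ex ι} {a : (Fin h → Bool) → ℝ}
    {η : ℝ} (ha : ∀ j, In01 (a j)) (he : ∀ j u, Sem ε y (e j) u → |u - a j| ≤ η) {v : ℝ}
    (hv : Sem ε y (avgT h e) v) : |v - 𝔼 j, a j| ≤ η + 3 * h * ε := by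
  induction h generalizing v with
  | zero =>
    rw [expect_congr rfl fun j _ => congrArg a (Subsingleton.elim j default), ex_const]
    simpa using he default v hv
  | succ h ih =>
    obtain ⟨-, u, w, ⟨-, u', hu', hu⟩, ⟨-, w', hw', hw⟩, hv'⟩ := hv
    have h1 := ih (a := fun j => a (Fin.cons false j)) (fun j => ha _) (fun j => he _) hu'
    have h2 := ih (a := fun j => a (Fin.cons true j)) (fun j => ha _) (fun j => he _) hw'
    have h3 : 𝔼 j, a j = ((𝔼 j : Fin h → Bool, a (Fin.cons false j)) +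
        𝔼 j : Fin h → Bool, a (Fin.cons true j)) / 2 := by
      rw [← ex_equiv (Fin.consEquiv fun _ => Bool) a, ex_prod, ex_eq, Fintype.sum_bool,
        Fintype.card_bool, add_comm]
      rfl
    have h4 : 𝔼 j, a j ≤ 1 := ex_le_const zero_le_one fun j => (ha j).2
    rw [h3] at h4 ⊢
    push_cast
    rw [abs_le] at *
    have h5 := min_le_left (u + w) 1
    constructor
    · rcases min_choice (u + w) 1 with h6 | h6
      · linarith [h1.1, h2.1, hu.1, hw.1, hv'.1]
      · linarith [h1.1, h1.2, hv'.1]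
    · linarith [h1.2, h2.2, hu.2, hw.2, hv'.2]

theorem cmpE_spec {a d : ℕ} (had : a < d) {e : Ex ι} {t η : ℝ}
    (he : ∀ u, Sem ε y e u → |u - t| ≤ η) {v : ℝ} (hv : Sem ε y (cmpE a d e) v) :
    ((a : ℝ) / d + η + 2 * ε < t → Is ε true v) ∧ (t < (a : ℝ) / d - η - 2 * ε → Is ε false v) := by
  obtain ⟨-, u, w, hu, hw, h1, h2⟩ := hv
  have h3 := hu.2
  have h4 : (a : ℝ) + (d - a - 1 : ℕ) + 1 = d := by
    exact_mod_cast (show a + (d - a - 1) + 1 = d by omega)
  rw [h4, abs_le] at h3
  have h5 := abs_le.1 (he w hw)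
  exact ⟨fun h => h1 (by linarith [h3.2, h5.1]), fun h => h2 (by linarith [h3.1, h5.2])⟩

attribute [irreducible] kl ks

end Vale.Agent.P330
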