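import Vale.Agent.P330.Game
import Vale.Agent.P330.Expr

/-! The named nodes of a cell and their defining expressions. -/

namespace Vale.Agent.P330

open Finset
open scoped BigOperators

/-- Versions. -/
abbrev Ver := Fin 11 → Bool

/-- The number of a version. -/
noncomputable def vnum (ν : Ver) : ℕ := (Fintype.equivFin Ver ν : ℕ)

/-- Named nodes: version registers, majority, purified majority, certificate, test result,
corrector stages, successor, predecessor, agreement indicators. -/
inductive Nd (S : Type) (h : ℕ) where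
  | z (ν : Ver) (τ : Bool) (s : S)
  | maj (τ : Bool) (s : S)
  | mid (τ : Bool) (s : S)
  | cert (τ : Bool) (s : S)
  | acc (τ : Bool)
  | cor (i : Fin (h + 1)) (τ : Bool) (s : S)
  | su (τ : Bool) (s : S)
  | pd (τ : Bool) (s : S)
  | agW (ν : Ver) (τ : Bool)
  | agR (ν : Ver) (τ : Bool)

instance {S : Type} {h : ℕ} : Nonempty (Nd S h) := ⟨.acc false⟩

deriving instance Fintype for Nd

/-- Read addresses of a cell: reads of the line system, sampler reads, and the cell itself. -/
abbrev Rd (Q : Type) (hs : ℕ) := Q ⊕ (Fin hs → Bool) ⊕ Unit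

/-- The cell itself. -/
def slf {Q : Type} {hs : ℕ} : Rd Q hs := .inr (.inr ())

/-- The permutation of a read address. -/
def rdP {Q Γ P : Type} {hs : ℕ} (Y : Sys Q Γ P) (sp : (Fin hs → Bool) → Equiv.Perm P) :
    Rd Q hs → Equiv.Perm P :=
  Sum.elim Y.ad (Sum.elim sp fun _ => 1)

open Classical in
/-- The strict majority value. -/
noncomputable def plur {J S : Type} [Fintype J] [Inhabited S] (r : J → S) : S :=
  if h : ∃ c, 1 / 2 < pr fun j => r j = c then h.choose else default

variable {Q Γ S : Type} [Fintype Q] [Fintype S] [Inhabited S] {h hs : ℕ}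

/-- The input layer of a corrector stage. -/
def prevN (i : Fin (h + 1)) (τ : Bool) (s : S) : Nd S h :=
  Fin.cases (motive := fun _ => Nd S h) (.mid τ s) (fun j => .cor j.castSucc τ s) i

/-- The corrected word. -/
def uN (τ : Bool) (s : S) : Nd S h := .cor (Fin.last h) τ s

/-- No bit inputs. -/
def noB {ι : Type} : Empty → Ex ι := fun e => e.elim

/-- The sampled average of a node layer. -/
def statE (n : Ver → Nd S h) : Ex (Rd Q hs × Nd S h) :=
  avgT hs fun j => avgT 11 fun ν => .inp (.inr (.inl j), n ν)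

/-- The comparators of a version: test rate, inner and middle threshold, successor weight. -/
noncomputable def cmpN (K : ℕ) (ν : Ver) (τ : Bool) (t : Fin 4) : Ex (Rd Q hs × Nd S h) :=
  if t = 0 then cmpE (4096 * K - 4096 + vnum ν) (4096 * K) (statE fun _ => .acc τ)
  else if t = 1 then cmpE (79 * 2048 + vnum ν) (100 * 2048) (statE fun ν' => .agR ν' τ)
  else if t = 2 then cmpE (60 * 2048 + vnum ν) (100 * 2048) (statE fun ν' => .agR ν' τ)
  else cmpE (10 * 2048 + vnum ν) (100 * 2048) (statE fun ν' => .agW ν' τ)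

/-- The symbol inputs of the output rule. -/
def zIn : (Bool × Q) ⊕ (Bool × Fin 3) → S → Rd Q hs × Nd S h
  | .inl (τ, q), s => (.inl q, uN τ s)
  | .inr (τ, t), s => (slf, if t = 0 then uN τ s else if t = 1 then .su τ s else .pd τ s)

/-- The output rule of a version. -/
def zFun (R : Rule Q Γ S) (γ : Γ) (τ : Bool) (r : (Bool × Q) ⊕ (Bool × Fin 3) → S)
    (β : Bool × Fin 4 → Bool) : S :=
  outv (choice (fun σ => β (σ, 0) && β (σ, 1)) (fun σ => β (σ, 0) && β (σ, 2) && β (σ, 3))
      (decide (R.tm γ (fun q => r (.inl (true, q))) = R.tm γ (fun q => r (.inl (false, q))) + 1)))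
    (fun σ => r (.inr (σ, 0))) (fun σ => r (.inr (σ, 1))) (fun σ => r (.inr (σ, 2))) (R.z0 γ) τ

/-- The symbol inputs of the agreement indicators. -/
def agIn (ν : Ver) (τ : Bool) (t : Fin 5) (s : S) : Rd Q hs × Nd S h :=
  (slf, if t = 0 then .z ν τ s else if t = 1 then uN τ s else if t = 2 then .z ν (!τ) s
    else if t = 3 then .su τ s else .pd τ s)

/-- The defining expression of a node. -/
noncomputable def nodeE (R : Rule Q Γ S) (h hs K : ℕ) (γ : Γ) : Nd S h → Ex (Rd Q hs × Nd S h)
  | .z ν τ s => ks zIn (fun k : Bool × Fin 4 => cmpN K ν k.1 k.2) fun r β => zFun R γ τ r β = s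
  | .maj τ s => ks (fun (ν : Ver) s' => (slf, .z ν τ s')) noB fun r _ => plur r = s
  | .mid τ s => cmpE 1 2 (.inp (slf, .maj τ s))
  | .cert τ s => .dis (cmpE 2 3 (.inp (slf, .maj τ s))) (.less (.inp (slf, .maj τ s)) (.cst 1 1))
  | .acc τ => .con
      (Ex.allL ((univ : Finset (Option Q × S)).toList.map fun z =>
        .inp (z.1.elim slf .inl, .cert τ z.2)))
      (ks (fun q s => (.inl q, .mid τ s)) noB fun r _ => R.tst τ γ r)
  | .cor i τ s => ks (fun q s' => (.inl q, prevN i τ s')) noB fun r _ => R.cor γ r = s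
  | .su τ s => ks (fun q s' => (.inl q, uN τ s')) noB fun r _ => R.suc γ r = s
  | .pd τ s => ks (fun q s' => (.inl q, uN τ s')) noB fun r _ => R.prd γ r = s
  | .agW ν τ => ks (agIn ν τ) noB fun r _ => r 0 = r 1 ∧ r 2 = r 3
  | .agR ν τ => ks (agIn ν τ) noB fun r _ => r 0 = r 1 ∧ (r 2 = r 3 ∨ r 2 = r 4)

lemma nodeE_isGate (R : Rule Q Γ S) (h hs K : ℕ) (γ : Γ) (n : Nd S h) :
    (nodeE R h hs K γ n).IsGate := by
  cases n with
  | mid τ s => exact True.intro
  | cert τ s => exact True.intro
  | acc τ => exact True.intro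
  | _ => simp only [nodeE]; exact ks_isGate _ _ _

/-- A valuation of the network together with the set of cells without faults. -/
structure Cfg {P : Type} (R : Rule Q Γ S) (Y : Sys Q Γ P) (sp : (Fin hs → Bool) → Equiv.Perm P)
    (h K : ℕ) (ε : ℝ) (y : P → Nd S h → ℝ) (Gd : P → Prop) : Prop where
  in01 : ∀ p n, In01 (y p n)
  sem : ∀ p, Gd p → ∀ n, Sem ε (fun i : Rd Q hs × Nd S h => y (rdP Y sp i.1 p) i.2)
    (nodeE R h hs K (Y.tab p) n) (y p n)

/-- The fraction of cells where the layer `L` does not purely represent the word `u`. -/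
noncomputable def er {P : Type} [Fintype P] (ε : ℝ) (y : P → Nd S h → ℝ) (L : S → Nd S h)
    (u : P → S) : ℝ :=
  pr fun p => ¬Pure ε (fun s => y p (L s)) (u p)

/-- The global mean of a family of layers. -/
noncomputable def bar {P : Type} [Fintype P] (y : P → Nd S h → ℝ) (n : Ver → Nd S h) : ℝ :=
  𝔼 p, 𝔼 ν, y p (n ν)

/-- The statistic of a comparator. -/
noncomputable def stat {P : Type} [Fintype P] (y : P → Nd S h → ℝ) (τ : Bool) (t : Fin 4) : ℝ :=
  if t = 0 then bar y fun _ => .acc τ else if t = 3 then bar y fun ν => .agW ν τ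
  else bar y fun ν => .agR ν τ

/-- The threshold of a comparator. -/
noncomputable def thr (K : ℕ) (ν : Ver) (t : Fin 4) : ℝ :=
  if t = 0 then 1 - 1 / K + vnum ν / (4096 * K)
  else (if t = 1 then 79 / 100 else if t = 2 then 60 / 100 else 10 / 100) + vnum ν / 204800

open Classical in
/-- The global decision of a comparator. -/
noncomputable def decB {P : Type} [Fintype P] (K : ℕ) (y : P → Nd S h → ℝ) (ν : Ver) (τ : Bool)
    (t : Fin 4) : Bool :=
  decide (thr K ν t < stat y τ t)

/-- No statistic is close to a threshold of the version. -/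
def NonAmb {P : Type} [Fintype P] (K : ℕ) (g : ℝ) (y : P → Nd S h → ℝ) (ν : Ver) : Prop :=
  ∀ τ t, g < |stat y τ t - thr K ν t|

end Vale.Agent.P330
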