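import Vale.Agent.P330.Net
import Vale.Agent.P330.Node

/-! An acceptable assignment of the network is a valuation with few faulty cells. -/

namespace Vale.Agent.P330

theorem net_cfg {Q Γ S P : Type} [Fintype Q] [Fintype S] [Inhabited S] [Fintype P] {h hs K m n : ℕ}
    (R : Rule Q Γ S) (Y : Sys Q Γ P) (sp : (Fin hs → Bool) → Equiv.Perm P) (e : P ≃ Fin n)
    {nm : Nd S h → ℕ} {G : Γ → List (SGate (Rd Q hs))} (hG : ∀ γ, GadOk m (G γ)) {ε δ : ℝ}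
    (hδ : 0 ≤ δ)
    (hE : ∀ (γ : Γ) (nmf : Rd Q hs → ℕ → ℕ) (x : ℕ → ℝ), (∀ i, In01 (x i)) →
      (∀ g ∈ G γ, (g.inst nmf slf).Sat ε x) →
      ∀ k, Sem ε (fun i : Rd Q hs × Nd S h => x (nmf i.1 (nm i.2))) (nodeE R h hs K γ k)
        (x (nmf slf (nm k))))
    {ad : Rd Q hs → ℕ → ℕ} (had : ∀ q z, ad q (e z) = e (rdP Y sp q z)) {tb : ℕ → Γ}
    (htb : ∀ z, tb (e z) = Y.tab z) {x : ℕ → ℝ} (hx : ∀ i, In01 (x i))
    (hc : (1 - δ) * (build m n slf ad tb G).2.length ≤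
      ((build m n slf ad tb G).2.countP fun g => by classical exact decide (g.Sat ε x) : ℕ)) :
    ∃ Gd : P → Prop, Cfg R Y sp h K ε (fun z k => x (e z * m + nm k)) Gd ∧
      pr (fun z => ¬Gd z) ≤ δ * m := by
  refine ⟨fun z => ∀ g ∈ G (tb (e z)), (g.inst (nodeNm m ad (e z)) slf).Sat ε x,
    ⟨fun _ _ => hx _, fun z hz k => ?_⟩, ?_⟩
  · have h1 := hE _ _ x hx hz k
    simp only [nodeNm, had, htb] at h1
    exact h1
  · exact (pr_equiv e fun p : Fin n =>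
      ¬∀ g ∈ G (tb p), (g.inst (nodeNm m ad p) slf).Sat ε x).trans_le (build_faulty hG hδ hc)

end Vale.Agent.P330
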