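import Vale.Agent.P330.CVec

/-! Searching for directions and for small frequencies. -/

namespace Vale.Agent.P330

open Vale.Agent.Lib.TM Finset

variable {α : Type} [Enc α] {M c : ℕ} [Fact M.Prime] [NeZero c] {N : α → ℕ} [∀ a, NeZero (N a)]

lemma cparb_all {β : Type} [Enc β] {f : α × β → Bool} {l : α → List β} (hf : CT 0 f)
    (hl : CT 0 l) : CT 0 fun a => (l a).all fun b => f (a, b) :=
  CT.all (f := fun a b => f (a, b)) hf hl

lemma cparb_filter {β : Type} [Enc β] {f : α × β → Bool} {l : α → List β} (hf : CT 0 f)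
    (hl : CT 0 l) : CT 0 fun a => (l a).filter fun b => f (a, b) :=
  CT.filter (f := fun a b => f (a, b)) hf hl

omit [∀ a, NeZero (N a)] [Fact M.Prime] in
lemma cparb_rg (hN : LogN N) : CT 0 fun a => List.range (M ^ N a) :=
  have h := hN.pow M 1 hN.1 fun a => by omega
  h.1.range h.2

omit [∀ a, NeZero (N a)] [NeZero c] in
lemma cparb_rg' (hN : LogN N) : CT 0 fun a => List.range (N a * c) :=
  (hN.1.mul (CT.const c)).range (hN.bd.mul (Bd.const c))

lemma cparb_idx (hN : LogN N) {n : α → ℕ} (hn : CT 0 n) : IdxCT N fun a => dI (N a) c (n a) := by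
  refine ⟨ct_val_cast hN hn, fun z => (MachCT_eq ((hn.div hN.1).mod (CT.const c))
    (CT.const z.val)).of_eq fun a => ?_⟩
  rw [Bool.eq_iff_iff]
  simp only [decide_eq_true_eq, Fin.ext_iff]
  rfl

lemma cparb_ip (hN : LogN N) {g : ∀ a, Fin c → XX M (N a)} (hg : ∀ i, PtCT N fun a => g a i)
    {y n : α → ℕ} (hy : CT 0 y) (hn : CT 0 n) :
    FinCT fun a => ip (dX M (N a) (y a)) (dirs (g a) (dI (N a) c (n a))) :=
  (pt_dX hN hy).ip hN (pt_dirs hN hg (cparb_idx hN hn))

lemma cparb_len (n : ℕ) (P : ℕ → Prop) [DecidablePred P] :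
    ((List.range n).filter fun i => decide (P i)).length = ((range n).filter P).card := rfl

lemma cparb_card {X : Type} [Fintype X] {n : ℕ} {cd : X → ℕ} {dc : ℕ → X} (h1 : ∀ x, cd x < n)
    (h2 : ∀ x, dc (cd x) = x) (h3 : ∀ i < n, cd (dc i) = i) (P : X → Prop) [DecidablePred P] :
    (univ.filter P).card = ((range n).filter fun i => P (dc i)).card :=
  card_nbij' cd dc (fun x hx => by simpa [h1, h2] using hx) (fun i hi => by
    simpa using (mem_filter.1 hi).2) (fun x _ => h2 x) fun i hi =>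
      h3 i (mem_range.1 (mem_filter.1 hi).1)

lemma cparb_zero (n : ℕ) : dX M n 0 = 0 := funext fun l => by simp [dX]

lemma cparb_ne {n y : ℕ} [NeZero n] (h : y < M ^ n) (h0 : y ≠ 0) : dX M n y ≠ 0 := fun e => by
  have h1 := cX_dX h
  rw [e, ← cparb_zero, cX_dX (Nat.zero_le _ |>.trans_lt h)] at h1
  exact h0 h1.symm

open Classical in
lemma cparb_expd {n : ℕ} [NeZero n] (s : II n c → XX M n) : Expd s lam0 ↔
    ((List.range (M ^ n)).all fun y => decide (y = 0) || Nat.ble (10 ^ 30 *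
      ((List.range (n * c)).filter fun i => decide (ip (dX M n y) (s (dI n c i)) = 0)).length)
        (n * c)) = true := by
  have h0 : (0 : ℝ) < n * c := by
    have := Nat.pos_of_neZero n
    have := Nat.pos_of_neZero c
    positivity
  have key : ∀ y : XX M n, pr (fun i => ip y (s i) = 0) ≤ lam0 ↔ 10 ^ 30 *
      ((List.range (n * c)).filter fun i => decide (ip y (s (dI n c i)) = 0)).length ≤ n * c :=
    fun y => by
      rw [pr_eq_card, cparb_card cI_lt dI_cI fun _ => cI_dI, cparb_len, lam0, Fintype.card_prod,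
        ZMod.card, Fintype.card_fin, Nat.cast_mul, div_le_div_iff₀ h0 (by positivity), one_mul,
        mul_comm]
      exact_mod_cast Iff.rfl
  simp only [List.all_eq_true, List.mem_range, Bool.or_eq_true, decide_eq_true_eq, Nat.ble_eq]
  refine ⟨fun h y hy => or_iff_not_imp_left.2 fun e => (key _).1 (h _ (cparb_ne hy e)),
    fun h y hy => (key y).2 ?_⟩
  have := (h _ (cX_lt y)).resolve_left fun e => hy (by rw [← dX_cX y, e, cparb_zero])
  rwa [dX_cX] at this

theorem search_dirs (hN : LogN N) (h : ∀ a, ∃ g : Fin c → XX M (N a), Expd (dirs g) lam0) :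
    ∃ g : ∀ a, Fin c → XX M (N a), (∀ i, PtCT N fun a => g a i) ∧ ∀ a, Expd (dirs (g a)) lam0 := by
  classical
  have hg : ∀ i : Fin c, PtCT (fun z : α × List ℕ => N z.1)
      fun z => dX M (N z.1) (z.2.getD i 0) := fun i =>
    pt_dX (hN.comp CT.id.fst) (by fun_prop)
  have h1 : CT 0 fun z : ((α × List ℕ) × ℕ) × ℕ => decide (ip (dX M (N z.1.1.1) z.1.2)
      (dirs (fun i : Fin c => dX M (N z.1.1.1) (z.1.1.2.getD i 0)) (dI (N z.1.1.1) c z.2)) = 0) :=
    (cparb_ip (N := fun z : ((α × List ℕ) × ℕ) × ℕ => N z.1.1.1) (hN.comp CT.id.fst.fst.fst)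
      (fun i => (hg i).comp CT.id.fst.fst) CT.id.fst.snd CT.id.snd).toCT fun x => decide (x = 0)
  have h2 : CT 0 fun z : α × List ℕ =>
      decide (Expd (dirs fun i : Fin c => dX M (N z.1) (z.2.getD i 0)) lam0) := by
    refine (cparb_all ((MachCT_eq CT.id.snd (CT.const 0)).or (((CT.const (10 ^ 30)).mul
      (cparb_filter h1 ((cparb_rg' (c := c) hN).comp CT.id.fst.fst)).length).ble
        ((hN.1.comp CT.id.fst.fst).mul (CT.const c)))) ((cparb_rg (M := M) hN).comp CT.id.fst)).of_eq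
      fun z => ?_
    rw [Bool.eq_iff_iff, decide_eq_true_eq, cparb_expd]
  have h3 := (cparb_filter h2 (ct_tups (cparb_rg (M := M) hN) c)).headD (CT.const [])
  refine ⟨_, fun i => (hg i).comp (CT.id.mk h3), fun a => ?_⟩
  obtain ⟨g, hg⟩ := h a
  have h4 : List.ofFn (fun i => cX (g i)) ∈ (tups (List.range (M ^ N a)) c).filter fun t =>
      decide (Expd (dirs fun i : Fin c => dX M (N a) (t.getD i 0)) lam0) := by
    refine List.mem_filter.2 ⟨mem_tups.2 ⟨List.length_ofFn, fun x hx => ?_⟩, ?_⟩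
    · obtain ⟨i, rfl⟩ := List.mem_ofFn.1 hx
      exact List.mem_range.2 (cX_lt _)
    · have e : (fun i : Fin c => dX M (N a) ((List.ofFn fun i => cX (g i)).getD i 0)) = g :=
        funext fun i => by simp [List.getD_eq_getElem?_getD, dX_cX]
      rw [e]
      exact decide_eq_true hg
  obtain ⟨t, l, e⟩ := List.exists_cons_of_ne_nil (List.ne_nil_of_mem h4)
  have h5 := List.mem_filter.1 (e ▸ List.mem_cons_self)
  simp only [e, List.headD_cons]
  exact of_decide_eq_true h5.2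

open Classical in
theorem search_small (hN : LogN N) (d : ℕ) {g : ∀ a, Fin c → XX M (N a)}
    (hg : ∀ i, PtCT N fun a => g a i) {lo hi : α → ℕ} (hlo : CT 0 lo) (hhi : CT 0 hi) :
    ∃ v : ∀ a, ℕ → XX M (N a), PtCT (fun z : α × ℕ => N z.1) (fun z => v z.1 z.2) ∧ ∀ a,
      (∀ i s, Small d (ip (v a i) (dirs (g a) s))) ∧
      (∀ i l, ¬(lo a ≤ l.val ∧ l.val < hi a) → v a i l = 0) ∧
      ∀ K, K + 1 ≤ (univ.filter fun y : XX M (N a) =>
          (∀ l, ¬(lo a ≤ l.val ∧ l.val < hi a) → y l = 0) ∧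
            ∀ i, Small d (ip y (dirs (g a) i))).card →
        (∀ i < K, v a i ≠ 0) ∧ ∀ i < K, ∀ j < K, v a i = v a j → i = j := by
  obtain ⟨Q, hQ⟩ : ∃ Q : ∀ a, XX M (N a) → Prop, Q = fun a y =>
      (∀ l, ¬(lo a ≤ l.val ∧ l.val < hi a) → y l = 0) ∧ ∀ i, Small d (ip y (dirs (g a) i)) :=
    ⟨_, rfl⟩
  have h1 : CT 0 fun z : (α × ℕ) × ℕ =>
      decide (Small d (ip (dX M (N z.1.1) z.1.2) (dirs (g z.1.1) (dI (N z.1.1) c z.2)))) :=
    (cparb_ip (N := fun z : (α × ℕ) × ℕ => N z.1.1) (hN.comp CT.id.fst.fst)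
      (fun i => (hg i).comp CT.id.fst.fst) CT.id.fst.snd CT.id.snd).toCT
        fun x => decide (Small d x)
  have h2 : CT 0 fun z : (α × ℕ) × ℕ => decide (dX M (N z.1.1) z.1.2 z.2 = 0) :=
    FinCT.toCT (pt_dX (N := fun z : α × ℕ => N z.1) (hN.comp CT.id.fst) CT.id.snd)
      fun x => decide (x = 0)
  have h3 : CT 0 fun z : α × ℕ => decide (z.2 ≠ 0 ∧ Q z.1 (dX M (N z.1) z.2)) := by
    refine ((MachCT_eq CT.id.snd (CT.const 0)).not.and ((cparb_all
      ((((hlo.comp CT.id.fst.fst).ble CT.id.snd).and (CT.id.snd.blt (hhi.comp CT.id.fst.fst))).or h2)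
      ((hN.1.range hN.bd).comp CT.id.fst)).and
        (cparb_all h1 ((cparb_rg' (c := c) hN).comp CT.id.fst)))).of_eq fun z => ?_
    rw [Bool.eq_iff_iff, hQ]
    simp only [Bool.and_eq_true, Bool.not_eq_true', decide_eq_false_iff_not, List.all_eq_true,
      List.mem_range, Bool.or_eq_true, decide_eq_true_eq, Nat.ble_eq, Nat.blt_eq]
    refine and_congr Iff.rfl (and_congr ⟨fun h l hl => ?_, fun h l hl => ?_⟩
      ⟨fun h i => ?_, fun h i _ => h _⟩)
    · have := (h l.val (ZMod.val_lt l)).resolve_left hl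
      rwa [ZMod.natCast_zmod_val] at this
    · exact or_iff_not_imp_left.2 fun e => h l (by rwa [ZMod.val_cast_of_lt hl])
    · have := h _ (cI_lt i)
      rwa [dI_cI] at this
  obtain ⟨L, hL⟩ : ∃ L : α → List ℕ, L = fun a =>
      (List.range (M ^ N a)).filter fun n => decide (n ≠ 0 ∧ Q a (dX M (N a) n)) := ⟨_, rfl⟩
  have h4 : CT 0 L := hL ▸ cparb_filter h3 (cparb_rg (M := M) hN)
  have h5 : ∀ a, ∀ n ∈ L a, n < M ^ N a ∧ n ≠ 0 ∧ Q a (dX M (N a) n) := fun a n hn => by
    rw [hL] at hn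
    exact ⟨List.mem_range.1 (List.mem_filter.1 hn).1, of_decide_eq_true (List.mem_filter.1 hn).2⟩
  have h6 : ∀ a i, Q a (dX M (N a) ((L a).getD i 0)) := fun a i => by
    by_cases hi : i < (L a).length
    · rw [List.getD_eq_getElem _ _ hi]
      exact (h5 a _ (List.getElem_mem hi)).2.2
    · rw [List.getD_eq_default _ _ (not_lt.1 hi), cparb_zero, hQ]
      exact ⟨fun _ _ => rfl, fun _ => ⟨0, by simp, by simp [ip]⟩⟩
  refine ⟨fun a i => dX M (N a) ((L a).getD i 0),
    pt_dX (hN.comp CT.id.fst) ((h4.comp CT.id.fst).getD CT.id.snd (CT.const 0)), fun a =>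
      ⟨fun i => (hQ ▸ h6 a i).2, fun i => (hQ ▸ h6 a i).1, fun K hK => ?_⟩⟩
  have h7 : K ≤ (L a).length := by
    rw [cparb_card cX_lt dX_cX fun _ => cX_dX] at hK
    rw [hL, cparb_len]
    refine Nat.le_of_succ_le_succ (hK.trans ((card_le_card fun n hn => ?_).trans
      (card_insert_le 0 _)))
    rw [mem_insert, mem_filter, hQ]
    exact or_iff_not_imp_left.2 fun e => ⟨(mem_filter.1 hn).1, e, (mem_filter.1 hn).2⟩
  refine ⟨fun i hi => ?_, fun i hi j hj e => ?_⟩
  · have := h5 a _ (List.getElem_mem (hi.trans_le h7))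
    simp only [List.getD_eq_getElem _ _ (hi.trans_le h7)]
    exact cparb_ne this.1 this.2.1
  · simp only [List.getD_eq_getElem _ _ (hi.trans_le h7),
      List.getD_eq_getElem _ _ (hj.trans_le h7)] at e
    have e' := congrArg cX e
    rw [cX_dX (h5 a _ (List.getElem_mem _)).1, cX_dX (h5 a _ (List.getElem_mem _)).1] at e'
    have hn : (L a).Nodup := hL ▸ List.nodup_range.filter _
    exact (hn.getElem_inj_iff).1 e'

end Vale.Agent.P330
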