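import Vale.Agent.P330.Av
import Vale.Agent.P330.CTBase

/-! Samplers from lazy walks on the explicit expanders. -/

namespace Vale.Agent.P330

open Vale.Agent.Lib.TM Vale.Agent.Lib.PCP

/-- One lazy step. -/
def lazyN (k i x : ℕ) : ℕ := if i < 12 then expStep k i x else x

/-- A lazy walk. -/
def walkN (k : ℕ) (l : List ℕ) (x : ℕ) : ℕ := l.foldl (fun x i => lazyN k i x) x

lemma samp_lazy_lt {k x : ℕ} (i : ℕ) (hx : x < k) : lazyN k i x < k := by
  unfold lazyN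
  split_ifs
  · exact expStep_lt hx
  · exact hx

lemma walkN_lt {k x : ℕ} (l : List ℕ) (hx : x < k) : walkN k l x < k := by
  induction l generalizing x with
  | nil => exact hx
  | cons i l ih => exact ih (samp_lazy_lt i hx)

lemma walkN_inj {k : ℕ} (l : List ℕ) :
    Function.Injective fun x : Fin k => (⟨walkN k l x, walkN_lt l x.2⟩ : Fin k) := by
  induction l with
  | nil => exact fun x y h => Fin.ext (congrArg Fin.val h)
  | cons i l ih =>
    intro x y h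
    have h1 : (⟨lazyN k i x, samp_lazy_lt i x.2⟩ : Fin k) = ⟨lazyN k i y, samp_lazy_lt i y.2⟩ :=
      ih h
    have h2 : lazyN k i x = lazyN k i y := congrArg Fin.val h1
    unfold lazyN at h2
    refine Fin.ext ?_
    split_ifs at h2 with hi
    · rw [← expStep_inv hi x.2, h2, expStep_inv hi y.2]
    · exact h2

/-- The list of steps of a word. -/
def wordL {h : ℕ} (w : Fin h → Fin 32) : List ℕ := List.ofFn fun i => (w i : ℕ)

/-- A lazy walk as a permutation. -/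
noncomputable def walkP (k : ℕ) {h : ℕ} (w : Fin h → Fin 32) : Equiv.Perm (Fin k) :=
  Equiv.ofBijective _ (Finite.injective_iff_bijective.1 (walkN_inj (k := k) (wordL w)))

lemma walkP_val (k : ℕ) {h : ℕ} (w : Fin h → Fin 32) (x : Fin k) :
    (walkP k w x : ℕ) = walkN k (wordL w) x := rfl

/-- One lazy step as a permutation. -/
noncomputable def sampSt (k i : ℕ) : Equiv.Perm (Fin k) :=
  Equiv.ofBijective _ (Finite.injective_iff_bijective.1 (walkN_inj (k := k) [i]))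

lemma samp_st_val (k i : ℕ) (x : Fin k) : (sampSt k i x : ℕ) = lazyN k i x := rfl

lemma samp_cons (k : ℕ) {h : ℕ} (i : Fin 32) (w : Fin h → Fin 32) (x : Fin k) :
    walkP k (Fin.cons i w : Fin (h + 1) → Fin 32) x = walkP k w (sampSt k i x) := by
  refine Fin.ext ?_
  rw [walkP_val, walkP_val, samp_st_val, wordL, List.ofFn_succ]
  rfl

open Finset
open scoped BigOperators

lemma samp_shift {Q : Type} [Fintype Q] [Nonempty Q] (f : Q → ℝ) (h0 : 𝔼 x, f x = 0) (a : ℝ) :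
    𝔼 x, f x ^ 2 ≤ 𝔼 x, (f x - a) ^ 2 := by
  have e : 𝔼 x, (f x - a) ^ 2 = 𝔼 x, ((f x ^ 2 - 2 * a * f x) + a ^ 2) :=
    expect_congr rfl fun x _ => by ring
  rw [e, ex_add, ex_sub, ex_mul, ex_const, h0]
  nlinarith [sq_nonneg a]

lemma samp_var (a : Fin 32 → ℝ) (i : Fin 32) (hi : i ≠ 31) :
    (𝔼 j, a j) ^ 2 + (a 31 - a i) ^ 2 / 64 ≤ 𝔼 j, a j ^ 2 := by
  obtain ⟨m, hm⟩ : ∃ m, m = 𝔼 j, a j := ⟨_, rfl⟩
  have e : 𝔼 j, (a j - m) ^ 2 = 𝔼 j, ((a j ^ 2 - 2 * m * a j) + m ^ 2) :=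
    expect_congr rfl fun x _ => by ring
  rw [ex_add, ex_sub, ex_mul, ex_const, ← hm, ex_eq, Fintype.card_fin] at e
  have h1 : ∑ j ∈ {i, 31}, (a j - m) ^ 2 ≤ ∑ j, (a j - m) ^ 2 :=
    sum_le_sum_of_subset_of_nonneg (subset_univ _) fun _ _ _ => sq_nonneg _
  rw [sum_pair hi] at h1
  rw [← hm]
  push_cast at e
  nlinarith [sq_nonneg (a i + a 31 - 2 * m)]

lemma samp_poin {k : ℕ} (f : Fin k → ℝ) : ∃ a : ℝ, 𝔼 x, (f x - a) ^ 2 ≤
    50 * ∑ i ∈ range 12, 𝔼 x, (f x - f (sampSt k i x)) ^ 2 := by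
  obtain ⟨a, ha⟩ := expStep_poincare k fun n => if h : n < k then f ⟨n, h⟩ else 0
  refine ⟨a, ?_⟩
  simp only [ex_eq]
  rw [← sum_div, ← mul_div_assoc]
  refine div_le_div_of_nonneg_right ?_ (Nat.cast_nonneg _)
  rw [sum_range] at ha
  simp only [Fin.is_lt, dif_pos, Fin.eta] at ha
  refine ha.trans (le_of_eq ?_)
  congr 1
  refine sum_congr rfl fun i hi => ?_
  rw [sum_range]
  refine sum_congr rfl fun x _ => ?_
  have h1 : sampSt k i x = ⟨expStep k i x, expStep_lt x.2⟩ :=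
    Fin.ext (by rw [samp_st_val, lazyN, if_pos (mem_range.1 hi)])
  rw [dif_pos x.2, dif_pos (expStep_lt x.2), h1]

lemma samp_step {k : ℕ} [Nonempty (Fin k)] (f : Fin k → ℝ) (h0 : 𝔼 x, f x = 0) :
    𝔼 x, (𝔼 j : Fin 32, f (sampSt k j x)) ^ 2 ≤ (1 - 1 / 38400) * 𝔼 x, f x ^ 2 := by
  have h1 : ∀ i ∈ range 12, 𝔼 x, (𝔼 j : Fin 32, f (sampSt k j x)) ^ 2 +
      1 / 64 * 𝔼 x, (f x - f (sampSt k i x)) ^ 2 ≤ 𝔼 x, f x ^ 2 := by
    intro i hi
    have hi' := mem_range.1 hi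
    have h2 : 𝔼 x, 𝔼 j : Fin 32, f (sampSt k j x) ^ 2 = 𝔼 x, f x ^ 2 := by
      rw [ex_comm]
      simp only [fun j : Fin 32 => ex_equiv (sampSt k j) fun x => f x ^ 2]
      exact ex_const _
    rw [← h2, ← ex_mul, ← ex_add]
    refine ex_mono fun x => ?_
    have h3 := samp_var (fun j => f (sampSt k j x)) ⟨i, by omega⟩
      (fun h => by have := congrArg Fin.val h; simp at this; omega)
    have h4 : sampSt k (31 : Fin 32) x = x := Fin.ext (by
      rw [samp_st_val, lazyN, if_neg (by decide)])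
    simp only [h4] at h3
    linarith
  have h5 := sum_le_sum h1
  rw [sum_add_distrib, sum_const, sum_const, ← mul_sum, card_range, nsmul_eq_mul,
    nsmul_eq_mul] at h5
  obtain ⟨a, ha⟩ := samp_poin f
  have h6 := samp_shift f h0 a
  push_cast at h5
  linarith

lemma samp_iter {k : ℕ} [Nonempty (Fin k)] (f : Fin k → ℝ) (h0 : 𝔼 x, f x = 0) (n : ℕ) :
    𝔼 x, (𝔼 w : Fin n → Fin 32, f (walkP k w x)) ^ 2 ≤ (1 - 1 / 38400) ^ n * 𝔼 x, f x ^ 2 := by
  induction n with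
  | zero =>
    have h1 : ∀ (w : Fin 0 → Fin 32) x, walkP k w x = x := fun w x => Fin.ext rfl
    simp only [h1, ex_const, pow_zero, one_mul, le_refl]
  | succ n ih =>
    have h1 : ∀ x, 𝔼 w : Fin (n + 1) → Fin 32, f (walkP k w x) =
        𝔼 j : Fin 32, 𝔼 w : Fin n → Fin 32, f (walkP k w (sampSt k j x)) := fun x => by
      rw [← ex_equiv (Fin.consEquiv fun _ => Fin 32), ex_prod]
      exact expect_congr rfl fun j _ => expect_congr rfl fun w _ =>
        congrArg f (samp_cons k j w x)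
    have h2 : 𝔼 x, 𝔼 w : Fin n → Fin 32, f (walkP k w x) = 0 := by
      rw [ex_comm]
      simp only [fun w : Fin n → Fin 32 => ex_equiv (walkP k w) f, h0]
      exact ex_const _
    simp only [h1]
    refine (samp_step _ h2).trans ?_
    rw [pow_succ', mul_assoc]
    exact mul_le_mul_of_nonneg_left ih (by norm_num)

theorem walk_samp {β : ℝ} (hβ : 0 < β) :
    ∃ h : ℕ, ∀ k, Samp β fun w : Fin h → Fin 32 => walkP k w := by
  obtain ⟨n, hn⟩ := exists_pow_lt_of_lt_one hβ (show (1 - 1 / 38400 : ℝ) < 1 by norm_num)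
  refine ⟨n, fun k g => ?_⟩
  rcases Nat.eq_zero_or_pos k with rfl | hk
  · simp
  have : Nonempty (Fin k) := ⟨⟨0, hk⟩⟩
  have h0 : 𝔼 x, (g x - 𝔼 y, g y) = 0 := by rw [ex_sub, ex_const, sub_self]
  have h1 := samp_iter (fun x => g x - 𝔼 y, g y) h0 n
  simp only [ex_sub, ex_const] at h1
  have h2 : 𝔼 x, (g x - 𝔼 y, g y) ^ 2 ≤ 𝔼 x, g x ^ 2 := by
    have h3 := samp_shift (fun x => g x - 𝔼 y, g y) h0 (-𝔼 y, g y)
    simpa using h3
  have h4 : 0 ≤ 𝔼 x, (g x - 𝔼 y, g y) ^ 2 := ex_nonneg fun _ => sq_nonneg _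
  exact h1.trans (mul_le_mul hn.le h2 h4 hβ.le)

theorem ct_walkN {α : Type} [Enc α] (l : List ℕ) {k x : α → ℕ} (hk : CT 0 k) (hB : Bd 0 k)
    (hx : CT 0 x) : CT 0 fun a => walkN (k a) l (x a) := by
  induction l generalizing x with
  | nil => exact hx
  | cons i l ih =>
    refine ih (x := fun a => lazyN (k a) i (x a)) ?_
    unfold lazyN
    by_cases hi : i < 12
    · simp only [if_pos hi]
      exact ct_expStep hk hB (CT.const i) hx
    · simp only [if_neg hi]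
      exact hx

end Vale.Agent.P330
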