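import Vale.Agent.P330.CParA
import Vale.Agent.P330.CParB
import Vale.Agent.P330.Samp

/-! The data of a machine are computed in polynomial time. -/

namespace Vale.Agent.P330

open Vale.Agent.Lib.TM

lemma CPar_val {Q : Type} {k h : ℕ} (e : Q ≃ Fin k) (w : Fin h → Fin 32) (x : Q) :
    (e (e.symm.permCongr (walkP k w) x) : ℕ) = walkN k (wordL w) (e x) := by
  rw [Equiv.permCongr_apply, Equiv.apply_symm_apply, Equiv.symm_symm, walkP_val]

lemma CPar_small {α : Type} [Enc α] {M p c d : ℕ} [Fact M.Prime] [Fact p.Prime] [NeZero c]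
    {χ : AddChar (ZMod M) (ZMod p)} (h : Par M p c d χ) {N : α → ℕ} [∀ a, NeZero (N a)]
    (hN : LogN N) (h11 : ∀ a, 11 ≤ N a) {g : ∀ a, Fin c → XX M (N a)}
    (hg : ∀ i, PtCT N fun a => g a i) {lo hi : α → ℕ} (hlo : CT 0 lo) (hhi : CT 0 hi)
    (h1 : ∀ a, lo a + N a / 11 ≤ hi a) (h2 : ∀ a, hi a ≤ N a) :
    ∃ v : ∀ a, ℕ → XX M (N a), PtCT (fun z : α × ℕ => N z.1) (fun z => v z.1 z.2) ∧ ∀ a,
      (∀ i s, Small d (ip (v a i) (dirs (g a) s))) ∧
      (∀ i l, ¬(lo a ≤ l.val ∧ l.val < hi a) → v a i l = 0) ∧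
      ∀ K, K + 1 ≤ 2 ^ (N a / 11) →
        (∀ i < K, v a i ≠ 0) ∧ ∀ i < K, ∀ j < K, v a i = v a j → i = j := by
  obtain ⟨v, h3, h4⟩ := search_small hN d hg hlo hhi
  exact ⟨v, h3, fun a => ⟨(h4 a).1, (h4 a).2.1, fun K hK =>
    (h4 a).2.2 K (hK.trans (count_small h (h11 a) (g a) (h1 a) (h2 a)))⟩⟩

theorem exists_cx {M p c d : ℕ} [Fact M.Prime] [Fact p.Prime] [NeZero c]
    {χ : AddChar (ZMod M) (ZMod p)} (h : Par M p c d χ) : ∃ h0 : ℕ,
    ∀ (α : Type) [Enc α] (A : α → Mach), CT 0 A → Bd 0 (fun a => (A a).k) →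
      ∃ (N : α → ℕ) (_ : ∀ a, NeZero (N a)) (cx : ∀ a, Cx M p c (N a) (Fin h0 → Fin 32)),
        CxCT N cx ∧ (∀ a, (cx a).A = A a) ∧ ∀ a, (A a).Start → (cx a).Ok χ d := by
  obtain ⟨h0, hs⟩ := walk_samp (β := 1 / 256) (by norm_num)
  refine ⟨h0, fun α _ A hA hk => ?_⟩
  have c1 : CT 0 fun a => (A a).ck false := hA.snd.snd.snd.fst
  have c2 : CT 0 fun a => (A a).ck true := hA.snd.snd.snd.snd.fst
  obtain ⟨N, hN, h1⟩ := exists_dim (Fact.out : M.Prime).two_le (K := fun a => (A a).K)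
    ((((CT.const 2).mul hA.fst).add c1.length).add c2.length)
    ((((Bd.const 2).mul hk).add c1.bd_length).add c2.bd_length)
  have i0 : ∀ a, NeZero (N a) := fun a => ⟨by have := (h1 a).2.1; omega⟩
  obtain ⟨g, hg, hE⟩ := search_dirs (M := M) (c := c) hN fun a => exists_dirs (h1 a).1 h.hc h.hMc
  have c3 := hN.1.div (CT.const 11)
  have h2 := fun (u : Bool) (b : Fin 5) => CPar_small h hN (fun a => (h1 a).2.1) hg
    ((CT.const (bn u b)).mul c3) ((CT.const (bn u b + 1)).mul c3)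
    (fun a => (Nat.succ_mul _ _).ge) fun a => by
      have : bn u b + 1 ≤ 11 := by
        have := b.2
        have := u.toNat_le
        unfold bn
        omega
      exact (Nat.mul_le_mul_right _ this).trans (Nat.mul_div_le _ _)
  choose al h2 h3 using h2
  obtain ⟨be, h4, h5⟩ := CPar_small h hN (fun a => (h1 a).2.1) hg ((CT.const 10).mul c3) hN.1
    (fun a => by omega) fun a => le_rfl
  have hN' : LogN fun z : α × ℕ => N z.1 := hN.comp CT.id.fst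
  refine ⟨N, i0, fun a => ⟨g a, fun u b => al u b a, be a, A a,
    fun j => (eW M p c (N a)).symm.permCongr (walkP _ j)⟩,
    ⟨hN, hg, h2, h4, hA, hk, fun j => ?_⟩, fun a => rfl, fun a ha =>
    ⟨h.prim, h.hM, h.hp, h.hMp, (h1 a).2.1, hE a, (hs _).congr _, fun u b => (h3 u b a).1,
      fun u b => (h3 u b a).2.1, fun u b => ((h3 u b a).2.2 _ ?_).2, (h5 a).1,
      fun i l hl => (h5 a).2.1 i l fun e => hl.not_ge e.1, ((h5 a).2.2 _ (h1 a).2.2).1,
      ((h5 a).2.2 _ (h1 a).2.2).2, ha⟩⟩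
  · exact (ct_walkN (wordL j) (hN'.nW M p c).1 (hN'.nW M p c).2
      (WCT.code hN' (w_dW hN' CT.id.snd))).of_eq fun z => (CPar_val (eW M p c (N z.1)) j _).symm
  · refine le_trans ?_ (h1 a).2.2
    change (A a).k + 1 ≤ (A a).K + 1
    unfold Mach.K
    omega

theorem exists_sp (M p c : ℕ) [Fact M.Prime] [Fact p.Prime] [NeZero c] {β : ℝ} (hβ : 0 < β) :
    ∃ hs : ℕ, ∀ (α : Type) [Enc α] (N : α → ℕ) [∀ a, NeZero (N a)], LogN N →
      ∃ sp : ∀ a, (Fin hs → Bool) → Equiv.Perm (PP M p c (N a)), (∀ a, Samp β (sp a)) ∧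
        ∀ j, CT 0 fun z : α × ℕ => cP (sp z.1 j (dP M p c (N z.1) z.2)) := by
  obtain ⟨h0, hs⟩ := walk_samp hβ
  have e : (Fin (5 * h0) → Bool) ≃ (Fin h0 → Fin 32) :=
    Fintype.equivOfCardEq (by simp [pow_mul])
  refine ⟨5 * h0, fun α _ N _ hN => ⟨fun a j => (eP M p c (N a)).symm.permCongr (walkP _ (e j)),
    fun a => ((hs _).congr _).reindex e, fun j => ?_⟩⟩
  have hN' : LogN fun z : α × ℕ => N z.1 := hN.comp CT.id.fst
  exact (ct_walkN (wordL (e j)) (hN'.nP M p c).1 (hN'.nP M p c).2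
    (PCT.code hN' (p_dP hN' CT.id.snd))).of_eq fun z => (CPar_val (eP M p c (N z.1)) (e j) _).symm

end Vale.Agent.P330
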