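import Vale.Agent.P330.KDefs

/-! Existence of expanding shift invariant directions and of many small frequencies. -/

namespace Vale.Agent.P330

open Finset
open scoped BigOperators

open Polynomial in
lemma KQC_ord {K V : Type} [Field K] [AddCommGroup V] [Module K V] (T : Module.End K V) {N : ℕ}
    (hN : (T - 1) ^ N = 0) {y : V} (hy : y ≠ 0) : ∃ k : Fin N, ((T - 1) ^ (k + 1 : ℕ)) y = 0 ∧
      LinearIndependent K fun j : Fin (k + 1) => (T ^ (j : ℕ)) y := by
  obtain ⟨p, hp⟩ := (IsPrincipalIdealRing.principal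
    ((Ideal.torsionOf (Module.End K V) V y).comap (aeval T : K[X] →ₐ[K] _))).principal
  have h1 : ∀ q, p ∣ q ↔ aeval T q y = 0 := fun q => by
    rw [← Ideal.mem_span_singleton, ← Ideal.submodule_span_eq, ← hp]
    rfl
  have e : ∀ k, aeval T ((X - C 1 : K[X]) ^ k) = (T - 1) ^ k := by simp
  obtain ⟨k, hk, ha⟩ := (dvd_prime_pow (prime_X_sub_C (1 : K)) N).1
    ((h1 _).2 (by rw [e, hN]; rfl))
  have h2 := (h1 _).1 ha.dvd
  rw [e] at h2
  obtain _ | k := k
  · exact absurd h2 hy
  refine ⟨⟨k, hk⟩, h2, Fintype.linearIndependent_iff.2 fun a h j => ?_⟩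
  have h3 := eq_zero_of_dvd_of_degree_lt (ha.symm.dvd.trans ((h1 (∑ i : Fin (k + 1),
    C (a i) * X ^ (i : ℕ))).2 (by simpa [LinearMap.sum_apply, Algebra.algebraMap_eq_smul_one] using h)))
    ((degree_sum_fin_lt a).trans_eq (by rw [degree_pow, degree_X_sub_C]; simp))
  simpa [Fin.val_inj] using congrArg (coeff · j) h3

open Classical in
lemma KQC_cnt {M N : ℕ} [Fact M.Prime] [NeZero N] (k : ℕ) :
    #{y : ZMod N → ZMod M | (((LinearMap.funLeft (ZMod M) (ZMod M) fun m : ZMod N => m + 1 :
      Module.End (ZMod M) _) - 1) ^ k) y = 0} ≤ M ^ k := by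
  induction k with
  | zero =>
    rw [pow_zero M, card_le_one]
    intro a ha b hb
    exact (mem_filter.1 ha).2.trans (mem_filter.1 hb).2.symm
  | succ k ih =>
    refine (card_le_card_of_injOn (t := _ ×ˢ univ) (fun y => (y ∘ (· + 1) - y, y 0))
      (fun y hy => mem_product.2 ⟨mem_filter.2 ⟨mem_univ _, ?_⟩, mem_univ _⟩)
      fun y _ z _ h => ?_).trans ((card_product _ _).trans_le
        (by rw [card_univ, ZMod.card, pow_succ]; exact Nat.mul_le_mul_right _ ih))
    · exact (mem_filter.1 hy).2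
    · obtain ⟨h1, h2⟩ := Prod.ext_iff.1 h
      funext m
      obtain ⟨n, rfl⟩ := ZMod.natCast_zmod_surjective m
      induction n with
      | zero => simpa using h2
      | succ n ih =>
        have := congrFun h1 n
        simp only [Pi.sub_apply, Function.comp, ih, sub_left_inj] at this
        rwa [Nat.cast_succ]

lemma KQC_unif {A B : Type} [Fintype A] [Fintype B] [AddGroup A] [AddGroup B] {φ : A → B}
    (ha : ∀ a a', φ (a + a') = φ a + φ a') (hs : Function.Surjective φ) (f : B → ℝ) :
    𝔼 a, f (φ a) = 𝔼 b, f b := by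
  choose s hs using hs
  calc _ = 𝔼 b, 𝔼 a, f (φ (a + s b)) := by
        rw [← ex_const (P := B) (𝔼 a, f (φ a))]
        exact expect_congr rfl fun b _ => (ex_equiv (Equiv.addRight (s b)) fun a => f (φ a)).symm
    _ = 𝔼 _a : A, 𝔼 b, f b := by
        rw [ex_comm]
        exact expect_congr rfl fun a _ => by
          simp only [ha, hs]
          exact ex_equiv (Equiv.addLeft (φ a)) f
    _ = _ := ex_const _

lemma KQC_pi {J A : Type} [Fintype J] [DecidableEq J] [Fintype A] (f : A → ℝ) :
    𝔼 z : J → A, ∏ j, f (z j) = (𝔼 a, f a) ^ Fintype.card J := by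
  rw [ex_eq, ex_eq, div_pow, ← Fintype.piFinset_univ, ← prod_univ_sum (fun _ => univ) fun _ => f]
  simp

lemma KQC_tail {M N c k : ℕ} [Fact M.Prime] [NeZero N] {lam : ℝ} (hc : 2 ≤ lam * c)
    {y : ZMod N → ZMod M}
    (hy : LinearIndependent (ZMod M) fun (j : Fin k) (m : ZMod N) => y (m + (j : ℕ))) :
    pr (fun g : Fin c → ZMod N → ZMod M => lam < pr fun i => ip y (dirs g i) = 0) ≤
      ((2 : ℝ) ^ c / M ^ 2) ^ k := by
  have hM : (1 : ℝ) < M := mod_cast (Fact.out : M.Prime).one_lt
  have hL := (Real.log_pos hM).le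
  have hs : Function.Surjective fun (g : ZMod N → ZMod M) (j : Fin k) => ip y (tw (j : ℕ) g) := by
    let A : Matrix (Fin k) (ZMod N) (ZMod M) := Matrix.of fun j m => y (m + (j : ℕ))
    have h1 : LinearMap.range A.mulVecLin = ⊤ := Submodule.eq_top_of_finrank_eq
      ((LinearIndependent.rank_matrix (M := A) hy).trans (Module.finrank_fintype_fun_eq_card _).symm)
    intro z
    obtain ⟨g, rfl⟩ := LinearMap.range_eq_top.1 h1 z
    refine ⟨g, funext fun j => ?_⟩
    exact (Equiv.sum_comp (Equiv.addRight ((j : ℕ) : ZMod N)) _).symm.trans (by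
      simp [tw, A, Matrix.mulVec, dotProduct])
  have h1 : 𝔼 t : ZMod M, Real.exp (Real.log M * ind (t = 0)) ≤ 2 := by
    refine (ex_mono (g := fun t => 1 + M * ind (t = 0)) fun t => ?_).trans ?_
    · by_cases h : t = 0
      · rw [ind_pos h, mul_one, mul_one, Real.exp_log (by linarith)]
        linarith
      · simp [ind_neg h]
    · rw [ex_add, ex_const, ex_mul, ex_eq, sum_eq_single 0 (fun _ _ => ind_neg) (by simp),
        ind_pos rfl, ZMod.card, mul_one_div_cancel (by linarith)]
      norm_num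
  have h2 : ∀ w : ZMod N, 𝔼 g : Fin c → ZMod N → ZMod M, ∏ i, ∏ j : Fin k,
      Real.exp (Real.log M * ind (ip y (tw (j : ℕ) (tw w (g i))) = 0)) ≤ (2 ^ c) ^ k := fun w => by
    rw [KQC_pi fun g => ∏ j : Fin k,
        Real.exp (Real.log M * ind (ip y (tw (j : ℕ) (tw w g)) = 0)),
      KQC_unif (φ := fun g (j : Fin k) => ip y (tw (j : ℕ) (tw w g)))
        (fun a b => funext fun j => by rw [tw_add, tw_add, ip_add_right]; rfl)
        (hs.comp fun g => ⟨tw (-w) g, by rw [tw_tw, add_neg_cancel, tw_zero]⟩)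
        fun z => ∏ j, Real.exp (Real.log M * ind (z j = 0)),
      KQC_pi fun t : ZMod M => Real.exp (Real.log M * ind (t = 0)), Fintype.card_fin,
      Fintype.card_fin, ← pow_mul, ← pow_mul, mul_comm c]
    exact pow_le_pow_left₀ (ex_nonneg fun _ => (Real.exp_pos _).le) h1 _
  refine (pr_mono fun g hg => ?_).trans ((markov (t := (M ^ 2) ^ k) (f := fun g => 𝔼 w : ZMod N,
    ∏ i, ∏ j : Fin k, Real.exp (Real.log M * ind (ip y (tw (j : ℕ) (tw w (g i))) = 0)))
    (fun g => ex_nonneg fun w => by positivity) (by positivity)).trans ?_)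
  · have h3 : 𝔼 w : ZMod N, ∑ i, ∑ j : Fin k, ind (ip y (tw (j : ℕ) (tw w (g i))) = 0) =
        k * (c * pr fun i => ip y (dirs g i) = 0) := by
      have hc0 : (c : ℝ) ≠ 0 := fun h => by rw [h] at hc; linarith
      have e : ∀ i (a : ZMod N), 𝔼 w : ZMod N, ind (ip y (tw (a + w) (g i)) = 0) =
          pr fun w => ip y (dirs g (w, i)) = 0 := fun i a =>
        ex_equiv (Equiv.addLeft a) fun w => ind (ip y (tw w (g i)) = 0)
      simp only [ex_sum, tw_tw, e]
      rw [pr_prod', ex_eq, Fintype.card_fin, mul_div_cancel₀ _ hc0, mul_sum]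
      simp
    have h4 : (M ^ 2 : ℝ) ^ k = Real.exp (Real.log M * (k * 2)) := by
      rw [Real.exp_mul, Real.exp_log (by linarith), ← pow_mul, mul_comm 2]
      norm_cast
    refine le_trans ?_ (ex_mono (f := fun w => (M ^ 2 : ℝ) ^ k * (Real.log M *
      ((∑ i, ∑ j : Fin k, ind (ip y (tw (j : ℕ) (tw w (g i))) = 0)) - k * 2) + 1)) fun w => ?_)
    · rw [ex_mul, ex_add, ex_mul, ex_sub, ex_const, ex_const, h3]
      refine le_mul_of_one_le_right (by positivity) (le_add_of_nonneg_left (mul_nonneg hL ?_))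
      rw [← mul_sub]
      exact mul_nonneg k.cast_nonneg (by nlinarith [(c.cast_nonneg : (0 : ℝ) ≤ c)])
    · refine (mul_le_mul_of_nonneg_left (Real.add_one_le_exp _) (by positivity)).trans_eq ?_
      simp only [h4, ← Real.exp_add, ← Real.exp_sum, ← mul_sum]
      congr 1
      ring
  · rw [ex_comm, div_pow]
    exact div_le_div_of_nonneg_right (ex_le_const (by positivity) h2) (by positivity)

theorem exists_dirs {M N c : ℕ} [Fact M.Prime] [NeZero N] (hN : ∃ e, N = M ^ e) {lam : ℝ}
    (hc : 2 ≤ lam * c) (hM : 2 ^ (c + 2) ≤ M) :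
    ∃ g : Fin c → ZMod N → ZMod M, Expd (dirs g) lam := by
  obtain ⟨e, he⟩ := hN
  let T : Module.End (ZMod M) (ZMod N → ZMod M) := LinearMap.funLeft _ _ fun m => m + 1
  have hT : ∀ (j : ℕ) y m, (T ^ j) y m = y (m + j) := fun j => by
    induction j with
    | zero => simp
    | succ j ih =>
      intro y m
      rw [pow_succ', Nat.cast_succ, add_comm (j : ZMod N), ← add_assoc]
      exact ih y (m + 1)
  have hu : (T - 1) ^ N = 0 := by
    have h := congrArg (Polynomial.aeval T)
      (sub_pow_char_pow (p := M) (Polynomial.X : Polynomial (ZMod M)) 1 e)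
    rw [← he] at h
    simp only [map_pow, map_sub, Polynomial.aeval_X, map_one, one_pow] at h
    rw [h, sub_eq_zero]
    ext y m
    simp [hT]
  have hM2 : (2 : ℝ) ^ (c + 2) ≤ M := mod_cast hM
  have hM0 : (0 : ℝ) < M := lt_of_lt_of_le (by positivity) hM2
  obtain ⟨g, hg⟩ := exists_not_of_pr_lt (A := fun g : Fin c → ZMod N → ZMod M =>
    ∃ (k : Fin N) (y : ZMod N → ZMod M), ((T - 1) ^ (k + 1 : ℕ)) y = 0 ∧
      (LinearIndependent (ZMod M) fun j : Fin (k + 1) => (T ^ (j : ℕ)) y) ∧
        lam < pr fun i => ip y (dirs g i) = 0) (by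
    refine ((pr_exists_le _).trans (sum_le_sum (g := fun k : Fin N => 1 / 4 * (1 / 2 : ℝ) ^ (k : ℕ))
      fun k _ => (pr_exists_le _).trans ?_)).trans_lt ?_
    · refine (sum_le_sum (g := fun y => if ((T - 1) ^ (k + 1 : ℕ)) y = 0 then
        ((2 : ℝ) ^ c / M ^ 2) ^ (k + 1 : ℕ) else 0) fun y _ => ?_).trans ?_
      · split_ifs with h
        · by_cases hy : LinearIndependent (ZMod M) fun j : Fin (k + 1) => (T ^ (j : ℕ)) y
          · exact (pr_mono fun g h => h.2.2).trans (KQC_tail hc (by simpa only [funext (hT _ y)] using hy))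
          · rw [pr_false fun g h => hy h.2.1]
            positivity
        · rw [pr_false fun g h' => h h'.1]
      · rw [← sum_filter, sum_const, nsmul_eq_mul]
        calc _ ≤ (M : ℝ) ^ (k + 1 : ℕ) * ((2 : ℝ) ^ c / M ^ 2) ^ (k + 1 : ℕ) := by
              gcongr
              exact_mod_cast KQC_cnt (k + 1)
          _ ≤ (1 / 4) ^ (k + 1 : ℕ) := by
              rw [← mul_pow]
              gcongr
              rw [← mul_div_assoc, div_le_div_iff₀ (by positivity) (by positivity)]
              rw [pow_add] at hM2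
              nlinarith
          _ ≤ _ := by
              rw [pow_succ']
              gcongr
              norm_num
    · rw [← mul_sum, Fin.sum_univ_eq_sum_range fun k => (1 / 2 : ℝ) ^ k]
      linarith [sum_geometric_two_le N])
  refine ⟨g, fun y hy => not_lt.1 fun h => ?_⟩
  obtain ⟨k, h1, h2⟩ := KQC_ord T hu hy
  exact hg ⟨k, y, h1, h2, h⟩

open Classical in
theorem exists_small {M : ℕ} [Fact M.Prime] {ι I : Type} [Fintype ι] [DecidableEq ι] [Fintype I]
    {B d : ℕ} (hB : M ≤ B * (d + 1)) (s : I → ι → ZMod M) (T : Finset ι) :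
    M ^ T.card ≤ B ^ Fintype.card I * (univ.filter fun y : ι → ZMod M =>
      (∀ l, l ∉ T → y l = 0) ∧ ∀ i, Small d (ip y (s i))).card := by
  have h := card_le_mul_card_image_of_maps_to
    (s := Fintype.piFinset fun l => if l ∈ T then univ else ({0} : Finset (ZMod M)))
    (t := Fintype.piFinset fun _ : I => range B) (f := fun y i => (ip y (s i)).val / (d + 1))
    (fun y _ => Fintype.mem_piFinset.2 fun i => mem_range.2
      (Nat.div_lt_of_lt_mul ((ZMod.val_lt _).trans_le (hB.trans_eq (mul_comm _ _)))))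
    (univ.filter fun y : ι → ZMod M =>
      (∀ l, l ∉ T → y l = 0) ∧ ∀ i, Small d (ip y (s i))).card fun b _ => ?_
  · simpa [apply_ite card, mul_comm] using h
  · rcases eq_empty_or_nonempty _ with h | ⟨z, hz⟩
    · exact (congrArg card h).trans_le (Nat.zero_le _)
    · refine card_le_card_of_injOn (· - z) (fun y hy => mem_filter.2 ⟨mem_univ _, fun l hl => ?_,
        fun i => ⟨((ip y (s i)).val : ℤ) - (ip z (s i)).val, ?_, by simp [ip_sub_left]⟩⟩)
        (sub_left_injective.injOn)
      · have h1 := Fintype.mem_piFinset.1 (mem_filter.1 hy).1 l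
        have h2 := Fintype.mem_piFinset.1 (mem_filter.1 hz).1 l
        rw [if_neg hl, mem_singleton] at h1 h2
        simp [h1, h2]
      · have h1 := congrFun ((mem_filter.1 hy).2.trans (mem_filter.1 hz).2.symm) i
        have h2 := Nat.div_add_mod (ip y (s i)).val (d + 1)
        have h3 := Nat.div_add_mod (ip z (s i)).val (d + 1)
        have h4 := Nat.mod_lt (ip y (s i)).val d.add_one_pos
        have h5 := Nat.mod_lt (ip z (s i)).val d.add_one_pos
        rw [h1] at h2
        rw [abs_le]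
        generalize (ip y (s i)).val % (d + 1) = r at h2 h4
        generalize (ip z (s i)).val % (d + 1) = r' at h3 h5
        omega

end Vale.Agent.P330
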