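import Vale.Agent.P330.CVec
import Vale.Agent.P330.KQC

/-! The constants, the dimension and the number of small frequencies. -/

namespace Vale.Agent.P330

open Vale.Agent.Lib.TM Finset

/-- The requirements on the constants. -/
structure Par (M p c d : ℕ) [Fact M.Prime] [Fact p.Prime] (χ : AddChar (ZMod M) (ZMod p)) :
    Prop where
  prim : χ.IsPrimitive
  hM : 20000 * (11 * d + 2) ≤ M
  hp : 1000 ≤ p
  hMp : (M : ZMod p) ≠ 0
  hc : 2 ≤ lam0 * c
  hMc : 2 ^ (c + 2) ≤ M
  hB : M ≤ 300000 * (d + 1)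
  hMB : 2 * 300000 ^ (22 * c) ≤ M

theorem exists_par : ∃ (M p c d : ℕ) (_ : Fact M.Prime) (_ : Fact p.Prime) (_ : NeZero c)
    (χ : AddChar (ZMod M) (ZMod p)), Par M p c d χ := by
  have hl : 0 < lam0 := by unfold lam0; positivity
  obtain ⟨c, hc⟩ := exists_nat_ge (2 / lam0)
  rw [div_le_iff₀' hl] at hc
  have hc0 : c ≠ 0 := by
    rintro rfl
    norm_num at hc
  obtain ⟨M, hM, hMp⟩ := Nat.exists_infinite_primes (150000 + 2 ^ (c + 2) + 2 * 300000 ^ (22 * c))
  obtain ⟨p, hp, h1, h2⟩ := Nat.exists_prime_gt_modEq_one (1000 + M) hMp.ne_zero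
  haveI : Fact M.Prime := ⟨hMp⟩
  haveI : Fact p.Prime := ⟨hp⟩
  have h3 : M ∣ Fintype.card (ZMod p)ˣ := by
    rw [ZMod.card_units]
    exact (Nat.modEq_iff_dvd' hp.one_lt.le).1 h2.symm
  obtain ⟨z, hz⟩ := exists_prime_orderOf_dvd_card M h3
  have h4 : IsPrimitiveRoot (z : ZMod p) M :=
    IsPrimitiveRoot.coe_units_iff.2 (hz ▸ IsPrimitiveRoot.orderOf z)
  refine ⟨M, p, c, M / 300000, inferInstance, inferInstance, ⟨hc0⟩, _,
    AddChar.zmodChar_primitive_of_primitive_root M h4, ?_, ?_, ?_, hc, ?_, ?_, ?_⟩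
  · generalize 2 ^ (c + 2) = u, 300000 ^ (22 * c) = v at hM
    omega
  · exact (Nat.le_add_right _ _).trans h1.le
  · intro h5
    exact absurd (Nat.le_of_dvd hMp.pos ((ZMod.natCast_eq_zero_iff M p).1 h5))
      (not_le.2 ((Nat.le_add_left _ _).trans_lt h1))
  · exact ((Nat.le_add_left _ _).trans (Nat.le_add_right _ _)).trans hM
  · exact (Nat.lt_mul_div_succ M (by norm_num)).le
  · exact (Nat.le_add_left _ _).trans hM

lemma cpara_fold {M L : ℕ} (hM : 2 ≤ M) (l : List ℕ) : ∀ s, 1 ≤ s → (∃ e, s = M ^ e) →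
    s ≤ M * L → (∃ e, l.foldl (fun s _ => bif Nat.blt s L then M * s else s) s = M ^ e) ∧
      l.foldl (fun s _ => bif Nat.blt s L then M * s else s) s ≤ M * L ∧
      min L (s + l.length) ≤ l.foldl (fun s _ => bif Nat.blt s L then M * s else s) s := by
  induction l with
  | nil => exact fun s _ h2 h3 => ⟨h2, h3, min_le_right _ _⟩
  | cons x l ih =>
    rintro s h1 ⟨e, he⟩ h3
    rw [List.foldl_cons, List.length_cons]
    have h4 : 2 * s ≤ M * s := Nat.mul_le_mul_right _ hM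
    cases h : Nat.blt s L with
    | true =>
      rw [Nat.blt_eq] at h
      obtain ⟨a1, a2, a3⟩ := ih (M * s) (by omega) ⟨e + 1, by rw [he, pow_succ']⟩
        (Nat.mul_le_mul_left _ h.le)
      exact ⟨a1, a2, le_trans (by omega) a3⟩
    | false =>
      have h5 : ¬s < L := by
        rw [← Nat.blt_eq, h]
        simp
      obtain ⟨a1, a2, a3⟩ := ih s h1 ⟨e, he⟩ h3
      exact ⟨a1, a2, le_trans (by omega) a3⟩

lemma cpara_pow {α : Type} [Enc α] {t : α → ℕ} (h : Bd 0 t) (k : ℕ) : Bd 0 fun a => t a ^ k := by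
  induction k with
  | zero => exact Bd.const 1
  | succ k ih => exact (ih.mul h).of_le fun a => (pow_succ _ _).le

lemma cpara_size (n : ℕ) : 2 ^ (n + 1).size ≤ 2 * (n + 1) := by
  have h1 : 0 < (n + 1).size := Nat.size_pos.2 n.succ_pos
  have h2 : 2 ^ ((n + 1).size - 1) ≤ n + 1 := Nat.lt_size.1 (by omega)
  rw [show (n + 1).size = (n + 1).size - 1 + 1 by omega, pow_succ']
  omega

theorem exists_dim {α : Type} [Enc α] {M : ℕ} (hM : 2 ≤ M) {K : α → ℕ} (hK : CT 0 K)
    (hB : Bd 0 K) : ∃ N : α → ℕ, LogN N ∧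
      ∀ a, (∃ e, N a = M ^ e) ∧ 11 ≤ N a ∧ K a + 1 ≤ 2 ^ (N a / 11) := by
  have hL : CT 0 fun a => 11 * (K a + 1).size := (CT.const 11).mul (hK.add (CT.const 1)).natSize
  have hLb : Bd 0 fun a => 11 * (K a + 1).size := (Bd.const 11).mul (hK.add (CT.const 1)).bd_size
  have h1 : ∀ a, 11 ≤ 11 * (K a + 1).size := fun a =>
    Nat.le_mul_of_pos_right _ (Nat.size_pos.2 (K a).succ_pos)
  have h0 : ∀ a, 1 ≤ M * (11 * (K a + 1).size) := fun a =>
    Nat.mul_pos (by omega) (by have := h1 a; omega)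
  have hf := fun a => cpara_fold (L := 11 * (K a + 1).size) hM
    (List.range (11 * (K a + 1).size)) 1 le_rfl ⟨0, rfl⟩ (h0 a)
  refine ⟨fun a => (List.range (11 * (K a + 1).size)).foldl
    (fun s _ => bif Nat.blt s (11 * (K a + 1).size) then M * s else s) 1, ⟨?_, ?_⟩, fun a => ?_⟩
  · refine CT.foldl_inv (g := fun a s _ => bif Nat.blt s (11 * (K a + 1).size) then M * s else s)
      ((CT.id.snd.fst.blt (hL.comp CT.id.fst)).cond ((CT.const M).mul CT.id.snd.fst)
        CT.id.snd.fst) (CT.const 1) (hL.range hLb) ((CT.const M).mul hL).size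
      (fun a s _ => s ≤ M * (11 * (K a + 1).size)) h0 (fun a s x r hs => ?_)
      fun a s r hs => sz_mono hs
    cases h : Nat.blt s (11 * (K a + 1).size) with
    | true =>
      rw [Nat.blt_eq] at h
      exact Nat.mul_le_mul_left _ h.le
    | false => exact hs
  · refine (cpara_pow ((Bd.const 2).mul (hB.add (Bd.const 1))) (M * 11)).of_le fun a => ?_
    refine (Nat.pow_le_pow_right two_pos (hf a).2.1).trans ?_
    rw [← mul_assoc, mul_comm, pow_mul]
    exact Nat.pow_le_pow_left (cpara_size _) _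
  · obtain ⟨a1, -, a3⟩ := hf a
    rw [List.length_range, min_eq_left (Nat.le_add_left _ _)] at a3
    refine ⟨a1, (h1 a).trans a3, (Nat.lt_size_self _).le.trans (Nat.pow_le_pow_right two_pos ?_)⟩
    exact (Nat.le_div_iff_mul_le (by norm_num)).2 ((mul_comm _ _).trans_le a3)

open Classical in
theorem count_small {M p c d N : ℕ} [Fact M.Prime] [Fact p.Prime] [NeZero N]
    {χ : AddChar (ZMod M) (ZMod p)} (h : Par M p c d χ) (hN : 11 ≤ N) (g : Fin c → XX M N)
    {lo hi : ℕ} (h1 : lo + N / 11 ≤ hi) (h2 : hi ≤ N) :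
    2 ^ (N / 11) ≤ (univ.filter fun y : XX M N => (∀ l, ¬(lo ≤ l.val ∧ l.val < hi) → y l = 0) ∧
      ∀ i, Small d (ip y (dirs g i))).card := by
  have h3 := exists_small h.hB (dirs g) (univ.filter fun l : ZMod N => lo ≤ l.val ∧ l.val < hi)
  have h4 : N / 11 ≤ (univ.filter fun l : ZMod N => lo ≤ l.val ∧ l.val < hi).card := by
    have h5 : (Ico lo hi).card ≤ (univ.filter fun l : ZMod N => lo ≤ l.val ∧ l.val < hi).card := by
      refine card_le_card_of_injOn (fun i : ℕ => (i : ZMod N)) (fun i hi' => ?_)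
        fun i hi' j hj hij => ?_
      · have h6 := mem_Ico.1 hi'
        refine mem_filter.2 ⟨mem_univ _, ?_⟩
        rw [ZMod.val_natCast_of_lt (h6.2.trans_le h2)]
        exact h6
      · have h6 := congrArg ZMod.val hij
        rwa [ZMod.val_natCast_of_lt ((mem_Ico.1 hi').2.trans_le h2),
          ZMod.val_natCast_of_lt ((mem_Ico.1 hj).2.trans_le h2)] at h6
    rw [Nat.card_Ico] at h5
    omega
  have hM : 0 < M := (Fact.out : M.Prime).pos
  have h5 : Fintype.card (ZMod N × Fin c) ≤ 22 * c * (N / 11) := by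
    rw [Fintype.card_prod, ZMod.card, Fintype.card_fin, mul_right_comm]
    exact Nat.mul_le_mul_right _ (by omega)
  have h6 := ((Nat.pow_le_pow_left h.hMB (N / 11)).trans (Nat.pow_le_pow_right hM h4)).trans
    (h3.trans (Nat.mul_le_mul_right _ (Nat.pow_le_pow_right (by norm_num) h5)))
  rw [mul_pow, ← pow_mul, mul_comm] at h6
  refine (Nat.le_of_mul_le_mul_left h6 (Nat.pow_pos (by norm_num))).trans
    (card_le_card fun y hy => ?_)
  have h7 := (mem_filter.1 hy).2
  exact mem_filter.2 ⟨mem_univ _, fun l hl => h7.1 l fun h8 => hl (mem_filter.1 h8).2, h7.2⟩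

end Vale.Agent.P330
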