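import Vale.Agent.P330.YEnc

/-! Averages and Fourier coefficients. -/

namespace Vale.Agent.P330

open Finset
open scoped BigOperators

variable {M p c N : ℕ} [Fact M.Prime] [Fact p.Prime] [NeZero N] {J : Type} [Fintype J]
  {χ : AddChar (ZMod M) (ZMod p)} {cx : Cx M p c N J} {d : ℕ}

lemma YFour_const (a : ZMod p) : ∑ _x : XX M N, a = (M : ZMod p) ^ N * a := by
  simp

lemma YFour_shift {f : XX M N → ZMod p} (e : XX M N) {a : ZMod p} (ha : a ≠ 1)
    (h : ∀ x, f (x + e) = a * f x) : ∑ x, f x = 0 := by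
  have h1 := Equiv.sum_comp (Equiv.addRight e) f
  simp only [Equiv.coe_addRight, h, ← mul_sum] at h1
  exact eq_zero_of_mul_eq_self_left ha h1

omit [NeZero N] in
lemma YFour_ne (hχ : χ.IsPrimitive) {a : ZMod M} (ha : a ≠ 0) : χ a ≠ 1 := fun h =>
  ha (chi_inj hχ (h.trans χ.map_zero_eq_one.symm))

lemma YFour_ip {y : XX M N} {l : ZMod N} (h : y l ≠ 0) :
    ip y ((y l)⁻¹ • Pi.single l 1) = 1 := by
  rw [ip_smul_right]
  simp [ip, Pi.single_apply, h]

lemma YFour_InB {N j j' : ℕ} {l : ZMod N} (h : InB j l) (h' : InB j' l) : j = j' := by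
  have h1 := Nat.lt_of_mul_lt_mul_right (h.1.trans_lt h'.2)
  have h2 := Nat.lt_of_mul_lt_mul_right (h'.1.trans_lt h.2)
  omega

lemma YFour_bn {g : Bool} {b b' : Fin 5} (h : bn g b = bn g b') : b = b' := by
  unfold bn at h
  omega

lemma YFour_ind (P : ZMod N → Prop) [DecidablePred P] {F G : XX M N → ZMod p}
    (hF : ∀ x x', (∀ l, P l → x l = x' l) → F x = F x')
    (hG : ∀ x x', (∀ l, ¬P l → x l = x' l) → G x = G x') :
    (M : ZMod p) ^ N * ∑ x, F x * G x = (∑ x, F x) * ∑ x, G x := by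
  let e : XX M N × XX M N → XX M N × XX M N := fun z =>
    (fun l => if P l then z.1 l else z.2 l, fun l => if P l then z.2 l else z.1 l)
  have he : Function.Involutive e := fun z => by
    ext l <;> by_cases h : P l <;> simp [e, h]
  have h1 := Equiv.sum_comp he.toPerm fun z => F z.1 * G z.1
  rw [Fintype.sum_prod_type, Fintype.sum_prod_type] at h1
  simp only [YFour_const] at h1
  rw [mul_sum, ← h1, sum_mul_sum]
  refine sum_congr rfl fun x _ => sum_congr rfl fun x' _ => ?_
  rw [hF x (e (x, x')).1 fun l hl => by simp [e, hl], hG x' (e (x, x')).1 fun l hl => by simp [e, hl]]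
  rfl

lemma Aop_zero : Aop (0 : XX M N → ZMod p) = 0 := by
  funext x
  simp [Aop]

lemma Aop_sum {T : Type} (t : Finset T) (a : T → ZMod p) (f : T → XX M N → ZMod p) (x : XX M N) :
    Aop (fun y => ∑ i ∈ t, a i * f i y) x = ∑ i ∈ t, a i * Aop (f i) x := by
  simp only [Aop, mul_sum]
  rw [sum_comm]
  exact sum_congr rfl fun i _ => sum_congr rfl fun α _ => by ring

theorem Aop_iter (hM : (M : ZMod p) ≠ 0) {t : ℕ} (ht : t ≤ N) (φ : XX M N → ZMod p) (x : XX M N) :
    Aop^[t] φ x = ((M : ZMod p) ^ N)⁻¹ * ∑ v, φ (tw (t : ZMod N) x + cut t v) := by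
  induction t generalizing x with
  | zero =>
    have h : ∀ v : XX M N, cut 0 v = 0 := fun v => funext fun l => by simp [cut]
    simp only [Function.iterate_zero, id, Nat.cast_zero, tw_zero, h, add_zero]
    rw [YFour_const, inv_mul_cancel_left₀ (pow_ne_zero _ hM)]
  | succ t ih =>
    have h1 : (t : ZMod N).val = t := ZMod.val_cast_of_lt ht
    have h2 : tw (t : ZMod N) (Pi.single 0 1 : XX M N) = Pi.single (t : ZMod N) 1 := by
      funext l
      simp [tw, Pi.single_apply, sub_eq_zero]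
    have h3 : ∀ (v : XX M N) (a : ZMod M), cut (t + 1) (v + a • Pi.single (t : ZMod N) 1) =
        (v t + a) • Pi.single (t : ZMod N) 1 + cut t v := fun v a => by
      funext l
      by_cases hl : l = t
      · simp [cut, hl, h1]
      · have h4 : l.val ≠ t := fun h4 => hl (ZMod.val_injective _ (h4.trans h1.symm))
        have h5 : l.val < t + 1 ↔ l.val < t := by omega
        simp [cut, hl, h5]
    have h4 : ∀ y : XX M N, ∑ α : ZMod M, ∑ v, φ (y + α • Pi.single (t : ZMod N) 1 + cut t v) =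
        M * ∑ v, φ (y + cut (t + 1) v) := fun y => by
      have h5 : ∀ a : ZMod M, ∑ v, φ (y + cut (t + 1) v) =
          ∑ v, φ (y + cut (t + 1) (v + a • Pi.single (t : ZMod N) 1)) := fun a =>
        (Equiv.sum_comp (Equiv.addRight _) fun v => φ (y + cut (t + 1) v)).symm
      have h6 : (M : ZMod p) * ∑ v, φ (y + cut (t + 1) v) =
          ∑ _a : ZMod M, ∑ v, φ (y + cut (t + 1) v) := by simp
      rw [h6, sum_congr rfl fun a _ => h5 a, sum_comm, sum_comm (γ := ZMod M)]
      refine sum_congr rfl fun v _ => ?_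
      rw [← Equiv.sum_comp (Equiv.addLeft (v t))]
      simp only [h3, Equiv.coe_addLeft, add_assoc]
    rw [Function.iterate_succ_apply', Aop]
    simp only [ih (Nat.le_of_succ_le ht), tw_add, tw_smul, tw_tw, h2]
    rw [← mul_sum, h4, Nat.cast_succ, mul_left_comm, inv_mul_cancel_left₀ hM]

lemma sum_chi (hχ : χ.IsPrimitive) (y : XX M N) :
    ∑ x, χ (ip y x) = if y = 0 then (M : ZMod p) ^ N else 0 := by
  split_ifs with h
  · simp only [h, ip, Pi.zero_apply, zero_mul, sum_const_zero, AddChar.map_zero_eq_one]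
    rw [YFour_const, mul_one]
  · obtain ⟨l, hl⟩ := Function.ne_iff.1 h
    refine YFour_shift ((y l)⁻¹ • Pi.single l 1) (YFour_ne hχ one_ne_zero) fun x => ?_
    rw [ip_add_right, YFour_ip hl, AddChar.map_add_eq_mul, mul_comm]

lemma coef_chi (hχ : χ.IsPrimitive) (hM : (M : ZMod p) ≠ 0) (y y' : XX M N) :
    coef χ (fun x => χ (ip y x)) y' = if y = y' then 1 else 0 := by
  simp only [coef, ← AddChar.map_add_eq_mul, ← sub_eq_add_neg, ← ip_sub_left, sum_chi hχ,
    sub_eq_zero]
  split_ifs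
  · exact inv_mul_cancel₀ (pow_ne_zero _ hM)
  · exact mul_zero _

lemma coef_sum {T : Type} (t : Finset T) (a : T → ZMod p) (f : T → XX M N → ZMod p) (y : XX M N) :
    coef χ (fun x => ∑ i ∈ t, a i * f i x) y = ∑ i ∈ t, a i * coef χ (f i) y := by
  simp only [coef, mul_sum, sum_mul]
  rw [sum_comm]
  exact sum_congr rfl fun i _ => sum_congr rfl fun x _ => by ring

lemma coef_dep (hχ : χ.IsPrimitive) {j : ℕ} {f : XX M N → ZMod p} (hf : DepB j f) {y : XX M N}
    {l : ZMod N} (hl : ¬InB j l) (hy : y l ≠ 0) : coef χ f y = 0 := by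
  rw [coef, YFour_shift ((y l)⁻¹ • Pi.single l 1) (YFour_ne hχ (neg_ne_zero.2 one_ne_zero))
    fun x => ?_, mul_zero]
  rw [ip_add_right, YFour_ip hy, neg_add, AddChar.map_add_eq_mul, hf _ x fun l' hl' => ?_]
  · ring
  · have h : l' ≠ l := fun h => hl (h ▸ hl')
    simp [h]

lemma DepB.chi {j : ℕ} {y : XX M N} (hy : ∀ l, ¬InB j l → y l = 0) :
    DepB j fun x => χ (ip y x) := by
  intro x x' h
  refine congrArg χ (sum_congr rfl fun l _ => ?_)
  by_cases hl : InB j l
  · rw [h l hl]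
  · rw [hy l hl, zero_mul, zero_mul]

lemma encB_dep (h : cx.Ok χ d) (g : Bool) (b : Fin 5) (z : ℕ → ZMod p) :
    DepB (bn g b) (cx.encB χ g b z) := by
  intro x x' hx
  exact sum_congr rfl fun i _ => congrArg _ (DepB.chi (h.al_supp g b i) x x' hx)

lemma coef_encB (h : cx.Ok χ d) (g : Bool) (b : Fin 5) (z : ℕ → ZMod p) {i : ℕ}
    (hi : i < cx.A.k) : coef χ (cx.encB χ g b z) (cx.al g b i) = z i := by
  refine (coef_sum _ z (fun i x => χ (ip (cx.al g b i) x)) _).trans ?_
  simp only [coef_chi h.prim h.hMp]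
  rw [sum_eq_single_of_mem i (mem_range.2 hi) fun j hj hji => ?_, if_pos rfl, mul_one]
  rw [if_neg fun e => hji (h.al_inj g b j (mem_range.1 hj) i hi e), mul_zero]

/-- Functions of different blocks are independent. -/
theorem avg_prod (hM : (M : ZMod p) ≠ 0) (g : Bool) {f : Fin 5 → XX M N → ZMod p}
    (hf : ∀ b, DepB (bn g b) (f b)) :
    ((M : ZMod p) ^ N)⁻¹ * ∑ x, ∏ b, f b x = ∏ b, ((M : ZMod p) ^ N)⁻¹ * ∑ x, f b x := by
  have h0 : (M : ZMod p) ^ N ≠ 0 := pow_ne_zero _ hM
  suffices h : ∀ s : Finset (Fin 5), ((M : ZMod p) ^ N)⁻¹ * ∑ x, ∏ b ∈ s, f b x =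
      ∏ b ∈ s, ((M : ZMod p) ^ N)⁻¹ * ∑ x, f b x from h univ
  intro s
  induction s using Finset.induction_on with
  | empty => simp only [prod_empty]; rw [YFour_const, mul_one, inv_mul_cancel₀ h0]
  | insert b s hb ih =>
    simp only [prod_insert hb]
    have h := YFour_ind (InB (bn g b)) (F := f b) (G := fun x => ∏ b ∈ s, f b x) (hf b)
      fun x x' hx => prod_congr rfl fun b' hb' => hf b' x x' fun l hl => hx l fun hl' =>
        hb (YFour_bn (YFour_InB hl hl') ▸ hb')
    rw [← ih, mul_mul_mul_comm, ← h, mul_assoc, inv_mul_cancel_left₀ h0]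

end Vale.Agent.P330
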