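import Vale.Agent.P330.CVec
import Vale.Agent.P330.YFour

/-! The constants of the cells are computed in polynomial time. -/

namespace Vale.Agent.P330

open Vale.Agent.Lib.TM Finset
open scoped BigOperators

variable {α : Type} [Enc α] {M p c : ℕ} [Fact M.Prime] [Fact p.Prime] [NeZero c]
  {N : α → ℕ} [∀ a, NeZero (N a)] {J : Type} {cx : ∀ a, Cx M p c (N a) J}
  (χ : AddChar (ZMod M) (ZMod p))

omit [∀ a, NeZero (N a)] in
lemma CTab_RR (hN : LogN N) : CT 0 fun a => RR (N a) :=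
  (CT.const 5).mul (hN.1.div (CT.const 11))

lemma CTab_psiL {Pt : α → (Fin 5 → Bool) → ZMod p} {U f : α → Fin 5 → ZMod p}
    (h1 : ∀ β, FinCT fun a => Pt a β) (h2 : ∀ b, FinCT fun a => U a b)
    (h3 : ∀ b, FinCT fun a => f a b) : FinCT fun a => psiL (Pt a) (U a) (f a) :=
  ((FinCT.pi h1).prod ((FinCT.pi h2).prod (FinCT.pi h3))).comp fun u => psiL u.1 u.2.1 u.2.2

lemma CTab_ents {A : α → Mach} (hA : CT 0 A) (hB : Bd 0 fun a => (A a).k) (dir g : Bool) :
    CT 0 fun a => (A a).ents dir g := by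
  have h1 : CT 0 fun z : α × ℕ => boolD z.2 :=
    (CT.const _).mk (CT.id.snd.cons (CT.id.snd.cons (CT.id.snd.cons (CT.id.snd.cons
      (CT.id.snd.cons (CT.const []))))))
  refine CT.append ?_ (CT.append ?_ (CT.map (f := fun _ => boolD) h1 (hA.fst.range hB)))
  · cases dir
    · exact hA.snd.snd.fst
    · exact hA.snd.fst
  · cases g
    · exact hA.snd.snd.snd.fst
    · exact hA.snd.snd.snd.snd.fst

lemma CTab_msg {A : α → Mach} (hA : CT 0 A) (κ : Ctl) (j : α → ℕ) {w w' : α → List Bool}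
    (hw : CT 0 w) (hw' : CT 0 w') (σ : Slot) : CT 0 fun a => (A a).msg (κ, j a, w a, w' a) σ := by
  have h1 := (ct_step false).comp (hA.mk hw)
  have h2 := (ct_step true).comp (hA.mk hw')
  unfold Mach.msg
  dsimp only
  split_ifs
  exacts [hw, hw', h1, hw', h2, hw]

omit [∀ a, NeZero (N a)] in
lemma CTab_hgt (hN : LogN N) (κ : Ctl) {j : α → ℕ} (hj : CT 0 j) (σ : Slot) :
    CT 0 fun a => hgt (N a) κ (j a) σ := by
  unfold hgt
  split_ifs
  exacts [hj, (CTab_RR hN).add (CT.const 1), CT.const 0]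

lemma ct_lo (hN : LogN N) (g : Bool) : CT 0 fun a => (lo (N a) g).val := by
  cases g
  · exact (CT.const 0).of_eq fun a => ZMod.val_zero.symm
  · exact ct_val_cast hN (CTab_RR hN)

lemma FnCT.tw (hN : LogN N) {φ : ∀ a, XX M (N a) → ZMod p} (hφ : FnCT N φ) {m : ∀ a, ZMod (N a)}
    (hm : CT 0 fun a => (m a).val) : FnCT N fun a x => φ a (tw (m a) x) := by
  have h1 := hN.comp (f := fun z : α × ℕ => z.1) CT.id.fst
  exact (hφ.comp CT.id.fst).app h1 (PtCT.tw h1 (hm.comp CT.id.fst) (pt_dX h1 CT.id.snd))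

theorem FnCT.iter (hM : (M : ZMod p) ≠ 0) (hN : LogN N) {φ : ∀ a, XX M (N a) → ZMod p}
    (hφ : FnCT N φ) {t : α → ℕ} (ht : CT 0 t) (hle : ∀ a, t a ≤ N a) :
    FnCT N fun a => Aop^[t a] (φ a) := by
  have h1 := hN.comp (f := fun z : α × ℕ => z.1) CT.id.fst
  have h2 := hN.comp (f := fun y : (α × ℕ) × ℕ => y.1.1) CT.id.fst.fst
  have h3 : FnCT (fun z : α × ℕ => N z.1) fun z v =>
      φ z.1 (P330.tw (t z.1 : ZMod (N z.1)) (dX M (N z.1) z.2) + cut (t z.1) v) :=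
    (hφ.comp CT.id.fst.fst).app h2 ((PtCT.tw h2 (ct_val_cast h2 (ht.comp CT.id.fst.fst))
      (pt_dX h2 CT.id.fst.snd)).add (PtCT.mask h2 (P := fun y l => l.val < t y.1.1)
        ((ct_val_cast (h2.comp CT.id.fst) CT.id.snd).decLt (ht.comp CT.id.fst.fst.fst))
        (pt_dX h2 CT.id.snd)))
  refine ((FinCT.zmod p ((CT.const M).pow h1.1 h1.bd)).op2 (h3.sum h1)
    fun u v => u⁻¹ * v).of_eq fun z => ?_
  rw [Nat.cast_pow]
  exact (Aop_iter hM (hle _) _ _).symm

theorem CxCT.encB (h : CxCT N cx) (g : Bool) (b : Fin 5) {z : α → ℕ → ZMod p}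
    (hz : FinCT fun y : α × ℕ => z y.1 y.2) : FnCT N fun a => (cx a).encB χ g b (z a) := by
  have h2 := h.hN.comp (f := fun y : (α × ℕ) × ℕ => y.1.1) CT.id.fst.fst
  have h3 : CT 0 fun y : (α × ℕ) × ℕ => (y.1.1, y.2) := CT.id.fst.fst.mk CT.id.snd
  have h4 := (h.al g b).comp h3
  exact FinCT.sum_range (f := fun (y : α × ℕ) i =>
    z y.1 i * χ (ip ((cx y.1).al g b i) (dX M (N y.1) y.2)))
    ((hz.comp' h3).op2 (PtCT.ip h2 h4 (pt_dX h2 CT.id.fst.snd)) fun u v => u * χ v) (h.A.comp CT.id.fst).fst (h.bk.comp (CT.fst (e := 0) CT.id).size)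

theorem CxCT.Ptab (h : CxCT N cx) (dir g : Bool) (β : Fin 5 → Bool) (b : Fin 5) :
    FnCT N fun a => (cx a).Ptab χ dir g β b := by
  have h1 := CTab_ents h.A h.bk dir g
  have h2 := h.hN.comp (f := fun y : (α × ℕ) × ℕ => y.1.1) CT.id.fst.fst
  have h3 : CT 0 fun y : (α × ℕ) × ℕ => (y.1.1, y.2) := CT.id.fst.fst.mk CT.id.snd
  have h4 : CT 0 fun y : (α × ℕ) × ℕ => (cx y.1.1).A.ent dir g y.2 :=
    (h1.comp CT.id.fst.fst).getD CT.id.snd (CT.const _)
  have h5 : PtCT (fun y : (α × ℕ) × ℕ => N y.1.1) fun y => (cx y.1.1).ofr g b y.2 :=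
    PtCT.ite (CT.id.snd.decLt (h.A.comp CT.id.fst.fst).fst) ((h.al (!g) b).comp h3) (h.be.comp h3)
  have h6 : ∀ b', PtCT (fun y : (α × ℕ) × ℕ => N y.1.1) fun y =>
      (cx y.1.1).al g b' (((cx y.1.1).A.ent dir g y.2).ix b') := fun b' =>
    (h.al g b').comp (f := fun y : (α × ℕ) × ℕ => (y.1.1, ((cx y.1.1).A.ent dir g y.2).ix b'))
      (CT.id.fst.fst.mk (h4.snd.getD (CT.const _) (CT.const _)))
  have h7 : CT 0 fun y : (α × ℕ) × ℕ => decide (((cx y.1.1).A.ent dir g y.2).tt β = true) :=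
    (h4.fst.getD (CT.const (bnum β)) (CT.const false)).of_eq fun _ => Bool.decide_eq_true.symm
  exact FinCT.sum_range (f := fun (y : α × ℕ) j => if ((cx y.1).A.ent dir g j).tt β then
    χ (ip ((cx y.1).ofr g b j - ∑ b', (cx y.1).al g b' (((cx y.1).A.ent dir g j).ix b'))
      (dX M (N y.1) y.2)) else 0)
    (FinCT.ite h7 ((PtCT.ip h2 (h5.sub (PtCT.sum h6)) (pt_dX h2 CT.id.fst.snd)).comp χ)
      (FinCT.const 0)) (h1.comp CT.id.fst).length (h1.comp CT.id.fst).bd_length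

theorem CxCT.base (h : CxCT N cx) (σ : Slot) (b : Fin 5) {w : α → List Bool} (hw : CT 0 w) :
    FnCT N fun a => (cx a).base χ σ b (w a) := by
  have h1 : FinCT fun y : α × ℕ => bitv p (w y.1) y.2 :=
    (FinCT.bool ((hw.comp CT.id.fst).getD CT.id.snd (CT.const false))).comp
      fun u => if u then (1 : ZMod p) else 0
  have h2 := fun β => h.Ptab χ σ.1 (ing σ) β b
  have h3 := fun b' => h.encB χ (ing σ) b' (z := fun _ _ => 1) (FinCT.const 1)
  have h4 := fun b' => h.encB χ (ing σ) b' (z := fun a => bitv p (w a)) h1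
  unfold FnCT at h2 h3 h4
  have h5 : FnCT N fun a => (cx a).psi χ σ.1 (ing σ) b
      fun b' => (cx a).encB χ (ing σ) b' (bitv p (w a)) := CTab_psiL h2 h3 h4
  exact h5.tw h.hN (ct_lo h.hN (ing σ))

theorem CxCT.tab (hM : (M : ZMod p) ≠ 0) (h : CxCT N cx) {z : ∀ a, PP M p c (N a)}
    (hz : PCT N z) : FinCT fun a => (cx a).tab χ (z a) := by
  have hN := h.hN
  have hR := CTab_RR hN
  refine (FinCT.pi fun r => FinCT.pi fun t => ?_).prod ((FinCT.pi fun g => FinCT.pi fun b =>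
    (h.encB χ g b (z := fun _ _ => 1) (FinCT.const 1)).app hN (hz.1.tw hN (ct_lo hN g))).prod
    ((FinCT.pi fun dir => FinCT.pi fun g => FinCT.pi fun β => FinCT.pi fun b =>
      (h.Ptab χ dir g β b).app hN (hz.1.tw hN (ct_lo hN g))).prod (FinCT.pi fun τ => ?_)))
  · refine (hz.2.1 r).comp' (g := fun a =>
      (a, if t = 0 then 0 else if t = 1 then RR (N a) else RR (N a) + 1)) (CT.id.mk ?_)
    split_ifs
    exacts [CT.const 0, hR, hR.add (CT.const 1)]
  have hj : CT 0 fun a => if τ then RR (N a) else RR (N a) + 1 := by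
    split_ifs
    exacts [hR, hR.add (CT.const 1)]
  have hg : FinCT fun a => (cx a).A.g0 := FinCT.bool h.A.snd.snd.snd.snd.snd.snd
  have hw : CT 0 fun a => (cx a).A.w0 := h.A.snd.snd.snd.snd.snd.fst
  refine VecCT.dot hN hz.2.1 (f := fun a => (cx a).StR χ ((cx a).A.s0 (N a) τ) (z a).1) ?_
  rintro (⟨σ, b⟩ | _ | _)
  · have h1 := hN.comp (f := fun y : α × ℕ => y.1) CT.id.fst
    have h2 : CT 0 fun a => (cx a).A.msg ((cx a).A.s0 (N a) τ) σ :=
      hg.elim (g := fun g a => (cx a).A.msg ((g, 0), if τ then RR (N a) else RR (N a) + 1,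
        (cx a).A.w0, (cx a).A.step true (cx a).A.w0) σ)
        fun g => CTab_msg h.A (g, 0) _ hw ((ct_step true).comp (h.A.mk hw)) σ
    have h3 : CT 0 fun a => hgt (N a) ((cx a).A.g0, 0) (if τ then RR (N a) else RR (N a) + 1) σ :=
      hg.elim (g := fun g a => hgt (N a) (g, 0) (if τ then RR (N a) else RR (N a) + 1) σ)
        fun g => CTab_hgt hN (g, 0) hj σ
    have h4 := (FnCT.iter hM h1 ((h.base χ σ b h2).comp CT.id.fst)
      (((h3.comp CT.id.fst).sub (CT.const 1)).sub CT.id.snd) fun y => by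
        unfold hgt RR; split_ifs <;> omega).app h1 (hz.1.comp CT.id.fst)
    exact (FinCT.ite (CT.id.snd.decLt (h3.comp CT.id.fst)) h4 (FinCT.const 0)).of_eq fun y => by
      rw [Cx.StR, stk, ite_apply]
      rfl
  · exact FinCT.ite (MachCT_eq CT.id.snd (hj.comp CT.id.fst)) (FinCT.const 1) (FinCT.const 0)
  · exact FinCT.ite (MachCT_eq CT.id.snd (CT.const 0))
      ((hg.comp' CT.id.fst).comp fun g => code p (g, 0)) (FinCT.const 0)

end Vale.Agent.P330
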