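import Vale.Agent.P330.CFam

/-! Codes of vectors and positions are computed in polynomial time. -/

namespace Vale.Agent.P330

open Vale.Agent.Lib.TM Finset
open scoped BigOperators

variable {α β : Type} [Enc α] [Enc β] {M p c : ℕ} [Fact M.Prime] [Fact p.Prime] [NeZero c]
  {N : α → ℕ} [∀ a, NeZero (N a)] {u v : ∀ a, CC (N a) → ZMod p} {J : Type}

lemma CVec_RR (hN : CT 0 N) : CT 0 fun a => RR (N a) :=
  (CT.const 5).mul (hN.div (CT.const 11))

lemma CVec_RR_le (n : ℕ) : RR n ≤ n := by unfold RR; omega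

lemma CVec_mk (hN : CT 0 N) {f : α → Row → ℕ → ZMod p}
    (hf : ∀ r, FinCT fun z : α × ℕ => f z.1 r z.2) (hv : ∀ a y, v a y = f a y.1 y.2) :
    VecCT N v := fun r => by
  have h1 : CT 0 fun z : α × ℕ => decide (z.2 < RR (N z.1) + 2) :=
    CT.decLt (by fun_prop) (((CVec_RR hN).comp (by fun_prop)).add (CT.const 2))
  refine (FinCT.ite h1 (hf r) (FinCT.const 0)).of_eq fun z => ?_
  unfold ext
  split_ifs with h
  · exact (hv z.1 (r, ⟨z.2, h⟩)).symm
  · rfl

lemma CVec_sum {T : Type} (s : Finset T) {f : T → α → ℕ} (hf : ∀ t, CT 0 (f t)) :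
    CT 0 fun a => ∑ t ∈ s, f t a := by
  classical
  induction s using Finset.induction_on with
  | empty => exact (CT.const 0).of_eq fun a => by simp
  | insert t s ht ih => exact ((hf t).add ih).of_eq fun a => by rw [Finset.sum_insert ht]

lemma CVec_pw (hN : LogN N) (r : Row) :
    CT 0 fun z : α × ℕ => p ^ (rowE r * (RR (N z.1) + 2) + min z.2 (RR (N z.1) + 2)) := by
  have h1 : CT 0 fun z : α × ℕ => RR (N z.1) + 2 :=
    ((CVec_RR hN.1).comp (by fun_prop)).add (CT.const 2)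
  refine ((hN.comp (f := fun z : α × ℕ => z.1) (by fun_prop)).pow p 44
    (((CT.const _).mul h1).add (CT.min (by fun_prop) h1)) fun z => ?_).1
  have h2 := CVec_RR_le (N z.1)
  have h3 : (rowE r : ℕ) ≤ 21 := Nat.lt_succ_iff.1 (rowE r).2
  have h4 := Nat.mul_le_mul_right (RR (N z.1) + 2) h3
  have h5 := min_le_right z.2 (RR (N z.1) + 2)
  omega

lemma CVec_nV (hN : LogN N) : CT 0 fun a => nV p (N a) := by
  refine (hN.pow p 44 ((CT.const 22).mul ((CVec_RR hN.1).add (CT.const 2))) fun a => ?_).1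
  have h2 := CVec_RR_le (N a)
  omega

lemma CVec_MN (hN : LogN N) : CT 0 fun a => M ^ N a :=
  (hN.pow M 1 hN.1 fun a => by omega).1

lemma CVec_fac (hN : LogN N) (hv : VecCT N v) (f : Fac) :
    FinCT fun z : α × ℕ => Fac.ev (v z.1) z.2 f := by
  have h1 : CT 0 fun z : α × ℕ => RR (N z.1) := (CVec_RR hN.1).comp (by fun_prop)
  have h2 : CT 0 fun z : α × ℕ => z.2 := by fun_prop
  rcases f with ⟨r, t⟩ | t | ph
  · have h3 : CT 0 fun z : α × ℕ => z.2 + (t : ℕ) := h2.add (CT.const _)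
    have h4 : FinCT fun z : α × ℕ => ext (v z.1) r (z.2 + t - 1) :=
      FinCT.comp' (g := fun z : α × ℕ => (z.1, z.2 + (t : ℕ) - 1)) (hv r)
        (by fun_prop)
    exact FinCT.ite (MachCT_eq h3 (CT.const 0)) (FinCT.const 0) h4
  · simp only [Fac.ev]
    by_cases h0 : t = 0
    · simp only [h0, if_true]
      exact FinCT.const _
    by_cases h1' : t = 1
    · simp only [h1', if_true]
      exact FinCT.const _
    simp only [h0, h1', if_false]
    refine FinCT.ite (MachCT_eq h2 ?_) (FinCT.const 1) (FinCT.const 0)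
    unfold posB
    split_ifs
    · exact h1.add (CT.const 1)
    · exact CT.const 0
  · simp only [Fac.ev]
    refine FinCT.zmod p ?_
    unfold tv
    refine CT.mod (CT.add ((CT.const _).mul (h1.add (CT.const 2))) ?_) (CT.const 4)
    split_ifs
    · exact h2
    · exact (h1.add (CT.const 1)).sub h2

lemma CVec_ofNat {n : α → ℕ} (hn : CT 0 n) : FinCT fun a => Fin.ofNat c (n a) := fun z =>
  (MachCT_eq (hn.mod (CT.const c)) (CT.const z.val)).of_eq fun a => by
    rw [Bool.eq_iff_iff]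
    simp only [decide_eq_true_eq, Fin.ext_iff, Fin.val_ofNat]

lemma VecCT.zero : VecCT (p := p) N fun _ => 0 := fun r =>
  (FinCT.const 0).of_eq fun z => by simp [ext]

lemma VecCT.add (hu : VecCT N u) (hv : VecCT N v) : VecCT N fun a => u a + v a := fun r =>
  ((hu r).op2 (hv r) (· + ·)).of_eq fun z => by
    unfold ext
    split_ifs <;> simp

lemma VecCT.smul {t : α → ZMod p} (ht : FinCT t) (hv : VecCT N v) :
    VecCT N fun a => t a • v a := fun r =>
  ((ht.comp' (g := fun z : α × ℕ => z.1) (by fun_prop)).op2 (hv r) (· * ·)).of_eq fun z => by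
    unfold ext
    split_ifs <;> simp

lemma VecCT.single (hN : LogN N) (r : Row) : VecCT (p := p) N fun _ => Pi.single (r, 0) 1 := by
  classical
  refine CVec_mk hN.1 (f := fun _ r' s => if s = 0 then (if r' = r then 1 else 0) else 0)
    (fun r' => FinCT.ite (MachCT_eq (by fun_prop) (CT.const 0)) (FinCT.const _) (FinCT.const _))
    fun a y => ?_
  obtain ⟨r', s⟩ := y
  by_cases h1 : r' = r <;> by_cases h2 : s = 0 <;> simp [Pi.single_apply, h1, h2]

lemma VecCT.pd (hN : LogN N) (pd : PD) (hv : VecCT N v) : VecCT N fun a => pd.ev (v a) :=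
  CVec_mk hN.1 (f := fun a r s => Fac.ev (v a) s (pd r).1 * Fac.ev (v a) s (pd r).2)
    (fun r => (CVec_fac hN hv (pd r).1).op2 (CVec_fac hN hv (pd r).2) (· * ·)) fun _ _ => rfl

lemma VecCT.code (hN : LogN N) (hv : VecCT N v) : CT 0 fun a => cA (v a) := by
  unfold cA
  refine CVec_sum _ fun r => ?_
  refine (ct_sum_range (f := fun a s => (ext (v a) r s).val *
    p ^ (rowE r * (RR (N a) + 2) + min s (RR (N a) + 2)))
    (((hv r).toCT ZMod.val).mul (CVec_pw hN r)) ((CVec_RR hN.1).add (CT.const 2))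
    ((hN.bd.of_le fun a => CVec_RR_le _).add (Bd.const 2))).of_eq fun a => ?_
  exact Finset.sum_congr rfl fun s hs => by rw [min_eq_left (Finset.mem_range.1 hs).le]

lemma vec_dA (hN : LogN N) {n : α → ℕ} (hn : CT 0 n) : VecCT N fun a => dA p (N a) (n a) := by
  refine CVec_mk hN.1 (f := fun a r s =>
    (n a / p ^ (rowE r * (RR (N a) + 2) + min s (RR (N a) + 2)) % p : ℕ))
    (fun r => FinCT.zmod p (((hn.comp (by fun_prop)).div (CVec_pw hN r)).mod (CT.const p)))
    fun a y => ?_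
  rw [min_eq_left y.2.2.le]
  rfl

lemma VecCT.dot (hN : LogN N) (hv : VecCT N v) {f : α → Row → ℕ → ZMod p}
    (hf : ∀ r, FinCT fun z : α × ℕ => f z.1 r z.2) :
    FinCT fun a => ∑ y : CC (N a), v a y * f a y.1 y.2 := by
  refine (FinCT.sum_fin (f := fun a r => ∑ s ∈ range (RR (N a) + 2), ext (v a) r s * f a r s)
    fun r => FinCT.sum_range (f := fun a s => ext (v a) r s * f a r s)
      ((hv r).op2 (hf r) (· * ·)) ((CVec_RR hN.1).add (CT.const 2))
      ((hN.bd.of_le fun a => CVec_RR_le _).add (Bd.const 2))).of_eq fun a => ?_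
  refine Eq.trans ?_ (Fintype.sum_prod_type fun y : CC (N a) => v a y * f a y.1 y.2).symm
  refine Finset.sum_congr rfl fun r _ => ?_
  rw [Finset.sum_range]
  exact Finset.sum_congr rfl fun s _ => by simp only [ext, s.2, dite_true]

lemma WCT.code (hN : LogN N) {w : ∀ a, WW M p c (N a)} (hw : WCT N w) :
    CT 0 fun a => cW (w a) :=
  (hw.1.1.add (hN.1.mul (hw.1.2.toCT Fin.val))).add ((hN.1.mul (CT.const c)).mul
    ((hw.2.1.code hN).add ((CVec_nV hN).mul (hw.2.2.code hN))))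

lemma w_dW (hN : LogN N) {n : α → ℕ} (hn : CT 0 n) : WCT N fun a => dW M p c (N a) (n a) := by
  have h1 : CT 0 fun a => N a * c := hN.1.mul (CT.const c)
  exact ⟨⟨ct_val_cast hN (hn.mod h1), CVec_ofNat ((hn.mod h1).div hN.1)⟩,
    vec_dA hN ((hn.div h1).mod (CVec_nV hN)), pt_dX hN ((hn.div h1).div (CVec_nV hN))⟩

lemma WCT.zero : WCT (M := M) (p := p) (c := c) N fun _ => 0 :=
  ⟨⟨(CT.const 0).of_eq fun a => by simp, FinCT.const 0⟩, VecCT.zero, PtCT.zero⟩

lemma PCT.code (hN : LogN N) {z : ∀ a, PP M p c (N a)} (hz : PCT N z) :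
    CT 0 fun a => cP (z a) :=
  (hz.1.code hN).add ((CVec_MN hN).mul
    ((hz.2.1.code hN).add ((CVec_nV hN).mul (hz.2.2.code hN))))

lemma p_dP (hN : LogN N) {n : α → ℕ} (hn : CT 0 n) : PCT N fun a => dP M p c (N a) (n a) :=
  ⟨pt_dX hN (hn.mod (CVec_MN hN)), vec_dA hN ((hn.div (CVec_MN hN)).mod (CVec_nV hN)),
    w_dW hN ((hn.div (CVec_MN hN)).div (CVec_nV hN))⟩

/-- A computable family of data. -/
structure CxCT (N : α → ℕ) [∀ a, NeZero (N a)] (cx : ∀ a, Cx M p c (N a) J) : Prop where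
  hN : LogN N
  g : ∀ i, PtCT N fun a => (cx a).g i
  al : ∀ g b, PtCT (fun z : α × ℕ => N z.1) fun z => (cx z.1).al g b z.2
  be : PtCT (fun z : α × ℕ => N z.1) fun z => (cx z.1).be z.2
  A : CT 0 fun a => (cx a).A
  bk : Bd 0 fun a => (cx a).A.k
  sp : ∀ j, CT 0 fun z : α × ℕ => cW ((cx z.1).sp j (dW M p c (N z.1) z.2))

lemma CxCT.comp {cx : ∀ a, Cx M p c (N a) J} (h : CxCT N cx) {f : β → α} (hf : CT 0 f) :
    CxCT (fun b => N (f b)) fun b => cx (f b) := by
  have h1 : CT 0 fun z : β × ℕ => (f z.1, z.2) := by fun_prop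
  refine ⟨h.hN.comp hf, fun i => PtCT.comp (h.g i) hf, fun g b => ?_, ?_,
    h.A.comp hf, h.bk.comp hf.size, fun j => ?_⟩
  · exact PtCT.comp (f := fun z : β × ℕ => (f z.1, z.2)) (h.al g b) h1
  · exact PtCT.comp (f := fun z : β × ℕ => (f z.1, z.2)) h.be h1
  · exact CT.comp (g := fun z : β × ℕ => (f z.1, z.2)) (h.sp j) h1

lemma pt_dirs (hN : LogN N) {g : ∀ a, Fin c → XX M (N a)} (hg : ∀ i, PtCT N fun a => g a i)
    {i : ∀ a, II (N a) c} (hi : IdxCT N i) : PtCT N fun a => dirs (g a) (i a) := by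
  refine PtCT.tw hN hi.1 ?_
  exact (FinCT.pi (f := fun (z : α × ℕ) j => g z.1 j z.2) hg).op2
    (hi.2.comp' (g := fun z : α × ℕ => z.1) (by fun_prop)) fun u j => u j

lemma CVec_twz (hN : LogN N) (t : Fin 3) : CT 0 fun a => (twz (N a) t).val := by
  unfold twz
  split_ifs
  · exact (CT.const 0).of_eq fun a => by simp
  · exact (ct_val_cast hN (CT.const 1)).of_eq fun a => by simp
  · exact ct_val_neg hN (ct_val_cast hN ((CT.const 2).mul (CVec_RR hN.1)))

lemma CVec_sh (hN : LogN N) (σ : Slot) : CT 0 fun a => (sh (N a) σ).val := by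
  unfold sh
  refine ct_val_add hN ?_ (ct_val_cast hN (CVec_RR hN.1))
  unfold lo
  split_ifs
  · exact ct_val_cast hN (CVec_RR hN.1)
  · exact (CT.const 0).of_eq fun a => by simp

lemma CVec_msk (hN : LogN N) (m : Option (Option (Slot × Fin 5))) {x : ∀ a, XX M (N a)}
    (hx : PtCT N x) : PtCT N fun a => msk m (x a) := by
  rcases m with _ | _ | ⟨σ, b⟩
  · exact PtCT.zero
  · exact hx
  · have hN' : LogN fun z : α × ℕ => N z.1 := hN.comp (by fun_prop)
    have h1 : CT 0 fun z : α × ℕ => ((z.2 : ZMod (N z.1)) + sh (N z.1) σ).val :=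
      ct_val_add hN' (ct_val_cast hN' (by fun_prop)) (CVec_sh hN' σ)
    have h2 : CT 0 fun z : α × ℕ => N z.1 / 11 := hN'.1.div (CT.const 11)
    have h3 := ((CT.decLe ((CT.const (bn (!ing σ) b)).mul h2) h1).and
      (CT.decLt h1 ((CT.const (bn (!ing σ) b + 1)).mul h2))).not
    have h4 := PtCT.mask hN (P := fun a l => ¬ InB (bn (!ing σ) b) (l + sh (N a) σ))
      (h3.of_eq fun z => by
        rw [Bool.eq_iff_iff]
        rw [decide_eq_true_iff]
        simp only [InB, Bool.not_eq_true', ← Bool.decide_and, decide_eq_false_iff_not]) hx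
    refine FinCT.of_eq h4 fun z => ?_
    simp only [msk, ite_not]

lemma CVec_xa {cx : ∀ a, Cx M p c (N a) J} (h : CxCT N cx) (xd : XD M) {x : ∀ a, XX M (N a)}
    (hx : PtCT N x) {w : ∀ a, WW M p c (N a)} (hw : WCT N w) :
    PtCT N fun a => (cx a).xa xd (x a) (w a) :=
  (PtCT.tw h.hN (CVec_twz h.hN xd.1) hx).add
    (((PtCT.smul (FinCT.const _) (PtCT.e0 h.hN)).add (CVec_msk h.hN _ hw.2.2)).add
      (PtCT.smul (FinCT.const _) (pt_dirs h.hN h.g hw.1)))

lemma CVec_sp {cx : ∀ a, Cx M p c (N a) J} (h : CxCT N cx) (j : J) {w : ∀ a, WW M p c (N a)}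
    (hw : WCT N w) : WCT N fun a => (cx a).sp j (w a) := by
  have h0 : CT 0 fun a => (a, cW (w a)) := by
    have := hw.code h.hN
    fun_prop
  have h1 : CT 0 fun a => cW ((cx a).sp j (w a)) :=
    ((h.sp j).comp (g := fun a => (a, cW (w a))) h0).of_eq
      fun a => by simp only [dW_cW]
  have h2 := w_dW (M := M) (p := p) (c := c) h.hN h1
  simp only [dW_cW] at h2
  exact h2

theorem CxCT.adF {cx : ∀ a, Cx M p c (N a) J} (h : CxCT N cx) (χ : AddChar (ZMod M) (ZMod p))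
    (q : QQ M J) {z : ∀ a, PP M p c (N a)} (hz : PCT N z) :
    PCT N fun a => (cx a).adF χ q (z a) := by
  rcases q with q | xd | _ | q
  · exact ⟨CVec_xa h q.1 hz.1 hz.2.2, (hz.2.1.pd h.hN q.2).add hz.2.2.2.1, hz.2.2.1, hz.2.1,
      hz.2.2.2.2⟩
  · exact ⟨CVec_xa h xd hz.1 hz.2.2, hz.2⟩
  · exact ⟨hz.1, hz.2.1.add hz.2.2.2.1, hz.2.2⟩
  · have hw := CVec_sp h q.1 hz.2.2
    exact ⟨hz.1.add (PtCT.smul (FinCT.const _) (pt_dirs h.hN h.g hw.1)),
      hz.2.1.add (VecCT.smul (FinCT.const _) hw.2.1), hw.1, VecCT.smul (FinCT.const _) hw.2.1,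
      hw.2.2⟩

end Vale.Agent.P330
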