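import Vale.Agent.Lib.PCP.Defs

/-! Statement-level definitions: End-of-Line instances and generalized circuits. -/

namespace Vale.Agent.P330

open Vale.Agent.Lib.TM

/-- A Boolean gate `(op, a, b)`: `op = 0` is AND, `op = 1` is OR of wires `a, b`, and `op = 2` is
NOT of wire `a`. -/
abbrev BGate := ℕ × ℕ × ℕ

/-- A Boolean circuit: the list of gates and the list of output wires. The first wires are the
inputs, then one wire for each gate. -/
abbrev Circ := List BGate × List ℕ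

/-- The value of a gate on the wire values computed so far. -/
def gateVal (g : BGate) (w : List Bool) : Bool :=
  if g.1 = 0 then w.getD g.2.1 false && w.getD g.2.2 false
  else if g.1 = 1 then w.getD g.2.1 false || w.getD g.2.2 false
  else !w.getD g.2.1 false

/-- All wire values on input `v`. -/
def wires (C : Circ) (v : List Bool) : List Bool :=
  C.1.foldl (fun w g => w ++ [gateVal g w]) v

/-- The output of the circuit on input `v`. -/
def Circ.run (C : Circ) (v : List Bool) : List Bool :=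
  C.2.map fun o => (wires C v).getD o false

/-- A circuit with `n` inputs and `n` outputs whose gates read earlier wires. -/
def Circ.WF (n : ℕ) (C : Circ) : Prop :=
  (∀ i, ∀ h : i < C.1.length, C.1[i].1 < 3 ∧ C.1[i].2.1 < n + i ∧ C.1[i].2.2 < n + i) ∧
    C.2.length = n ∧ ∀ o ∈ C.2, o < n + C.1.length

/-- An End-of-Line instance `(n, S, P)`. -/
abbrev EoL := ℕ × Circ × Circ

/-- The promise on an End-of-Line instance. -/
def EoL.Valid (I : EoL) : Prop :=
  1 ≤ I.1 ∧ I.2.1.WF I.1 ∧ I.2.2.WF I.1 ∧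
    I.2.2.run (List.replicate I.1 false) = List.replicate I.1 false ∧
    I.2.1.run (List.replicate I.1 false) ≠ List.replicate I.1 false ∧
    I.2.2.run (I.2.1.run (List.replicate I.1 false)) = List.replicate I.1 false

/-- A solution of an End-of-Line instance. -/
def EoL.Sol (I : EoL) (v : List Bool) : Prop :=
  v.length = I.1 ∧ v ≠ List.replicate I.1 false ∧
    (I.2.2.run (I.2.1.run v) ≠ v ∨ I.2.1.run (I.2.2.run v) ≠ v)

/-- A gate `(op, z, a, b, s, t)` of a generalized circuit: type `op`, output node `z`, input nodes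
`a, b` and parameter `s / t`. -/
abbrev GGate := ℕ × ℕ × ℕ × ℕ × ℕ × ℕ

/-- The condition on the output value `z`, the input values `a, b` and the parameter `α` for the
gate types 0 Constant, 1 Scale, 2 Copy, 3 Add, 4 Subtract, 5 Less, 6 Not, 7 Or, 8 And. -/
def opSat (ε : ℝ) : ℕ → ℝ → ℝ → ℝ → ℝ → Prop
  | 0, z, _, _, α => |z - α| ≤ ε
  | 1, z, a, _, α => |z - α * a| ≤ ε
  | 2, z, a, _, _ => |z - a| ≤ ε
  | 3, z, a, b, _ => |z - min (a + b) 1| ≤ ε
  | 4, z, a, b, _ => |z - max (a - b) 0| ≤ ε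
  | 5, z, a, b, _ => (a < b - ε → 1 - ε ≤ z) ∧ (b + ε < a → z ≤ ε)
  | 6, z, a, _, _ => (a ≤ ε → 1 - ε ≤ z) ∧ (1 - ε ≤ a → z ≤ ε)
  | 7, z, a, b, _ => (1 - ε ≤ a ∨ 1 - ε ≤ b → 1 - ε ≤ z) ∧ (a ≤ ε ∧ b ≤ ε → z ≤ ε)
  | _, z, a, b, _ => (1 - ε ≤ a ∧ 1 - ε ≤ b → 1 - ε ≤ z) ∧ (a ≤ ε ∨ b ≤ ε → z ≤ ε)

/-- The gate is `ε`-satisfied by the node values `x`. -/
def GGate.Sat (ε : ℝ) (x : ℕ → ℝ) (g : GGate) : Prop :=
  opSat ε g.1 (x g.2.1) (x g.2.2.1) (x g.2.2.2.1) ((g.2.2.2.2.1 : ℝ) / g.2.2.2.2.2)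

/-- A generalized circuit: the number of nodes and the list of gates. -/
abbrev GCirc := ℕ × List GGate

/-- There is a gate, types and nodes are in range, parameters lie in `[0, 1]`, and every node is
the output of at most one gate. -/
def GCirc.WF (G : GCirc) : Prop :=
  G.2 ≠ [] ∧ (G.2.map fun g => g.2.1).Nodup ∧
    ∀ g ∈ G.2, g.1 < 9 ∧ g.2.1 < G.1 ∧ g.2.2.1 < G.1 ∧ g.2.2.2.1 < G.1 ∧
      0 < g.2.2.2.2.2 ∧ g.2.2.2.2.1 ≤ g.2.2.2.2.2

/-- A rational assignment: the list of fractions `(s, t)`, one for each node. -/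
abbrev Asg := List (ℕ × ℕ)

/-- The value of node `i`. -/
noncomputable def Asg.val (x : Asg) (i : ℕ) : ℝ :=
  ((x.getD i (0, 1)).1 : ℝ) / (x.getD i (0, 1)).2

/-- One fraction in `[0, 1]` for each of the `n` nodes. -/
def Asg.WF (n : ℕ) (x : Asg) : Prop :=
  x.length = n ∧ ∀ q ∈ x, 0 < q.2 ∧ q.1 ≤ q.2

open Classical in
/-- An acceptable assignment: values in `[0, 1]`, code length at most `p` of the code length of the
circuit, and at least a `1 - δ` fraction of the gates is `ε`-satisfied. -/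
def GCirc.Acc (ε δ : ℝ) (p : Polynomial ℕ) (G : GCirc) (x : Asg) : Prop :=
  x.WF G.1 ∧ sz x ≤ p.eval (sz G) ∧
    (1 - δ) * G.2.length ≤ (G.2.countP fun g => decide (g.Sat ε x.val) : ℕ)

end Vale.Agent.P330
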