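import Vale.Agent.P330.Expr
import Vale.Agent.P330.Defs

/-! Compilation of expression trees to lists of gates over symbolic node names. -/

namespace Vale.Agent.P330

/-- A gate of a cell: the output is a local node, an input is a read address and a local node. -/
structure SGate (Q : Type) where
  op : ℕ
  z : ℕ
  qa : Q
  a : ℕ
  qb : Q
  b : ℕ
  num : ℕ
  den : ℕ

/-- The gate obtained by naming the nodes. -/
def SGate.inst {Q : Type} (nmf : Q → ℕ → ℕ) (self : Q) (g : SGate Q) : GGate :=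
  (g.op, nmf self g.z, nmf g.qa g.a, nmf g.qb g.b, g.num, g.den)

/-- A well-formed gadget on `m` local nodes. -/
def GadOk {Q : Type} (m : ℕ) (G : List (SGate Q)) : Prop :=
  G ≠ [] ∧ (G.map fun g => g.z).Nodup ∧
    ∀ g ∈ G, g.op < 9 ∧ g.z < m ∧ g.a < m ∧ g.b < m ∧ 0 < g.den ∧ g.num ≤ g.den

lemma GadOk.length_le {Q : Type} {m : ℕ} {G : List (SGate Q)} (h : GadOk m G) :
    G.length ≤ m := by
  have := (List.subperm_of_subset h.2.1 (l₂ := List.range m) fun z hz => by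
    obtain ⟨g, hg, rfl⟩ := List.mem_map.1 hz
    exact List.mem_range.2 (h.2.2 g hg).2.1).length_le
  simpa using this

section Comp

variable {Q Nd : Type}

/-- The type, the inputs and the parameter of a gate are in range. -/
def CompG (m : ℕ) (g : SGate Q) : Prop :=
  g.op < 9 ∧ g.a < m ∧ g.b < m ∧ 0 < g.den ∧ g.num ≤ g.den

/-- A list of gates with distinct outputs in `[k, k')`. -/
def CompL (k k' : ℕ) (G : List (SGate Q)) : Prop :=
  k ≤ k' ∧ (G.map fun g => g.z).Nodup ∧ ∀ g ∈ G, k ≤ g.z ∧ g.z < k' ∧ CompG k' g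

lemma CompG.mono {m m' : ℕ} {g : SGate Q} (h : CompG m g) (hm : m ≤ m') : CompG m' g :=
  ⟨h.1, h.2.1.trans_le hm, h.2.2.1.trans_le hm, h.2.2.2⟩

lemma CompL.append {k k' k'' : ℕ} {G G' : List (SGate Q)} (h : CompL k k' G)
    (h' : CompL k' k'' G') : CompL k k'' (G ++ G') := by
  refine ⟨h.1.trans h'.1, ?_, fun g hg => ?_⟩
  · rw [List.map_append, List.nodup_append]
    refine ⟨h.2.1, h'.2.1, fun a ha b hb => ?_⟩
    obtain ⟨g, hg, rfl⟩ := List.mem_map.1 ha
    obtain ⟨g', hg', rfl⟩ := List.mem_map.1 hb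
    exact ((h.2.2 g hg).2.1.trans_le (h'.2.2 g' hg').1).ne
  · rcases List.mem_append.1 hg with hg | hg
    · exact ⟨(h.2.2 g hg).1, (h.2.2 g hg).2.1.trans_le h'.1, (h.2.2 g hg).2.2.mono h'.1⟩
    · exact ⟨h.1.trans (h'.2.2 g hg).1, (h'.2.2 g hg).2⟩

variable (self : Q) (nm : Nd → ℕ) (n0 : ℕ)

/-- The property `R` holds when all gates of `G` are satisfied. -/
def CompS (G : List (SGate Q)) (R : ℝ → (Q → ℕ → ℕ) → (ℕ → ℝ) → Prop) : Prop :=
  ∀ (ε : ℝ) (nmf : Q → ℕ → ℕ) (x : ℕ → ℝ), (∀ i, In01 (x i)) →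
    (∀ g ∈ G, (g.inst nmf self).Sat ε x) → R ε nmf x

/-- The expression is computed at any prescribed local node. -/
def CompA (e : Ex (Q × Nd)) : Prop :=
  ∀ k, n0 ≤ k → ∃ (k' : ℕ) (G : List (SGate Q)) (h : SGate Q), CompL k k' G ∧ CompG k' h ∧
    ∀ z, CompS self ({ h with z := z } :: G) fun ε nmf x =>
      Sem ε (fun i : Q × Nd => x (nmf i.1 (nm i.2))) e (x (nmf self z))

/-- The expression is computed at some address. -/
def CompB (e : Ex (Q × Nd)) : Prop :=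
  ∀ k, n0 ≤ k → ∃ (k' : ℕ) (G : List (SGate Q)) (q : Q) (r : ℕ), CompL k k' G ∧ r < k' ∧
    CompS self G fun ε nmf x => Sem ε (fun i : Q × Nd => x (nmf i.1 (nm i.2))) e (x (nmf q r))

variable {self nm n0}

lemma CompA.toB {e : Ex (Q × Nd)} (h : CompA self nm n0 e) : CompB self nm n0 e := by
  intro k hk
  obtain ⟨k', G, g, h1, h2, h3⟩ := h (k + 1) (hk.trans (Nat.le_succ k))
  refine ⟨k', { g with z := k } :: G, self, k, ⟨(Nat.le_succ k).trans h1.1, ?_, ?_⟩, h1.1, h3 k⟩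
  · rw [List.map_cons, List.nodup_cons]
    refine ⟨fun hz => ?_, h1.2.1⟩
    obtain ⟨g', hg', e⟩ := List.mem_map.1 hz
    exact (Nat.lt_of_succ_le (h1.2.2 g' hg').1).ne' e
  · intro g' hg'
    rcases List.mem_cons.1 hg' with rfl | hg'
    · exact ⟨le_rfl, h1.1, h2⟩
    · exact ⟨(Nat.le_succ k).trans (h1.2.2 g' hg').1, (h1.2.2 g' hg').2⟩

lemma CompB.one {e e' : Ex (Q × Nd)} (he : CompB self nm n0 e) (op : ℕ) (ho : op < 9)
    (h : ∀ ε y u v, In01 v → Sem ε y e u → opSat ε op v u u ((1 : ℕ) / (2 : ℕ)) → Sem ε y e' v) :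
    CompA self nm n0 e' := by
  intro k hk
  obtain ⟨k', G, q, r, h1, h2, h3⟩ := he k hk
  exact ⟨k', G, ⟨op, 0, q, r, q, r, 1, 2⟩, h1, ⟨ho, h2, h2, two_pos, one_le_two⟩,
    fun z ε nmf x hx hs => h ε _ _ _ (hx _)
      (h3 ε nmf x hx fun g hg => hs g (List.mem_cons_of_mem _ hg)) (hs _ List.mem_cons_self)⟩

lemma CompB.two {e f e' : Ex (Q × Nd)} (he : CompB self nm n0 e) (hf : CompB self nm n0 f) (op : ℕ)
    (ho : op < 9) (h : ∀ ε y u w v α, In01 v → Sem ε y e u → Sem ε y f w → opSat ε op v u w α →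
      Sem ε y e' v) : CompA self nm n0 e' := by
  intro k hk
  obtain ⟨k', G, q, r, h1, h2, h3⟩ := he k hk
  obtain ⟨k'', G', q', r', h1', h2', h3'⟩ := hf k' (hk.trans h1.1)
  exact ⟨k'', G ++ G', ⟨op, 0, q, r, q', r', 1, 1⟩, h1.append h1',
    ⟨ho, h2.trans_le h1'.1, h2', one_pos, le_rfl⟩, fun z ε nmf x hx hs => h ε _ _ _ _ _ (hx _)
      (h3 ε nmf x hx fun g hg => hs g (List.mem_cons_of_mem _ (List.mem_append_left _ hg)))
      (h3' ε nmf x hx fun g hg => hs g (List.mem_cons_of_mem _ (List.mem_append_right _ hg)))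
      (hs _ List.mem_cons_self)⟩

lemma Comp_main (h0 : 0 < n0) (hn : ∀ n, nm n < n0) (e : Ex (Q × Nd)) :
    (e.IsGate → CompA self nm n0 e) ∧ CompB self nm n0 e := by
  have key : ∀ {e}, CompA self nm n0 e → (e.IsGate → CompA self nm n0 e) ∧ CompB self nm n0 e :=
    fun h => ⟨fun _ => h, h.toB⟩
  induction e with
  | inp i =>
    exact ⟨False.elim, fun k hk => ⟨k, [], i.1, nm i.2, ⟨le_rfl, List.nodup_nil, by simp⟩,
      (hn _).trans_le hk, fun _ _ _ _ _ => rfl⟩⟩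
  | cst a b =>
    refine key fun k hk => ⟨k, [], ⟨0, 0, self, 0, self, 0, a, a + b + 1⟩,
      ⟨le_rfl, List.nodup_nil, by simp⟩, ⟨by simp, h0.trans_le hk, h0.trans_le hk,
        Nat.succ_pos _, by simp only; omega⟩, fun z ε nmf x hx hs => ⟨hx _, ?_⟩⟩
    have : |x (nmf self z) - (a : ℝ) / (a + b + 1 : ℕ)| ≤ ε := hs _ List.mem_cons_self
    exact_mod_cast this
  | half e ih =>
    refine key (ih.2.one 1 (by omega) fun ε y u v hv hu h => ⟨hv, u, hu, ?_⟩)
    have : |v - ((1 : ℕ) : ℝ) / (2 : ℕ) * u| ≤ ε := h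
    rwa [Nat.cast_one, Nat.cast_two, one_div_mul_eq_div] at this
  | add e f ih ih' =>
    exact key (ih.2.two ih'.2 3 (by omega) fun ε y u w v _ hv hu hw h => ⟨hv, u, w, hu, hw, h⟩)
  | less e f ih ih' =>
    exact key (ih.2.two ih'.2 5 (by omega) fun ε y u w v _ hv hu hw h => ⟨hv, u, w, hu, hw, h⟩)
  | neg e ih => exact key (ih.2.one 6 (by omega) fun ε y u v hv hu h => ⟨hv, u, hu, h⟩)
  | dis e f ih ih' =>
    exact key (ih.2.two ih'.2 7 (by omega) fun ε y u w v _ hv hu hw h => ⟨hv, u, w, hu, hw, h⟩)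
  | con e f ih ih' =>
    exact key (ih.2.two ih'.2 8 (by omega) fun ε y u w v _ hv hu hw h => ⟨hv, u, w, hu, hw, h⟩)

lemma Comp_list (hn : ∀ n, nm n < n0) (hi : Function.Injective nm) {E : Nd → Ex (Q × Nd)}
    (hE : ∀ n, CompA self nm n0 (E n)) (l : List Nd) (hl : l.Nodup) :
    ∃ (k : ℕ) (G : List (SGate Q)), n0 ≤ k ∧ (l ≠ [] → G ≠ []) ∧ (G.map fun g => g.z).Nodup ∧
      (∀ g ∈ G, ((∃ n ∈ l, nm n = g.z) ∨ n0 ≤ g.z) ∧ g.z < k ∧ CompG k g) ∧
      CompS self G fun ε nmf x => ∀ n ∈ l,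
        Sem ε (fun i : Q × Nd => x (nmf i.1 (nm i.2))) (E n) (x (nmf self (nm n))) := by
  induction l with
  | nil => exact ⟨n0, [], le_rfl, fun h => absurd rfl h, List.nodup_nil, by simp,
      fun _ _ _ _ _ => by simp⟩
  | cons n l ih =>
    obtain ⟨hnl, hl⟩ := List.nodup_cons.1 hl
    obtain ⟨k, G, h1, -, h2, h3, h4⟩ := ih hl
    obtain ⟨k', G', h, a1, a2, a3⟩ := hE n k h1
    refine ⟨k', { h with z := nm n } :: G' ++ G, h1.trans a1.1, fun _ => by simp, ?_, ?_, ?_⟩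
    · rw [List.cons_append, List.map_cons, List.nodup_cons, List.map_append, List.nodup_append]
      refine ⟨fun hz => ?_, a1.2.1, h2, fun a ha b hb => ?_⟩
      · rcases List.mem_append.1 hz with hz | hz <;> obtain ⟨g, hg, e⟩ := List.mem_map.1 hz
        · exact ((hn n).trans_le (h1.trans (a1.2.2 g hg).1)).ne' e
        · rcases (h3 g hg).1 with ⟨n', hn', e'⟩ | h5
          · exact hnl (hi (e'.trans e) ▸ hn')
          · exact ((hn n).trans_le h5).ne' e
      · obtain ⟨g, hg, rfl⟩ := List.mem_map.1 ha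
        obtain ⟨g', hg', rfl⟩ := List.mem_map.1 hb
        exact ((h3 g' hg').2.1.trans_le (a1.2.2 g hg).1).ne'
    · intro g hg
      rcases List.mem_append.1 hg with hg | hg
      · rcases List.mem_cons.1 hg with rfl | hg
        · exact ⟨.inl ⟨n, List.mem_cons_self, rfl⟩, (hn n).trans_le (h1.trans a1.1), a2⟩
        · exact ⟨.inr (h1.trans (a1.2.2 g hg).1), (a1.2.2 g hg).2⟩
      · exact ⟨(h3 g hg).1.imp_left fun ⟨n', hn', e⟩ => ⟨n', List.mem_cons_of_mem _ hn', e⟩,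
          (h3 g hg).2.1.trans_le a1.1, (h3 g hg).2.2.mono a1.1⟩
    · intro ε nmf x hx hs n' hn'
      rcases List.mem_cons.1 hn' with rfl | hn'
      · exact a3 _ ε nmf x hx fun g hg => hs g (List.mem_append_left _ hg)
      · exact h4 ε nmf x hx (fun g hg => hs g (List.mem_append_right _ hg)) n' hn'

end Comp

/-- Every finite family of expression trees is realised by a gadget. -/
theorem exists_gadget {Q Γ Nd : Type} [Fintype Γ] [Fintype Nd] [Nonempty Nd] (self : Q)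
    (E : Γ → Nd → Ex (Q × Nd)) (hE : ∀ γ n, (E γ n).IsGate) :
    ∃ (m : ℕ) (nm : Nd → ℕ) (G : Γ → List (SGate Q)), 0 < m ∧ (∀ n, nm n < m) ∧
      (∀ γ, GadOk m (G γ)) ∧
      ∀ (ε : ℝ) (γ : Γ) (nmf : Q → ℕ → ℕ) (x : ℕ → ℝ), (∀ i, In01 (x i)) →
        (∀ g ∈ G γ, (g.inst nmf self).Sat ε x) →
        ∀ n, Sem ε (fun i : Q × Nd => x (nmf i.1 (nm i.2))) (E γ n) (x (nmf self (nm n))) := by
  let nm : Nd → ℕ := fun n => Fintype.equivFin Nd n
  have hn : ∀ n, nm n < Fintype.card Nd := fun n => (Fintype.equivFin Nd n).2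
  have hi : Function.Injective nm := Fin.val_injective.comp (Fintype.equivFin Nd).injective
  choose k G h1 h2 h3 h4 h5 using fun γ => Comp_list (self := self) hn hi
    (fun n => (Comp_main Fintype.card_pos hn (E γ n)).1 (hE γ n)) _ (Finset.nodup_toList .univ)
  have hk : ∀ γ, k γ ≤ Fintype.card Nd + Finset.univ.sup k := fun γ =>
    (Finset.le_sup (Finset.mem_univ γ)).trans (Nat.le_add_left _ _)
  refine ⟨Fintype.card Nd + Finset.univ.sup k, nm, G, Nat.add_pos_left Fintype.card_pos _,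
    fun n => (hn n).trans_le (Nat.le_add_right _ _), fun γ => ⟨h2 γ ?_, h3 γ, fun g hg => ?_⟩,
    fun ε γ nmf x hx hs n => h5 γ ε nmf x hx hs n (Finset.mem_toList.2 (Finset.mem_univ n))⟩
  · exact Finset.Nonempty.toList_ne_nil Finset.univ_nonempty
  · have := (h4 γ g hg).2.2.mono (hk γ)
    exact ⟨this.1, (h4 γ g hg).2.1.trans_le (hk γ), this.2⟩

end Vale.Agent.P330
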