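import Vale.Agent.P330.Node

/-! Error propagation through the majority, test, corrector and update layers. -/

namespace Vale.Agent.P330

variable {Q Γ S P : Type} [Fintype Q] [Fintype S] [Inhabited S] [Fintype P] [Nonempty P]
  {h hs K : ℕ} {R : Rule Q Γ S} {Y : Sys Q Γ P} {sp : (Fin hs → Bool) → Equiv.Perm P}
  {ε κ η f : ℝ} {y : P → Nd S h → ℝ} {Gd : P → Prop}
  {Nx : (P → S) → (P → S) → Prop} {time : (P → S) → ZMod 4}

open Finset
open scoped BigOperators

omit [Fintype S] [Inhabited S] [Nonempty P] in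
lemma EqA_reads (Y : Sys Q Γ P) {A : P → Prop} {c : ℝ} (hA : pr A ≤ c) :
    pr (fun p => ∃ q, A (Y.ad q p)) ≤ Fintype.card Q * c :=
  pr_exists_le' fun q => (pr_equiv (Y.ad q) A).trans_le hA

omit [Fintype P] [Nonempty P] in
lemma EqA_layer (hC : Cfg R Y sp h K ε y Gd) {L L' : S → Nd S h} {F : Γ → (Q → S) → S}
    (hL : ∀ γ s, nodeE R h hs K γ (L s) =
      ks (fun q s' => (.inl q, L' s')) noB fun r _ => F γ r = s) {u : P → S} {p : P} (hp : Gd p)
    {c : S} (hF : Forced Y F u (fun p => Pure ε (fun s => y p (L' s)) (u p)) p c) :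
    Pure ε (fun s => y p (L s)) c := by
  classical
  refine ks_pure (y := fun i : Rd Q hs × Nd S h => y (rdP Y sp i.1 p) i.2)
    (nd := fun q s' => (.inl q, L' s')) (b := noB) (G := fun r _ => F (Y.tab p) r)
    (fun q => if Pure ε (fun s => y (Y.ad q p) (L' s)) (u (Y.ad q p)) then some (u (Y.ad q p))
      else none) (fun q c e => ?_) (fun e => e.elim) (fun e => e.elim) c
    (fun r _ e _ => hF r fun q hq => e q _ (if_pos hq)) fun s => hL _ s ▸ hC.sem p hp (L s)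
  split_ifs at e with a
  exact Option.some.inj e ▸ a

omit [Nonempty P] in
lemma EqA_all (hC : Cfg R Y sp h K ε y Gd) (hf : pr (fun p => ¬Gd p) ≤ f) {L L' : S → Nd S h}
    {F : Γ → (Q → S) → S} (hL : ∀ γ s, nodeE R h hs K γ (L s) =
      ks (fun q s' => (.inl q, L' s')) noB fun r _ => F γ r = s) {u b : P → S}
    (hF : ∀ p, F (Y.tab p) (Y.rd u p) = b p) :
    er ε y L b ≤ Fintype.card Q * er ε y L' u + f := by
  refine le_trans (pr_le_add fun p hp => ?_) (add_le_add (EqA_reads Y le_rfl) hf)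
  by_contra! a
  exact hp (EqA_layer hC hL a.2 fun ρ e => (congrArg _ (funext fun q => e q (a.1 q))).trans (hF p))

omit [Nonempty P] in
lemma EqA_step (hG : Good R Y κ η Nx time) (hC : Cfg R Y sp h K ε y Gd)
    (hf : pr (fun p => ¬Gd p) ≤ f) {u : P → S} (hu : OnL Nx u) {τ : Bool} (i : Fin (h + 1))
    (hm : er ε y (prevN i τ) u ≤ η) : er ε y (Nd.cor i τ) u ≤ er ε y (prevN i τ) u / 2 + f := by
  refine le_trans (pr_le_add fun p hp => ?_) (add_le_add (hG.cor u hu _ hm) hf)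
  by_contra! a
  exact hp (EqA_layer hC (fun _ _ => rfl) a.2 a.1)

omit [Fintype P] [Nonempty P] in
lemma EqA_mid (hC : Cfg R Y sp h K ε y Gd) {p : P} (hp : Gd p) (τ : Bool) (s : S) :
    (1 / 2 + 2 * ε < y p (.maj τ s) → Is ε true (y p (.mid τ s))) ∧
      (y p (.maj τ s) < 1 / 2 - 2 * ε → Is ε false (y p (.mid τ s))) := by
  obtain ⟨-, c, _, ⟨-, hc⟩, rfl, h1, h2⟩ := hC.sem p hp (.mid τ s)
  norm_num [abs_le] at hc
  exact ⟨fun a => h1 (lt_sub_iff_add_lt.2 (lt_of_le_of_lt (by linarith) a)),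
    fun a => h2 (lt_sub_iff_add_lt.1 (lt_of_lt_of_le a (by linarith)))⟩

omit [Fintype P] [Nonempty P] in
lemma EqA_cert (hC : Cfg R Y sp h K ε y Gd) {p : P} (hp : Gd p) (τ : Bool) (s : S) :
    (2 / 3 + 2 * ε < y p (.maj τ s) ∨ y p (.maj τ s) < 1 / 3 - 2 * ε →
      Is ε true (y p (.cert τ s))) ∧
    (y p (.maj τ s) < 2 / 3 - 2 * ε → 1 / 3 + 2 * ε < y p (.maj τ s) →
      Is ε false (y p (.cert τ s))) := by
  obtain ⟨-, u, w, ⟨-, c, _, ⟨-, hc⟩, rfl, h1, h2⟩, ⟨-, _, d, rfl, ⟨-, hd⟩, h3, h4⟩, h5, h6⟩ :=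
    hC.sem p hp (.cert τ s)
  norm_num [abs_le] at hc hd
  exact ⟨fun a => h5 (a.imp (fun a => h1 (lt_sub_iff_add_lt.2 (lt_of_le_of_lt (by linarith) a)))
      fun a => h3 (lt_of_lt_of_le a (by linarith))),
    fun a b => h6 ⟨h2 (lt_sub_iff_add_lt.1 (lt_of_lt_of_le a (by linarith))),
      h4 (lt_of_le_of_lt (by linarith) b)⟩⟩

omit [Fintype Q] [Fintype S] [Inhabited S] in
lemma EqA_stat (y : P → Nd S h → ℝ) (τ : Bool) : stat y τ 0 = 𝔼 p, y p (.acc τ) := by
  simp only [stat, bar, if_true, ex_const]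

lemma EqA_plur {J S : Type} [Fintype J] [Nonempty J] [Inhabited S] {r : J → S} {c : S}
    (h : 1 / 2 < pr fun j => r j = c) : plur r = c := by
  have h1 : ∃ c, 1 / 2 < pr fun j => r j = c := ⟨c, h⟩
  rw [plur, dif_pos h1]
  by_contra h2
  have h3 := pr_mono (A := fun j => r j = h1.choose) (B := fun j => ¬r j = c)
    fun j a b => h2 (a.symm.trans b)
  rw [pr_not] at h3
  linarith [h1.choose_spec]

theorem er_u (hG : Good R Y κ η Nx time) (hC : Cfg R Y sp h K ε y Gd)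
    (hf : pr (fun p => ¬Gd p) ≤ f) (hfη : f ≤ η / 2) {u : P → S} (hu : OnL Nx u) {τ : Bool}
    (hm : er ε y (Nd.mid τ) u ≤ η) : er ε y (uN τ) u ≤ η / 2 ^ (h + 1) + 2 * f := by
  have f0 := (pr_nonneg _).trans hf
  have key : ∀ i : Fin (h + 1), er ε y (Nd.cor i τ) u ≤ η ∧
      er ε y (Nd.cor i τ) u ≤ η / 2 ^ (i.val + 1) + 2 * f := by
    intro i
    induction i using Fin.induction with
    | zero =>
      have h1 : _ ≤ er ε y (Nd.mid τ) u / 2 + f := EqA_step hG hC hf hu 0 hm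
      constructor
      · linarith
      · rw [Fin.val_zero, zero_add, pow_one]
        linarith
    | succ j ih =>
      have h1 : _ ≤ er ε y (Nd.cor j.castSucc τ) u / 2 + f := EqA_step hG hC hf hu j.succ ih.1
      constructor
      · linarith [ih.1]
      · have h2 := ih.2
        rw [Fin.val_castSucc] at h2
        rw [Fin.val_succ, pow_succ, ← div_div]
        linarith
  exact (key (Fin.last h)).2

theorem er_su (hG : Good R Y κ η Nx time) (hC : Cfg R Y sp h K ε y Gd)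
    (hf : pr (fun p => ¬Gd p) ≤ f) {u b : P → S} (hu : Nx u b) (τ : Bool) :
    er ε y (Nd.su τ) b ≤ Fintype.card Q * er ε y (uN τ) u + f :=
  EqA_all hC hf (fun _ _ => rfl) (hG.suc u b hu)

theorem er_pd (hG : Good R Y κ η Nx time) (hC : Cfg R Y sp h K ε y Gd)
    (hf : pr (fun p => ¬Gd p) ≤ f) {u a : P → S} (hu : Nx a u) (τ : Bool) :
    er ε y (Nd.pd τ) a ≤ Fintype.card Q * er ε y (uN τ) u + f :=
  EqA_all hC hf (fun _ _ => rfl) (hG.prd a u hu)

/-- A high acceptance rate certifies that the purified majority is near an inner vertex. -/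
theorem live_decode (hG : Good R Y κ η Nx time) (hC : Cfg R Y sp h K ε y Gd)
    (hf : pr (fun p => ¬Gd p) ≤ f) (hε0 : 0 ≤ ε) (hε : ε < 1 / 24) (hκη : κ ≤ η / 2)
    (hK : 2 / (K : ℝ) + (Fintype.card Q + 1) * f ≤ κ) {τ : Bool}
    (hV : 1 - 1 / (K : ℝ) < stat y τ 0) :
    ∃ u, Mid Nx u ∧ par (time u) = τ ∧ er ε y (Nd.mid τ) u ≤ η := by
  have h1 : pr (fun p => 1 / 2 ≤ 1 - y p (.acc τ)) ≤ 2 / K := by
    refine (markov (fun p => sub_nonneg.2 (hC.in01 p _).2) one_half_pos).trans ?_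
    rw [EqA_stat] at hV
    rw [ex_sub, ex_const, show (2 : ℝ) / K = 2 * (1 / K) by ring]
    linarith
  have h2 : pr (fun p => 1 / 2 ≤ 1 - y p (.acc τ) ∨ ¬Gd p ∨ ∃ q, ¬Gd (Y.ad q p)) ≤ κ := by
    have := pr_le_add3 (A := fun p => 1 / 2 ≤ 1 - y p (.acc τ) ∨ ¬Gd p ∨ ∃ q, ¬Gd (Y.ad q p))
      fun _ a => a
    linarith [EqA_reads Y hf]
  have h3 : ∀ p, Gd p → (∀ s, ¬Is ε false (y p (.cert τ s))) →
      Pure ε (fun s => y p (.mid τ s)) (rnd fun s => y p (.mid τ s)) := by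
    intro p hp a
    refine pure_rnd (by linarith) fun s => ?_
    by_cases b : 1 / 2 < y p (.maj τ s)
    · refine Or.inl ((EqA_mid hC hp τ s).1 ?_)
      by_contra! c
      exact a s ((EqA_cert hC hp τ s).2 (by linarith) (by linarith))
    · refine Or.inr ((EqA_mid hC hp τ s).2 ?_)
      by_contra! c
      exact a s ((EqA_cert hC hp τ s).2 (by linarith) (by linarith))
  have h4 : ∀ p, ¬(1 / 2 ≤ 1 - y p (.acc τ) ∨ ¬Gd p ∨ ∃ q, ¬Gd (Y.ad q p)) →
      Pure ε (fun s => y p (.mid τ s)) (rnd fun s => y p (.mid τ s)) ∧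
        R.tst τ (Y.tab p) (Y.rd (fun p => rnd fun s => y p (.mid τ s)) p) := by
    intro p a
    push Not at a
    obtain ⟨-, u, w, hu, hw, -, b⟩ := hC.sem p a.2.1 (.acc τ)
    have c : ∀ (o : Option Q) s, ¬Is ε false (y (rdP Y sp (o.elim slf .inl) p) (.cert τ s)) := by
      intro o s e
      have := b (Or.inl (allL_false (List.mem_map.2 ⟨(o, s), mem_toList.2 (mem_univ _), rfl⟩)
        (fun _ e' => (show _ = _ from e') ▸ e) hu))
      linarith [a.1]
    refine ⟨h3 p a.2.1 (c none), by_contra fun d => ?_⟩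
    have := b (Or.inr (ks_spec (fun q => some (rnd fun s => y (Y.ad q p) (.mid τ s)))
      (fun q _ e => Option.some.inj e ▸ h3 _ (a.2.2 q) (c (some q))) (fun e => e.elim)
      (fun e => e.elim) false (fun r _ e _ => iff_of_false
        (fun g => d ((congrArg _ (funext fun q => e q _ rfl)).mp g)) Bool.false_ne_true) hw))
    linarith [a.1]
  obtain ⟨u, h5, h6, h7⟩ := hG.sound τ (fun p => rnd fun s => y p (.mid τ s))
    ((pr_mono fun p a => by_contra fun b => a (h4 p b).2).trans h2)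
  refine ⟨u, h5, h6, le_trans (pr_le_add fun p a => ?_) ((add_le_add h2 h7).trans (by linarith))⟩
  by_contra b
  rw [not_or, not_not] at b
  exact a (b.2 ▸ (h4 p b.1).1)

/-- A true majority at an inner vertex is accepted. -/
theorem maj_complete (hG : Good R Y κ η Nx time) (hC : Cfg R Y sp h K ε y Gd)
    (hf : pr (fun p => ¬Gd p) ≤ f) (hε0 : 0 ≤ ε) (hε : ε < 1 / 24) {x : P → S} (hx : Mid Nx x)
    {T : Ver → Prop} (hT : 1 / 2 < pr T) {e : ℝ} (he0 : 0 ≤ e)
    (he : ∀ ν, T ν → er ε y (Nd.z ν (par (time x))) x ≤ e) :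
    er ε y (Nd.mid (par (time x))) x ≤ 2048 * e + f ∧
      1 - ε - (Fintype.card Q + 2) * (2048 * e + f) ≤ stat y (par (time x)) 0 := by
  classical
  have hx' := hG.comp x hx
  generalize par (time x) = τ at he hx' ⊢
  have f0 := (pr_nonneg _).trans hf
  have h1 : pr (fun p => (∃ ν, T ν ∧ ¬Pure ε (fun s => y p (.z ν τ s)) (x p)) ∨ ¬Gd p) ≤
      2048 * e + f := by
    refine (pr_or_le _ _).trans (add_le_add ((pr_exists_le' (c := e) fun ν => ?_).trans_eq ?_) hf)
    · by_cases a : T ν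
      · exact (pr_mono fun _ b => b.2).trans (he ν a)
      · exact (pr_false fun _ b => a b.1).trans_le he0
    · rw [Fintype.card_fun, Fintype.card_bool, Fintype.card_fin]
      norm_num
  have h2 : ∀ p, ¬((∃ ν, T ν ∧ ¬Pure ε (fun s => y p (.z ν τ s)) (x p)) ∨ ¬Gd p) →
      Pure ε (fun s => y p (.mid τ s)) (x p) ∧ ∀ s, Is ε true (y p (.cert τ s)) := by
    intro p a
    push Not at a
    obtain ⟨β, b, c⟩ : Pure ε (fun s => y p (.maj τ s)) (x p) := by
      refine ks_pure (y := fun i : Rd Q hs × Nd S h => y (rdP Y sp i.1 p) i.2)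
        (nd := fun ν s' => (slf, .z ν τ s')) (b := noB) (G := fun r _ => plur r)
        (fun ν => if T ν then some (x p) else none) (fun ν c e => ?_) (fun e => e.elim)
        (fun e => e.elim) _ (fun r _ e _ => EqA_plur (hT.trans_le (pr_mono fun ν b =>
          e ν _ (if_pos b)))) fun s => hC.sem p a.2 (.maj τ s)
      split_ifs at e with b
      exact Option.some.inj e ▸ a.1 ν b
    refine ⟨⟨β, fun s => ?_, c⟩, fun s => (EqA_cert hC a.2 τ s).1 ?_⟩ <;> have d := b s <;>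
      generalize β s = t at d ⊢ <;> cases t <;> simp only [Is] at d
    · exact (EqA_mid hC a.2 τ s).2 (by linarith)
    · exact (EqA_mid hC a.2 τ s).1 (by linarith)
    · exact Or.inr (by linarith)
    · exact Or.inl (by linarith)
  refine ⟨(pr_mono fun p a => by_contra fun b => a (h2 p b).1).trans h1, ?_⟩
  obtain ⟨B, hB⟩ : ∃ B : P → Prop, B = fun p =>
    (∃ ν, T ν ∧ ¬Pure ε (fun s => y p (.z ν τ s)) (x p)) ∨ ¬Gd p := ⟨_, rfl⟩
  have h3 : ∀ p, ¬(B p ∨ ∃ q, B (Y.ad q p)) → 1 - ε ≤ y p (.acc τ) := by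
    intro p a
    rw [not_or, not_exists, hB] at a
    obtain ⟨-, u, w, hu, hw, b, -⟩ := hC.sem p (not_not.1 (not_or.1 a.1).2) (.acc τ)
    refine b ⟨allL_true (fun _ c u d => ?_) hu, ks_spec (fun q => some (x (Y.ad q p)))
      (fun q _ e => Option.some.inj e ▸ (h2 _ (a.2 q)).1) (fun e => e.elim) (fun e => e.elim) true
      (fun r _ e _ => iff_of_true ((funext fun q => e q _ rfl : r = _) ▸ hx' p) rfl) hw⟩
    obtain ⟨⟨o, s⟩, -, rfl⟩ := List.mem_map.1 c
    rw [show u = _ from d]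
    cases o with
    | none => exact (h2 _ a.1).2 s
    | some q => exact (h2 _ (a.2 q)).2 s
  rw [← hB] at h1
  have h4 := (pr_or_le _ _).trans (add_le_add h1 (EqA_reads Y h1))
  have h5 : 𝔼 p, (1 - ε - ind (B p ∨ ∃ q, B (Y.ad q p))) ≤ 𝔼 p, y p (.acc τ) := by
    refine ex_mono fun p => ?_
    by_cases a : B p ∨ ∃ q, B (Y.ad q p)
    · rw [ind_pos a]
      linarith [(hC.in01 p (.acc τ)).1]
    · rw [ind_neg a, sub_zero]
      exact h3 p a
  rw [ex_sub, ex_const] at h5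
  rw [EqA_stat]
  unfold pr at h4
  linarith

end Vale.Agent.P330
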