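import Vale.Agent.P330.Node

/-! Global statistics, decisions of the versions and their outputs. -/

namespace Vale.Agent.P330

open scoped BigOperators

variable {Q Γ S P : Type} [Fintype Q] [Fintype S] [Inhabited S] [Fintype P] [Nonempty P]
  {h hs K : ℕ} {R : Rule Q Γ S} {Y : Sys Q Γ P} {sp : (Fin hs → Bool) → Equiv.Perm P}
  {ε κ η f : ℝ} {y : P → Nd S h → ℝ} {Gd : P → Prop}
  {Nx : (P → S) → (P → S) → Prop} {time : (P → S) → ZMod 4}

lemma EqB_card : Fintype.card Ver = 2048 := by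
  rw [Fintype.card_fun, Fintype.card_bool, Fintype.card_fin]
  norm_num

lemma vnum_lt (ν : Ver) : vnum ν < 2048 := by
  exact (Fintype.equivFin Ver ν).2.trans_eq EqB_card

lemma vnum_inj : Function.Injective vnum := by
  exact fun _ _ e => (Fintype.equivFin Ver).injective (Fin.ext e)

lemma EqB_one {A : Ver → Prop} (h : ∀ ν ν', A ν → A ν' → ν = ν') : pr A ≤ 1 / 2048 := by
  classical
  rw [pr_eq_card, EqB_card]
  refine div_le_div_of_nonneg_right ?_ (by norm_num)
  exact_mod_cast Finset.card_le_one.2 fun ν hν ν' hν' =>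
    h ν ν' (Finset.mem_filter.1 hν).2 (Finset.mem_filter.1 hν').2

/-- Few versions are ambiguous. -/
theorem pr_amb (hK : 50 ≤ K) {g : ℝ} (hg : g ≤ 1 / (10000 * K)) (y : P → Nd S h → ℝ) :
    pr (fun ν => ¬NonAmb K g y ν) ≤ 1 / 200 := by
  have hK' : (50 : ℝ) ≤ K := by exact_mod_cast hK
  have key : ∀ t : Fin 4, ∃ c s : ℝ, 2 * g < s ∧ 0 < s ∧ ∀ ν, thr K ν t = c + vnum ν * s := by
    intro t
    have h1 : g * (10000 * K) ≤ 1 := (le_div_iff₀ (by positivity)).1 hg
    by_cases ht : t = 0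
    · refine ⟨1 - 1 / K, 1 / (4096 * K), ?_, by positivity, fun ν => ?_⟩
      · rw [lt_div_iff₀ (by positivity)]
        linarith
      · rw [thr, if_pos ht, mul_one_div]
    · refine ⟨_, 1 / 204800, ?_, by positivity, fun ν => by rw [thr, if_neg ht, mul_one_div]⟩
      by_contra hn
      nlinarith
  have h1 : ∀ k : Bool × Fin 4, pr (fun ν => |stat y k.1 k.2 - thr K ν k.2| ≤ g) ≤ 1 / 2048 := by
    intro k
    obtain ⟨c, s, hs, hs0, hc⟩ := key k.2
    refine EqB_one fun ν ν' a1 a2 => vnum_inj ?_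
    rw [hc, abs_le] at a1 a2
    have b1 : (vnum ν : ℝ) < vnum ν' + 1 := by
      by_contra hn
      nlinarith
    have b2 : (vnum ν' : ℝ) < vnum ν + 1 := by
      by_contra hn
      nlinarith
    have b3 : vnum ν < vnum ν' + 1 := by exact_mod_cast b1
    have b4 : vnum ν' < vnum ν + 1 := by exact_mod_cast b2
    omega
  refine (pr_mono fun ν hν => ?_).trans ((pr_exists_le' h1).trans ?_)
  · by_contra hn
    exact hν fun τ t => not_le.1 fun h => hn ⟨(τ, t), h⟩
  · rw [Fintype.card_prod, Fintype.card_bool, Fintype.card_fin]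
    norm_num

/-- The layer read by a comparator. -/
def EqB_nd (τ : Bool) (t : Fin 4) (ν : Ver) : Nd S h :=
  if t = 0 then .acc τ else if t = 3 then .agW ν τ else .agR ν τ

omit [Fintype S] [Inhabited S] [Nonempty P] in
lemma EqB_stat (y : P → Nd S h → ℝ) (τ : Bool) (t : Fin 4) :
    stat y τ t = bar y (EqB_nd τ t) := by
  fin_cases t <;> rfl

omit [Fintype S] [Inhabited S] [Fintype Q] in
lemma EqB_cmp (hK : 1 ≤ K) (ν : Ver) (τ : Bool) (t : Fin 4) : ∃ a d : ℕ, a < d ∧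
    (cmpN K ν τ t : Ex (Rd Q hs × Nd S h)) = cmpE a d (statE (EqB_nd τ t)) ∧
      (a : ℝ) / d = thr K ν t := by
  have h1 := vnum_lt ν
  have hK' : (K : ℝ) ≠ 0 := by positivity
  fin_cases t
  · refine ⟨_, _, ?_, rfl, ?_⟩
    · omega
    · rw [Nat.cast_add, Nat.cast_sub (by omega)]
      change _ = 1 - 1 / (K : ℝ) + vnum ν / (4096 * K)
      push_cast
      field_simp
  · refine ⟨_, _, ?_, rfl, ?_⟩
    · omega
    · change _ = (79 / 100 : ℝ) + vnum ν / 204800
      push_cast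
      ring
  · refine ⟨_, _, ?_, rfl, ?_⟩
    · omega
    · change _ = (60 / 100 : ℝ) + vnum ν / 204800
      push_cast
      ring
  · refine ⟨_, _, ?_, rfl, ?_⟩
    · omega
    · change _ = (10 / 100 : ℝ) + vnum ν / 204800
      push_cast
      ring

/-- Outside a small set of cells all comparators of unambiguous versions show the global
decision. -/
theorem cmp_global (hy : ∀ p n, In01 (y p n)) (hK : 1 ≤ K) {β g : ℝ} (hβ : 0 ≤ β) (hsp : Samp β sp)
    (hε0 : 0 ≤ ε) (hg0 : 0 < g) (hg : (3 * (hs + 11) + 2) * ε ≤ g / 2) :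
    ∃ W : P → Prop, pr (fun p => ¬W p) ≤ 32 * β / g ^ 2 ∧ ∀ p, W p → ∀ ν, NonAmb K g y ν →
      ∀ τ t v, Sem ε (fun i : Rd Q hs × Nd S h => y (rdP Y sp i.1 p) i.2) (cmpN K ν τ t) v →
        Is ε (decB K y ν τ t) v := by
  have hφ : ∀ (n : Ver → Nd S h) p, In01 (𝔼 ν, y p (n ν)) := fun n p =>
    ⟨ex_nonneg fun _ => (hy _ _).1, ex_le_const zero_le_one fun _ => (hy _ _).2⟩
  refine ⟨fun p => ∀ k : Bool × Fin 4,
    |(𝔼 j, 𝔼 ν, y (sp j p) (EqB_nd k.1 k.2 ν)) - bar y (EqB_nd k.1 k.2)| < g / 2, ?_, ?_⟩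
  · have h1 : ∀ k : Bool × Fin 4, pr (fun p => g / 2 ≤
        |(𝔼 j, 𝔼 ν, y (sp j p) (EqB_nd k.1 k.2 ν)) - bar y (EqB_nd k.1 k.2)|) ≤ 4 * β / g ^ 2 := by
      intro k
      refine (hsp.cheb hβ (h := fun p => 𝔼 ν, y p (EqB_nd k.1 k.2 ν)) (fun p => (hφ _ p).1)
        (fun p => (hφ _ p).2) (half_pos hg0)).trans ?_
      have h2 : 𝔼 p, 𝔼 ν, y p (EqB_nd k.1 k.2 ν) ≤ 1 :=
        ex_le_const zero_le_one fun p => (hφ _ p).2
      rw [div_le_div_iff₀ (by positivity) (by positivity)]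
      nlinarith [mul_le_mul_of_nonneg_left h2 (mul_nonneg hβ (sq_nonneg g))]
    refine (pr_mono fun p hp => ?_).trans ((pr_exists_le' h1).trans (le_of_eq ?_))
    · by_contra hn
      exact hp fun k => not_le.1 fun h => hn ⟨k, h⟩
    · rw [Fintype.card_prod, Fintype.card_bool, Fintype.card_fin]
      push_cast
      ring
  · intro p hp ν hν τ t v hv
    obtain ⟨a, d, had, he, hthr⟩ := EqB_cmp (Q := Q) (S := S) (h := h) (hs := hs) hK ν τ t
    rw [he] at hv
    have h1 := cmpE_spec had (t := stat y τ t) (η := g / 2 + 3 * (hs + 11) * ε) (fun w hw => by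
      have h2 := avgT_spec hε0 hs (a := fun j => 𝔼 ν, y (sp j p) (EqB_nd τ t ν))
        (η := 0 + 3 * (11 : ℕ) * ε) (fun j => hφ _ _) (fun j u hu =>
          avgT_spec hε0 11 (a := fun ν => y (sp j p) (EqB_nd τ t ν)) (fun _ => hy _ _)
            (fun ν u hu => by
              have : u = y (sp j p) (EqB_nd τ t ν) := hu
              rw [this, sub_self, abs_zero]) hu) hw
      have h3 := hp (τ, t)
      rw [EqB_stat]
      rw [abs_le] at h2 ⊢
      rw [abs_lt] at h3
      push_cast at h2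
      constructor <;> linarith [h2.1, h2.2, h3.1, h3.2]) hv
    rw [hthr] at h1
    have h4 := hν τ t
    by_cases hc : thr K ν t < stat y τ t
    · rw [decB, decide_eq_true hc]
      rw [abs_of_pos (sub_pos.2 hc)] at h4
      exact h1.1 (by linarith)
    · rw [decB, decide_eq_false hc]
      rw [abs_of_nonpos (sub_nonpos.2 (not_lt.1 hc))] at h4
      exact h1.2 (by linarith)

open Classical in
/-- The global output of a version. -/
noncomputable def labG (R : Rule Q Γ S) (Y : Sys Q Γ P) (time : (P → S) → ZMod 4) (K : ℕ)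
    (y : P → Nd S h → ℝ) (u a b : Bool → P → S) (ν : Ver) : Bool → P → S :=
  outv (choice (fun τ => decB K y ν τ 0 && decB K y ν τ 1)
    (fun τ => decB K y ν τ 0 && decB K y ν τ 2 && decB K y ν τ 3)
    (decide (time (u true) = time (u false) + 1))) u b a (zw R Y)

/-- The register of an input of the output rule. -/
def EqB_reg : (Bool × Q) ⊕ (Bool × Fin 3) → Bool := Sum.elim Prod.fst Prod.fst

/-- The intended value of an input of the output rule. -/
def EqB_val (Y : Sys Q Γ P) (u a b : Bool → P → S) (p : P) : (Bool × Q) ⊕ (Bool × Fin 3) → S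
  | .inl (σ, q) => u σ (Y.ad q p)
  | .inr (σ, t) => if t = 0 then u σ p else if t = 1 then b σ p else a σ p

lemma EqB_outv {P S : Type} {I M D : Bool → Bool} {o o' : Bool} {r0 r1 r2 r3 : Bool → S}
    {u b a z : Bool → P → S} {p : P} {τ : Bool} (hI : ∀ σ, I σ = true → D σ = true)
    (hM : ∀ σ, M σ = true → D σ = true) (ho : D false = true → D true = true → o' = o)
    (hr : ∀ σ, D σ = true → r0 σ = u σ p ∧ r1 σ = b σ p ∧ r2 σ = a σ p)
    (hz : ∀ σ, r3 σ = z σ p) :
    outv (choice I M o') r0 r1 r2 r3 τ = outv (choice I M o) u b a z τ p := by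
  have h1 : ∀ B : Bool → Bool, (∀ σ, B σ = true → D σ = true) → pick B o' = pick B o ∧
      ∀ σ, pick B o = some σ → D σ = true := by
    intro B hB
    have k0 := hB false
    have k1 := hB true
    unfold pick
    cases h0 : B false <;> cases h1 : B true <;> cases o <;> simp_all
  have h2 : choice I M o' = choice I M o := by
    unfold choice
    rw [(h1 I hI).1, (h1 M hM).1]
  have h3 : ∀ σ f, choice I M o = some (σ, f) → D σ = true := by
    intro σ f
    unfold choice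
    cases k : pick I o with
    | some ρ =>
      intro e
      obtain ⟨rfl, -⟩ := Prod.mk.inj (Option.some.inj e)
      exact (h1 I hI).2 _ k
    | none =>
      intro e
      obtain ⟨ρ, e1, e2⟩ := Option.map_eq_some_iff.1 e
      obtain ⟨rfl, -⟩ := Prod.mk.inj e2
      exact (h1 M hM).2 _ e1
  rw [h2]
  cases k : choice I M o with
  | none => exact hz τ
  | some c =>
    obtain ⟨σ, f⟩ := c
    obtain ⟨a1, a2, a3⟩ := hr σ (h3 σ f k)
    simp only [outv]
    split_ifs <;> assumption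

/-- The registers of a version represent its global output. -/
theorem er_z (hG : Good R Y κ η Nx time) (hC : Cfg R Y sp h K ε y Gd)
    (hf : pr (fun p => ¬Gd p) ≤ f) {W : P → Prop} {w : ℝ} (hw : pr (fun p => ¬W p) ≤ w) {ν : Ver}
    (hW : ∀ p, W p → ∀ τ t v,
      Sem ε (fun i : Rd Q hs × Nd S h => y (rdP Y sp i.1 p) i.2) (cmpN K ν τ t) v →
        Is ε (decB K y ν τ t) v)
    {u a b : Bool → P → S} {e : ℝ} (he0 : 0 ≤ e)
    (hL : ∀ τ, decB K y ν τ 0 = true → OnL Nx (u τ) ∧ er ε y (uN τ) (u τ) ≤ e ∧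
      er ε y (Nd.su τ) (b τ) ≤ e ∧ er ε y (Nd.pd τ) (a τ) ≤ e) (τ : Bool) :
    er ε y (Nd.z ν τ) (labG R Y time K y u a b ν τ) ≤ f + w + 2 * (Fintype.card Q + 3) * e := by
  have h1 : ∀ k : (Bool × Q) ⊕ (Bool × Fin 3), pr (fun p => decB K y ν (EqB_reg k) 0 = true ∧
      ¬Pure ε (fun s => y (rdP Y sp (zIn (h := h) k s).1 p) (zIn (hs := hs) k s).2)
        (EqB_val Y u a b p k)) ≤ e := by
    intro k
    by_cases hd : decB K y ν (EqB_reg k) 0 = true
    · refine (pr_mono fun p hp => hp.2).trans ?_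
      obtain ⟨-, k1, k2, k3⟩ := hL _ hd
      rcases k with ⟨σ, q⟩ | ⟨σ, t⟩
      · exact (pr_equiv (Y.ad q) fun p => ¬Pure ε (fun s => y p (uN σ s)) (u σ p)).trans_le k1
      · fin_cases t
        · exact k1
        · exact k2
        · exact k3
    · rw [pr_false fun p hp => hd hp.1]
      exact he0
  have h2 := pr_exists_le' h1
  rw [Fintype.card_sum, Fintype.card_prod, Fintype.card_prod, Fintype.card_bool,
    Fintype.card_fin] at h2
  push_cast at h2
  refine (pr_le_add3 (B := fun p => ¬Gd p) (C := fun p => ¬W p) fun p hp => ?_).trans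
    (add_le_add (add_le_add hf hw) (h2.trans (le_of_eq (by ring))))
  by_contra hn
  rw [not_or, not_or, not_not, not_not, not_exists] at hn
  obtain ⟨g1, g2, g3⟩ := hn
  refine hp (ks_pure (G := fun r β => zFun R (Y.tab p) τ r β)
    (fun k => if decB K y ν (EqB_reg k) 0 = true then some (EqB_val Y u a b p k) else none)
    (fun k c hc => ?_) (fun k => some (decB K y ν k.1 k.2))
    (fun k c hc w hw => ?_) _ (fun r β hr hβ => ?_) fun s => hC.sem p g1 (.z ν τ s))
  · split_ifs at hc with hd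
    obtain rfl := Option.some.inj hc
    by_contra hn
    exact g3 k ⟨hd, hn⟩
  · obtain rfl := Option.some.inj hc
    exact hW p g2 _ _ w hw
  · obtain rfl : β = fun k => decB K y ν k.1 k.2 := funext fun k => hβ k _ rfl
    have hr' : ∀ k, decB K y ν (EqB_reg k) 0 = true → r k = EqB_val Y u a b p k :=
      fun k hk => hr k _ (if_pos hk)
    have ht : ∀ σ, decB K y ν σ 0 = true →
        R.tm (Y.tab p) (fun q => r (.inl (σ, q))) = time (u σ) := fun σ hσ => by
      rw [← hG.tm _ (hL σ hσ).1 p]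
      exact congrArg _ (funext fun q => hr' (.inl (σ, q)) hσ)
    refine EqB_outv (D := fun σ => decB K y ν σ 0) (fun σ hσ => ?_) (fun σ hσ => ?_)
      (fun a1 a2 => ?_) (fun σ hσ => ⟨hr' (.inr (σ, 0)) hσ, hr' (.inr (σ, 1)) hσ,
        hr' (.inr (σ, 2)) hσ⟩) fun _ => rfl
    · exact (Bool.and_eq_true_iff.1 hσ).1
    · exact (Bool.and_eq_true_iff.1 (Bool.and_eq_true_iff.1 hσ).1).1
    · rw [ht true a2, ht false a1]

lemma EqB_avg {N B : Ver → Prop} (hN : pr (fun ν => ¬N ν) ≤ 1 / 200) {X : Ver → P → ℝ}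
    (hX : ∀ ν p, In01 (X ν p)) {e : ℝ} (hε0 : 0 ≤ ε) (hs : ε + f + 5 * e ≤ 1 / 100)
    (h : ∀ ν, N ν → ∃ A G : P → Prop, pr (fun p => ¬G p) ≤ f + 5 * e ∧
      (∀ p, G p → (A p → 1 - ε ≤ X ν p) ∧ (¬A p → X ν p ≤ ε)) ∧ (B ν → ∀ p, A p) ∧
        (¬B ν → pr A ≤ 1 / 100)) :
    pr (fun ν => N ν ∧ B ν) - 1 / 100 ≤ 𝔼 p, 𝔼 ν, X ν p ∧
      𝔼 p, 𝔼 ν, X ν p ≤ pr (fun ν => N ν ∧ B ν) + 3 / 100 := by
  have key : ∀ ν, ind (N ν ∧ B ν) - 1 / 100 ≤ 𝔼 p, X ν p ∧
      𝔼 p, X ν p ≤ ind (N ν ∧ B ν) + ind (¬N ν) + 2 / 100 := by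
    intro ν
    have x0 : 0 ≤ 𝔼 p, X ν p := ex_nonneg fun p => (hX ν p).1
    have x1 : 𝔼 p, X ν p ≤ 1 := ex_le_const zero_le_one fun p => (hX ν p).2
    by_cases hν : N ν
    · obtain ⟨A, G, g1, g2, g3, g4⟩ := h ν hν
      rw [ind_neg (not_not.2 hν)]
      by_cases hB : B ν
      · rw [ind_pos ⟨hν, hB⟩]
        have k : 𝔼 p, ((1 - ε) - ind (¬G p)) ≤ 𝔼 p, X ν p := ex_mono fun p => by
          by_cases hp : G p
          · linarith [(g2 p hp).1 (g3 hB p), ind_nonneg (¬G p)]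
          · linarith [ind_pos (A := ¬G p) hp, (hX ν p).1]
        rw [ex_sub, ex_const] at k
        unfold pr at g1
        constructor <;> linarith
      · rw [ind_neg fun k => hB k.2]
        have k : 𝔼 p, X ν p ≤ 𝔼 p, (ε + ind (A p) + ind (¬G p)) := ex_mono fun p => by
          by_cases hp : G p
          · by_cases hA : A p
            · linarith [ind_pos hA, (hX ν p).2, ind_nonneg (¬G p)]
            · linarith [(g2 p hp).2 hA, ind_nonneg (¬G p), ind_nonneg (A p)]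
          · linarith [ind_pos (A := ¬G p) hp, (hX ν p).2, ind_nonneg (A p)]
        rw [ex_add, ex_add, ex_const] at k
        have := g4 hB
        unfold pr at g1 this
        constructor <;> linarith
    · rw [ind_neg fun k : N ν ∧ B ν => hν k.1, ind_pos hν]
      constructor <;> linarith
  have k1 := ex_mono fun ν => (key ν).1
  have k2 := ex_mono fun ν => (key ν).2
  rw [ex_sub, ex_const] at k1
  rw [ex_add, ex_add, ex_const] at k2
  rw [ex_comm fun p ν => X ν p]
  unfold pr at hN ⊢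
  constructor <;> linarith

/-- The agreement statistics approximate the true fractions. -/
theorem stat_agree (hG : Good R Y κ η Nx time) (hC : Cfg R Y sp h K ε y Gd)
    (hf : pr (fun p => ¬Gd p) ≤ f) (hε0 : 0 ≤ ε) {N : Ver → Prop}
    (hN : pr (fun ν => ¬N ν) ≤ 1 / 200) {lab : Ver → Bool → P → S} {e : ℝ} (he0 : 0 ≤ e)
    (hs : ε + f + 5 * e ≤ 1 / 100)
    (hlab : ∀ ν, N ν → (Nx (lab ν false) (lab ν true) ∨ Nx (lab ν true) (lab ν false)) ∧
      ∀ τ, er ε y (Nd.z ν τ) (lab ν τ) ≤ e)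
    {τ : Bool} {u a b : P → S} (ha : Nx a u) (hb : Nx u b) (h1 : er ε y (uN τ) u ≤ e)
    (h2 : er ε y (Nd.su τ) b ≤ e) (h3 : er ε y (Nd.pd τ) a ≤ e) :
    (pr (fun ν => N ν ∧ lab ν τ = u) - 1 / 100 ≤ stat y τ 1 ∧
      stat y τ 1 ≤ pr (fun ν => N ν ∧ lab ν τ = u) + 3 / 100) ∧
    (pr (fun ν => N ν ∧ lab ν τ = u ∧ lab ν (!τ) = b) - 1 / 100 ≤ stat y τ 3 ∧
      stat y τ 3 ≤ pr (fun ν => N ν ∧ lab ν τ = u ∧ lab ν (!τ) = b) + 3 / 100) := by
  rename_i n
  have hu : OnL Nx u := Or.inl ⟨a, ha⟩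
  have hon : ∀ ν, N ν → ∀ σ, OnL Nx (lab ν σ) := fun ν hν σ => by
    rcases (hlab ν hν).1 with k | k <;> cases σ
    · exact Or.inr ⟨_, k⟩
    · exact Or.inl ⟨_, k⟩
    · exact Or.inl ⟨_, k⟩
    · exact Or.inr ⟨_, k⟩
  have hG5 : ∀ ν, N ν → ∃ G : P → Prop, pr (fun p => ¬G p) ≤ f + 5 * e ∧ ∀ p, G p → Gd p ∧
      ∀ t, Pure ε (fun s => y (rdP Y sp (agIn (h := h) ν τ t s).1 p)
        (agIn (Q := Q) (hs := n) ν τ t s).2) (![lab ν τ p, u p, lab ν (!τ) p, b p, a p] t) := by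
    intro ν hν
    refine ⟨_, ?_, fun p hp => hp⟩
    have k1 : ∀ t : Fin 5, pr (fun p => ¬Pure ε (fun s => y (rdP Y sp (agIn (h := h) ν τ t s).1 p)
        (agIn (Q := Q) (hs := n) ν τ t s).2)
          (![lab ν τ p, u p, lab ν (!τ) p, b p, a p] t)) ≤ e := by
      intro t
      fin_cases t
      · exact (hlab ν hν).2 τ
      · exact h1
      · exact (hlab ν hν).2 (!τ)
      · exact h2
      · exact h3
    have k2 := pr_exists_le' k1
    rw [Fintype.card_fin] at k2
    refine (pr_le_add fun p hp => ?_).trans (add_le_add hf k2)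
    rw [not_and_or, not_forall] at hp
    exact hp
  have hks : ∀ {ν : Ver} {p : P} {g : (Fin 5 → S) → Prop} {v : ℝ} {c : Fin 5 → S},
      (∀ t, Pure ε (fun s => y (rdP Y sp (agIn (h := h) ν τ t s).1 p)
        (agIn (Q := Q) (hs := n) ν τ t s).2) (c t)) →
      Sem ε (fun i : Rd Q n × Nd S h => y (rdP Y sp i.1 p) i.2)
        (ks (agIn ν τ) noB fun r _ => g r) v → (g c → 1 - ε ≤ v) ∧ (¬g c → v ≤ ε) := by
    intro ν p g v c hp hv
    have key : ∀ d : Bool, (g c ↔ d = true) → Is ε d v := fun d hd =>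
      ks_spec (fun t => some (c t)) (fun t _ e => Option.some.inj e ▸ hp t) (fun k => k.elim)
        (fun k => k.elim) d (fun r β hr _ => by
          obtain rfl : r = c := funext fun t => hr t _ rfl
          exact hd) hv
    exact ⟨fun k => key true (iff_of_true k rfl), fun k => key false (iff_of_false k (by simp))⟩
  constructor
  · refine EqB_avg hN (X := fun ν p => y p (.agR ν τ)) (fun ν p => hC.in01 _ _) hε0 hs
      fun ν hν => ?_
    obtain ⟨G, g1, g2⟩ := hG5 ν hν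
    refine ⟨fun p => lab ν τ p = u p ∧ (lab ν (!τ) p = b p ∨ lab ν (!τ) p = a p), G, g1,
      fun p hp => hks (g := fun r => r 0 = r 1 ∧ (r 2 = r 3 ∨ r 2 = r 4)) (g2 p hp).2
        (hC.sem p (g2 p hp).1 (.agR ν τ)), fun k p => ⟨congrFun k p, ?_⟩,
      fun k => (pr_mono fun p hp => hp.1).trans (hG.far _ _ (hon ν hν τ) hu k)⟩
    subst k
    rcases (hlab ν hν).1 with k | k <;> cases τ
    · exact Or.inl (congrFun (hG.nx_fun k hb) p)
    · exact Or.inr (congrFun (hG.nx_inj k ha) p)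
    · exact Or.inr (congrFun (hG.nx_inj k ha) p)
    · exact Or.inl (congrFun (hG.nx_fun k hb) p)
  · refine EqB_avg hN (X := fun ν p => y p (.agW ν τ)) (fun ν p => hC.in01 _ _) hε0 hs
      fun ν hν => ?_
    obtain ⟨G, g1, g2⟩ := hG5 ν hν
    refine ⟨fun p => lab ν τ p = u p ∧ lab ν (!τ) p = b p, G, g1,
      fun p hp => hks (g := fun r => r 0 = r 1 ∧ r 2 = r 3) (g2 p hp).2
        (hC.sem p (g2 p hp).1 (.agW ν τ)), fun k p => ⟨congrFun k.1 p, congrFun k.2 p⟩,
      fun k => ?_⟩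
    rcases not_and_or.1 k with k | k
    · exact (pr_mono fun p hp => hp.1).trans (hG.far _ _ (hon ν hν τ) hu k)
    · exact (pr_mono fun p hp => hp.2).trans (hG.far _ _ (hon ν hν _) (Or.inl ⟨u, hb⟩) k)

end Vale.Agent.P330
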