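import Vale.Agent.P330.EqA
import Vale.Agent.P330.EqB

/-! The equilibrium theorem: a valuation with few faulty cells is near an end of a line. -/

namespace Vale.Agent.P330

section
variable {Q Γ S P : Type} [Fintype Q] [Fintype S] [Inhabited S] [Fintype P] [Nonempty P]
  {h hs K : ℕ} {R : Rule Q Γ S} {Y : Sys Q Γ P} {sp : (Fin hs → Bool) → Equiv.Perm P}
  {ε κ η : ℝ} {y : P → Nd S h → ℝ} {Gd : P → Prop}
  {Nx : (P → S) → (P → S) → Prop} {time : (P → S) → ZMod 4}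

lemma EqC_vnum (ν : Ver) : 0 ≤ (vnum ν : ℝ) / 204800 ∧ (vnum ν : ℝ) / 204800 < 1 / 100 := by
  have h1 : (vnum ν : ℝ) < 2048 := by exact_mod_cast vnum_lt ν
  exact ⟨by positivity, by linarith⟩

lemma EqC_thr0 (hK : 50 ≤ K) (ν : Ver) :
    1 - 1 / (K : ℝ) ≤ thr K ν 0 ∧ thr K ν 0 < 1 - 1 / (K : ℝ) / 2 := by
  have h1 : (vnum ν : ℝ) < 2048 := by exact_mod_cast vnum_lt ν
  have h2 : (0 : ℝ) < K := by exact_mod_cast (show 0 < K by omega)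
  have h3 : thr K ν 0 = 1 - 1 / K + vnum ν / 4096 * (1 / K) := by
    rw [thr, if_pos rfl]
    field_simp
  have h4 : (0 : ℝ) < 1 / K := by positivity
  have h5 : (0 : ℝ) ≤ vnum ν := Nat.cast_nonneg _
  rw [h3]
  constructor <;> nlinarith

lemma EqC_thr1 (ν : Ver) : thr K ν 1 = 79 / 100 + vnum ν / 204800 := by
  rw [thr, if_neg (by decide), if_pos rfl]

lemma EqC_thr2 (ν : Ver) : thr K ν 2 = 60 / 100 + vnum ν / 204800 := by
  rw [thr, if_neg (by decide), if_neg (by decide), if_pos rfl]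

lemma EqC_thr3 (ν : Ver) : thr K ν 3 = 10 / 100 + vnum ν / 204800 := by
  rw [thr, if_neg (by decide), if_neg (by decide), if_neg (by decide)]

omit [Fintype S] [Inhabited S] [Nonempty P] in
lemma EqC_stat (y : P → Nd S h → ℝ) (τ : Bool) : stat y τ 2 = stat y τ 1 := by
  rw [stat, stat, if_neg (by decide), if_neg (by decide), if_neg (by decide), if_neg (by decide)]

omit [Fintype S] [Inhabited S] [Nonempty P] in
lemma EqC_dec {ν : Ver} {τ : Bool} {t : Fin 4} :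
    decB K y ν τ t = true ↔ thr K ν t < stat y τ t := by
  rw [decB, decide_eq_true_iff]

omit [Fintype S] [Inhabited S] [Nonempty P] in
lemma EqC_cmp (ν : Ver) (τ : Bool) :
    ((decB K y ν τ 1 = true → 79 / 100 < stat y τ 1) ∧
      (80 / 100 < stat y τ 1 → decB K y ν τ 1 = true)) ∧
    ((decB K y ν τ 2 = true → 60 / 100 < stat y τ 1) ∧
      (61 / 100 < stat y τ 1 → decB K y ν τ 2 = true)) ∧
    ((decB K y ν τ 3 = true → 10 / 100 < stat y τ 3) ∧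
      (11 / 100 < stat y τ 3 → decB K y ν τ 3 = true)) := by
  obtain ⟨h1, h2⟩ := EqC_vnum ν
  simp only [EqC_dec, EqC_thr1, EqC_thr2, EqC_thr3, EqC_stat]
  refine ⟨⟨fun _ => ?_, fun _ => ?_⟩, ⟨fun _ => ?_, fun _ => ?_⟩, fun _ => ?_, fun _ => ?_⟩ <;>
    linarith

omit [Fintype Q] [Fintype S] in
lemma EqC_same (hG : Good R Y κ η Nx time) (hε : ε < 1 / 2) {L : S → Nd S h} {u x : P → S}
    (hu : OnL Nx u) (hx : OnL Nx x) (h1 : er ε y L u ≤ 1 / 4) (h2 : er ε y L x ≤ 1 / 4) :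
    u = x := by
  by_contra hne
  have h3 := hG.far u x hu hx hne
  have h4 : pr (fun p => ¬u p = x p) ≤ er ε y L u + er ε y L x := by
    refine pr_le_add fun p hp => ?_
    by_contra hc
    rw [not_or, not_not, not_not] at hc
    exact hp ((hc.1.rnd_eq hε).symm.trans (hc.2.rnd_eq hε))
  rw [pr_not] at h4
  linarith

lemma EqC_num {q m k : ℝ} (hq : 0 ≤ q) (hm0 : 0 ≤ m) (hm : (q + 3) ^ 3 * m ≤ k / 100000) :
    ∃ e1 e2, 3 * m ≤ e1 ∧ q * (3 * m) + m ≤ e1 ∧ e1 ≤ e2 ∧ m + m + 2 * (q + 3) * e1 ≤ e2 ∧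
      (q + 1) * m ≤ 2 * k ∧ m + (q + 2) * (2048 * e2 + m) ≤ k / 2 ∧ 2048 * e2 + m ≤ k / 4 := by
  obtain ⟨x1, hx1⟩ : ∃ x, x = (q + 3) * m := ⟨_, rfl⟩
  obtain ⟨x2, hx2⟩ : ∃ x, x = (q + 3) * x1 := ⟨_, rfl⟩
  obtain ⟨x3, hx3⟩ : ∃ x, x = (q + 3) * x2 := ⟨_, rfl⟩
  have l1 : 3 * m ≤ x1 := by linarith [mul_nonneg hq hm0]
  have l2 : 3 * x1 ≤ x2 := by linarith [mul_nonneg hq (show 0 ≤ x1 by linarith)]
  have l3 : 3 * x2 ≤ x3 := by linarith [mul_nonneg hq (show 0 ≤ x2 by linarith)]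
  have l4 : x3 ≤ k / 100000 := by
    rw [hx3, hx2, hx1]
    linarith
  exact ⟨3 * x1, 7 * x2, by linarith, by linarith, by linarith, by linarith, by linarith,
    by linarith, by linarith⟩

lemma EqC_game (hG : Good R Y κ η Nx time) (hC : Cfg R Y sp h K ε y Gd) (hK : 50 ≤ K)
    (hη : η ≤ 1 / 1000) {m e g : ℝ} (hε0 : 0 ≤ ε) (hεm : ε ≤ m) (hf : pr (fun p => ¬Gd p) ≤ m)
    (he0 : 0 ≤ e) (n1 : m + (Fintype.card Q + 2) * (2048 * e + m) ≤ 1 / K / 2)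
    (n2 : 2048 * e + m ≤ 1 / 200) (hg : g ≤ 1 / (10000 * K)) {u a b : Bool → P → S}
    (hL : ∀ τ, 1 - 1 / (K : ℝ) < stat y τ 0 →
      (Nx (a τ) (u τ) ∧ Nx (u τ) (b τ) ∧ par (time (u τ)) = τ) ∧ er ε y (Nd.mid τ) (u τ) ≤ η)
    (hL2 : ∀ τ, 1 - 1 / (K : ℝ) < stat y τ 0 → er ε y (uN τ) (u τ) ≤ e ∧
      er ε y (Nd.su τ) (b τ) ≤ e ∧ er ε y (Nd.pd τ) (a τ) ≤ e)
    (hz : ∀ ν, NonAmb K g y ν → ∀ τ, er ε y (Nd.z ν τ) (labG R Y time K y u a b ν τ) ≤ e) :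
    ∃ ν τ, NonAmb K g y ν ∧ EndL Nx (zw R Y false) (labG R Y time K y u a b ν τ) := by
  have hε : ε < 1 / 24 := by linarith
  have hv : ∀ ν τ, decB K y ν τ 0 = true → 1 - 1 / (K : ℝ) < stat y τ 0 := fun ν τ h1 =>
    (EqC_thr0 hK ν).1.trans_lt (EqC_dec.1 h1)
  have hN := pr_amb hK hg y
  have hedge : ∀ ν, (Nx (labG R Y time K y u a b ν false) (labG R Y time K y u a b ν true) ∨
      Nx (labG R Y time K y u a b ν true) (labG R Y time K y u a b ν false)) := fun ν =>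
    (outv_edge hG.tm_nx hG.z_nx hG.z_tm (Live := fun τ => 1 - 1 / (K : ℝ) < stat y τ 0)
      (fun τ hτ => (hL τ hτ).1)
      (fun τ hτ => hv ν τ (Bool.and_eq_true_iff.1 hτ).1)
      (fun τ hτ => hv ν τ (Bool.and_eq_true_iff.1 (Bool.and_eq_true_iff.1 hτ).1).1) _).1
  have hst := fun τ (hτ : 1 - 1 / (K : ℝ) < stat y τ 0) =>
    stat_agree hG hC hf hε0 hN (lab := labG R Y time K y u a b) he0
      (by linarith) (fun ν hν => ⟨hedge ν, hz ν hν⟩) (hL τ hτ).1.1 (hL τ hτ).1.2.1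
      (hL2 τ hτ).1 (hL2 τ hτ).2.1 (hL2 τ hτ).2.2
  refine game (Nx := Nx) (u := u) (a := a) (b := b) (fun _ _ _ => hG.nx_fun)
    (fun _ _ _ => hG.nx_inj) hG.tm_nx hG.z_nx hG.z_tm hG.z_src
    (Live := fun τ => 1 - 1 / (K : ℝ) < stat y τ 0) (fun τ hτ => (hL τ hτ).1) rfl
    (Rb := fun τ => stat y τ 1) (Wb := fun τ => stat y τ 3) hN
    (vv := fun ν τ => decB K y ν τ 0) (ii := fun ν τ => decB K y ν τ 1)
    (mm := fun ν τ => decB K y ν τ 2) (ww := fun ν τ => decB K y ν τ 3)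
    (lab := labG R Y time K y u a b) (fun _ => rfl) (fun ν τ _ => hv ν τ)
    (fun ν τ _ => (EqC_cmp ν τ).1.1) (fun ν τ _ => (EqC_cmp ν τ).1.2)
    (fun ν τ _ => (EqC_cmp ν τ).2.1.1) (fun ν τ _ => (EqC_cmp ν τ).2.1.2)
    (fun ν τ _ => (EqC_cmp ν τ).2.2.1) (fun ν τ _ => (EqC_cmp ν τ).2.2.2)
    (fun τ hτ => (hst τ hτ).1.1) (fun τ hτ => (hst τ hτ).1.2) (fun τ hτ => (hst τ hτ).2.1)
    (fun τ hτ => (hst τ hτ).2.2) ?_
  rintro τ x hx rfl hT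
  obtain ⟨h1, h2⟩ := maj_complete hG hC hf hε0 hε hx hT he0 fun ν hν =>
    (congrArg (er ε y _) hν.2).symm.trans_le (hz ν hν.1 _)
  have h3 : 1 - 1 / (K : ℝ) / 2 ≤ stat y (par (time x)) 0 := by linarith
  have h4 : 1 - 1 / (K : ℝ) < stat y (par (time x)) 0 :=
    (EqC_thr0 hK default).1.trans_lt ((EqC_thr0 hK default).2.trans_le h3)
  exact ⟨h4, EqC_same hG (by linarith) (Or.inl ⟨_, (hL _ h4).1.1⟩) (Or.inl hx.1)
    ((hL _ h4).2.trans (by linarith)) (h1.trans (by linarith)),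
    fun ν _ => EqC_dec.2 ((EqC_thr0 hK ν).2.trans_le h3)⟩

lemma EqC_core (hG : Good R Y κ η Nx time) (hC : Cfg R Y sp h K ε y Gd) (hK : 50 ≤ K)
    (hκK : 4 / (K : ℝ) ≤ κ) (hκη : κ ≤ η / 2) (hη : η ≤ 1 / 1000) {m : ℝ}
    (hm : ((Fintype.card Q : ℝ) + 3) ^ 3 * m ≤ 1 / K / 100000) (hh : η / 2 ^ (h + 1) ≤ m)
    (hε0 : 0 ≤ ε) (hεm : ε ≤ m) (hf : pr (fun p => ¬Gd p) ≤ m) {g : ℝ}
    (hg : g ≤ 1 / (10000 * K)) {W : P → Prop} (hw : pr (fun p => ¬W p) ≤ m)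
    (hW : ∀ p, W p → ∀ ν, NonAmb K g y ν → ∀ τ t v,
      Sem ε (fun i : Rd Q hs × Nd S h => y (rdP Y sp i.1 p) i.2) (cmpN K ν τ t) v →
        Is ε (decB K y ν τ t) v) :
    ∃ ν τ u, EndL Nx (zw R Y false) u ∧
      pr (fun p => rnd (fun s => y p (.z ν τ s)) ≠ u p) ≤ η := by
  have hm0 : 0 ≤ m := hε0.trans hεm
  have hq : (0 : ℝ) ≤ Fintype.card Q := Nat.cast_nonneg _
  have hK1 : (50 : ℝ) ≤ K := by exact_mod_cast hK
  have hk : 1 / (K : ℝ) ≤ 1 / 50 := one_div_le_one_div_of_le (by norm_num) hK1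
  have hk2 : 2 / (K : ℝ) = 2 * (1 / K) := by ring
  have hk4 : 4 / (K : ℝ) = 4 * (1 / K) := by ring
  obtain ⟨e1, e2, n1, n2, n3, n4, n5, n6, n7⟩ := EqC_num hq hm0 hm
  have hε : ε < 1 / 24 := by linarith
  have hex : ∀ τ, ∃ u a b : P → S, 1 - 1 / (K : ℝ) < stat y τ 0 →
      (Nx a u ∧ Nx u b ∧ par (time u) = τ) ∧ er ε y (Nd.mid τ) u ≤ η := by
    intro τ
    by_cases hL : 1 - 1 / (K : ℝ) < stat y τ 0
    · obtain ⟨u, ⟨⟨a, ha⟩, b, hb⟩, h1, h2⟩ := live_decode hG hC hf hε0 hε hκη (by linarith) hL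
      exact ⟨u, a, b, fun _ => ⟨⟨ha, hb, h1⟩, h2⟩⟩
    · exact ⟨default, default, default, fun h1 => absurd h1 hL⟩
  choose u a b hL using hex
  have hL2 : ∀ τ, 1 - 1 / (K : ℝ) < stat y τ 0 → er ε y (uN τ) (u τ) ≤ e1 ∧
      er ε y (Nd.su τ) (b τ) ≤ e1 ∧ er ε y (Nd.pd τ) (a τ) ≤ e1 := by
    intro τ hτ
    obtain ⟨⟨ha, hb, -⟩, h2⟩ := hL τ hτ
    have h3 := er_u hG hC hf (by linarith) (Or.inl ⟨_, ha⟩) h2
    have h4 := mul_le_mul_of_nonneg_left (show er ε y (uN τ) (u τ) ≤ 3 * m by linarith) hq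
    have h5 := er_su hG hC hf hb τ
    have h6 := er_pd hG hC hf ha τ
    exact ⟨by linarith, by linarith, by linarith⟩
  have hz : ∀ ν, NonAmb K g y ν → ∀ τ,
      er ε y (Nd.z ν τ) (labG R Y time K y u a b ν τ) ≤ e2 := fun ν hν τ =>
    (er_z hG hC hf hw (fun p hp => hW p hp ν hν) (e := e1) (by linarith)
      (fun σ hσ => have h1 := (EqC_thr0 hK ν).1.trans_lt (EqC_dec.1 hσ)
        ⟨Or.inl ⟨_, (hL σ h1).1.1⟩, hL2 σ h1⟩) τ).trans n4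
  obtain ⟨ν, τ, hν, hE⟩ := EqC_game hG hC hK hη hε0 hεm hf (e := e2) (by linarith) n6
    (by linarith) hg hL (fun τ hτ => ⟨(hL2 τ hτ).1.trans n3, (hL2 τ hτ).2.1.trans n3,
      (hL2 τ hτ).2.2.trans n3⟩) hz
  refine ⟨ν, τ, _, hE, le_trans ?_ ((hz ν hν τ).trans (by linarith))⟩
  exact pr_mono fun p hp hP => hp (hP.rnd_eq (by linarith))

end

theorem equil {Q Γ S : Type} [Fintype Q] [Fintype S] [Inhabited S] (R : Rule Q Γ S) {κ η : ℝ}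
    (hκ : 0 < κ) (hκη : κ ≤ η / 2) (hη : η ≤ 1 / 1000) :
    ∃ (h K : ℕ) (β : ℝ), 0 < β ∧ ∀ hs : ℕ, ∃ ε δ : ℝ, 0 < ε ∧ ε < 1 / 4 ∧ 0 < δ ∧
      ∀ (P : Type) [Fintype P] [Nonempty P] (Y : Sys Q Γ P) (sp : (Fin hs → Bool) → Equiv.Perm P)
        (Nx : (P → S) → (P → S) → Prop) (time : (P → S) → ZMod 4) (y : P → Nd S h → ℝ)
        (Gd : P → Prop), Good R Y κ η Nx time → Samp β sp → Cfg R Y sp h K ε y Gd →
        pr (fun p => ¬Gd p) ≤ δ →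
        ∃ ν τ u, EndL Nx (zw R Y false) u ∧
          pr (fun p => rnd (fun s => y p (.z ν τ s)) ≠ u p) ≤ η := by
  obtain ⟨K, hK, hκK⟩ : ∃ K : ℕ, 50 ≤ K ∧ 4 / (K : ℝ) ≤ κ := by
    obtain ⟨n, hn⟩ := exists_nat_ge (4 / κ)
    refine ⟨n + 50, by omega, ?_⟩
    rw [div_le_iff₀ hκ] at hn
    rw [div_le_iff₀ (by positivity)]
    push_cast
    nlinarith
  have hK0 : (0 : ℝ) < K := by exact_mod_cast (show 0 < K by omega)
  obtain ⟨m, hm0, hm⟩ : ∃ m : ℝ, 0 < m ∧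
      ((Fintype.card Q : ℝ) + 3) ^ 3 * m ≤ 1 / K / 100000 :=
    ⟨1 / K / 100000 / ((Fintype.card Q : ℝ) + 3) ^ 3, by positivity,
      (mul_div_cancel₀ _ (by positivity)).le⟩
  obtain ⟨h, hh⟩ : ∃ h : ℕ, η / 2 ^ (h + 1) ≤ m := by
    obtain ⟨n, hn⟩ := pow_unbounded_of_one_lt (η / m) (one_lt_two (α := ℝ))
    refine ⟨n, ?_⟩
    rw [div_lt_iff₀ hm0] at hn
    rw [div_le_iff₀ (by positivity), pow_succ]
    nlinarith [mul_pos hm0 (pow_pos (zero_lt_two (α := ℝ)) n)]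
  obtain ⟨g, hg0, hg⟩ : ∃ g : ℝ, 0 < g ∧ g ≤ 1 / (10000 * K) := ⟨_, by positivity, le_rfl⟩
  refine ⟨h, K, m * g ^ 2 / 32, by positivity, fun hs => ?_⟩
  have hc : (0 : ℝ) < 3 * (hs + 11) + 2 := by positivity
  refine ⟨min (min m (1 / 8)) (g / 2 / (3 * (hs + 11) + 2)), m, by positivity,
    ((min_le_left _ _).trans (min_le_right _ _)).trans_lt (by norm_num), hm0,
    fun P _ _ Y sp Nx time y Gd hG hsp hC hf => ?_⟩
  obtain ⟨W, hw, hW⟩ := cmp_global (Y := Y) hC.in01 (show 1 ≤ K by omega) (by positivity) hsp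
    (ε := min (min m (1 / 8)) (g / 2 / (3 * (hs + 11) + 2))) (by positivity) hg0
    ((mul_le_mul_of_nonneg_left (min_le_right _ _) hc.le).trans (mul_div_cancel₀ _ hc.ne').le)
  refine EqC_core hG hC hK hκK hκη hη hm hh (by positivity)
    ((min_le_left _ _).trans (min_le_left _ _)) hf hg (hw.trans (le_of_eq ?_)) hW
  field_simp

end Vale.Agent.P330
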