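import Vale.Agent.P330.Defs
import Vale.Agent.Lib.Brouwer

/-! Every generalized circuit has a short rational assignment that satisfies all gates. -/

namespace Vale.Agent.P330

open Vale.Agent.Lib.TM

/-- clamp to the unit interval -/
noncomputable def existCl (t : ℝ) : ℝ := max 0 (min t 1)

theorem existCl_cont : Continuous existCl := by
  unfold existCl
  fun_prop

theorem existCl_mem (t : ℝ) : 0 ≤ existCl t ∧ existCl t ≤ 1 :=
  ⟨le_max_left _ _, max_le zero_le_one (min_le_right _ _)⟩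

theorem existCl_one {t : ℝ} (h : 1 ≤ t) : existCl t = 1 := by
  rw [existCl, min_eq_right h, max_eq_right zero_le_one]

theorem existCl_zero {t : ℝ} (h : t ≤ 0) : existCl t = 0 :=
  max_eq_left ((min_le_left _ _).trans h)

theorem existCl_self {t : ℝ} (h : 0 ≤ t ∧ t ≤ 1) : existCl t = t := by
  rw [existCl, min_eq_left h.2, max_eq_right h.1]

/-- rounding of a logical value -/
noncomputable def existH (ε a : ℝ) : ℝ := existCl ((a - 2 * ε) / (1 - 4 * ε))

theorem existH_cont (ε : ℝ) : Continuous (existH ε) := existCl_cont.comp (by fun_prop)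

theorem existH_one {ε a : ℝ} (h1 : ε < 1 / 4) (h : 1 - 2 * ε ≤ a) : existH ε a = 1 :=
  existCl_one ((one_le_div (by linarith)).2 (by linarith))

theorem existH_zero {ε a : ℝ} (h1 : ε < 1 / 4) (h : a ≤ 2 * ε) : existH ε a = 0 :=
  existCl_zero (div_nonpos_of_nonpos_of_nonneg (by linarith) (by linarith))

/-- the continuous gate functions -/
noncomputable def existF (ε : ℝ) : ℕ → ℝ → ℝ → ℝ → ℝ
  | 0, _, _, α => α
  | 1, a, _, α => α * a
  | 2, a, _, _ => a
  | 3, a, b, _ => min (a + b) 1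
  | 4, a, b, _ => max (a - b) 0
  | 5, a, b, _ => existCl ((b - a) / ε + 1 / 2)
  | 6, a, _, _ => 1 - existH ε a
  | 7, a, b, _ => max (existH ε a) (existH ε b)
  | _ + 8, a, b, _ => min (existH ε a) (existH ε b)

theorem existF_cont (ε : ℝ) (op : ℕ) (α : ℝ) {X : Type} [TopologicalSpace X] {a b : X → ℝ}
    (ha : Continuous a) (hb : Continuous b) : Continuous fun x => existF ε op (a x) (b x) α := by
  have h1 := existH_cont ε
  have h2 := existCl_cont
  match op with
  | 0 | 1 | 2 | 3 | 4 | 5 | 6 | 7 | _ + 8 =>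
    simp only [existF]
    fun_prop

theorem existF_mem (ε : ℝ) (op : ℕ) {α a b : ℝ} (hα : 0 ≤ α ∧ α ≤ 1) (ha : 0 ≤ a ∧ a ≤ 1)
    (hb : 0 ≤ b ∧ b ≤ 1) : 0 ≤ existF ε op a b α ∧ existF ε op a b α ≤ 1 := by
  have h1 : 0 ≤ existH ε a ∧ existH ε a ≤ 1 := existCl_mem _
  have h2 : 0 ≤ existH ε b ∧ existH ε b ≤ 1 := existCl_mem _
  match op with
  | 0 => exact hα
  | 1 => exact ⟨mul_nonneg hα.1 ha.1, mul_le_one₀ hα.2 ha.1 ha.2⟩
  | 2 => exact ha
  | 3 => exact ⟨le_min (add_nonneg ha.1 hb.1) zero_le_one, min_le_right _ _⟩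
  | 4 => exact ⟨le_max_right _ _, max_le (by linarith) zero_le_one⟩
  | 5 => exact existCl_mem _
  | 6 => exact ⟨sub_nonneg.2 h1.2, sub_le_self _ h1.1⟩
  | 7 => exact ⟨le_max_of_le_left h1.1, max_le h1.2 h2.2⟩
  | _ + 8 => exact ⟨le_min h1.1 h2.1, min_le_of_left_le h1.2⟩

theorem existF_sat {ε : ℝ} (h0 : 0 < ε) (h1 : ε < 1 / 4) (op : ℕ) {α a b z a' b' : ℝ}
    (hα : 0 ≤ α ∧ α ≤ 1) (hz : |z - existF ε op a b α| ≤ ε / 8) (ha : |a' - a| ≤ ε / 8)
    (hb : |b' - b| ≤ ε / 8) : opSat ε op z a' b' α := by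
  have k1 : 0 ≤ existH ε a ∧ existH ε a ≤ 1 := existCl_mem _
  have k2 : 0 ≤ existH ε b ∧ existH ε b ≤ 1 := existCl_mem _
  rw [abs_le] at hz ha hb
  match op with
  | 0 =>
    simp only [existF, opSat, abs_le] at hz ⊢
    constructor <;> linarith
  | 1 =>
    simp only [existF, opSat, abs_le] at hz ⊢
    constructor <;> nlinarith
  | 2 =>
    simp only [existF, opSat, abs_le] at hz ⊢
    constructor <;> linarith
  | 3 =>
    simp only [existF, opSat, abs_le, min_def] at hz ⊢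
    split_ifs at hz ⊢ <;> constructor <;> linarith
  | 4 =>
    simp only [existF, opSat, abs_le, max_def] at hz ⊢
    split_ifs at hz ⊢ <;> constructor <;> linarith
  | 5 =>
    simp only [existF, opSat] at hz ⊢
    refine ⟨fun h => ?_, fun h => ?_⟩
    · have : 1 / 2 ≤ (b - a) / ε := (le_div_iff₀ h0).2 (by linarith)
      rw [existCl_one (by linarith)] at hz
      linarith
    · have : (b - a) / ε ≤ -(1 / 2) := (div_le_iff₀ h0).2 (by linarith)
      rw [existCl_zero (by linarith)] at hz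
      linarith
  | 6 =>
    simp only [existF, opSat] at hz ⊢
    refine ⟨fun h => ?_, fun h => ?_⟩
    · rw [existH_zero h1 (by linarith)] at hz
      linarith
    · rw [existH_one h1 (by linarith)] at hz
      linarith
  | 7 =>
    simp only [existF, opSat] at hz ⊢
    refine ⟨fun h => ?_, fun h => ?_⟩
    · have h2 := le_max_left (existH ε a) (existH ε b)
      have h3 := le_max_right (existH ε a) (existH ε b)
      rcases h with h | h
      · have := existH_one (a := a) h1 (by linarith)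
        linarith
      · have := existH_one (a := b) h1 (by linarith)
        linarith
    · rw [existH_zero (a := a) h1 (by linarith), existH_zero (a := b) h1 (by linarith),
        max_self] at hz
      linarith
  | n + 8 =>
    simp only [existF, opSat] at hz ⊢
    refine ⟨fun h => ?_, fun h => ?_⟩
    · rw [existH_one (a := a) h1 (by linarith), existH_one (a := b) h1 (by linarith),
        min_self] at hz
      linarith
    · have h2 := min_le_left (existH ε a) (existH ε b)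
      have h3 := min_le_right (existH ε a) (existH ε b)
      rcases h with h | h
      · have := existH_zero (a := a) h1 (by linarith)
        linarith
      · have := existH_zero (a := b) h1 (by linarith)
        linarith

theorem exist_par {G : GCirc} (hG : G.WF) {g : GGate} (hg : g ∈ G.2) :
    0 ≤ (g.2.2.2.2.1 : ℝ) / g.2.2.2.2.2 ∧ (g.2.2.2.2.1 : ℝ) / g.2.2.2.2.2 ≤ 1 :=
  ⟨by positivity, div_le_one_of_le₀ (Nat.cast_le.2 (hG.2.2 g hg).2.2.2.2.2) (Nat.cast_nonneg _)⟩

/-- the exact fixed point -/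
theorem exist_fix (ε : ℝ) {G : GCirc} (hG : G.WF) : ∃ y : ℕ → ℝ, (∀ i, 0 ≤ y i ∧ y i ≤ 1) ∧
    ∀ g ∈ G.2, y g.2.1 =
      existF ε g.1 (y g.2.2.1) (y g.2.2.2.1) ((g.2.2.2.2.1 : ℝ) / g.2.2.2.2.2) := by
  have h1 : ∀ z : ℕ, ∃ c ∈ G.2, ∀ g ∈ G.2, g.2.1 = z → c = g := fun z => by
    by_cases h : ∃ c ∈ G.2, c.2.1 = z
    · obtain ⟨c, hc, rfl⟩ := h
      exact ⟨c, hc, fun g hg e => List.inj_on_of_nodup_map hG.2.1 hc hg e.symm⟩
    · obtain ⟨c, hc⟩ := List.exists_mem_of_ne_nil _ hG.1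
      exact ⟨c, hc, fun g hg e => (h ⟨g, hg, e⟩).elim⟩
  choose c hc hc' using h1
  let Y : (Fin G.1 → ℝ) → ℕ → ℝ := fun x i => if h : i < G.1 then existCl (x ⟨i, h⟩) else 0
  have hY : ∀ x i, 0 ≤ Y x i ∧ Y x i ≤ 1 := fun x i => by
    simp only [Y]
    split_ifs
    · exact existCl_mem _
    · exact ⟨le_rfl, zero_le_one⟩
  have hY' : ∀ i, Continuous fun x => Y x i := fun i => by
    simp only [Y]
    split_ifs
    · exact existCl_cont.comp (continuous_apply _)
    · exact continuous_const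
  let F : (Fin G.1 → ℝ) → Fin G.1 → ℝ := fun x z => existF ε (c z).1 (Y x (c z).2.2.1)
    (Y x (c z).2.2.2.1) (((c z).2.2.2.2.1 : ℝ) / (c z).2.2.2.2.2)
  have hF : ∀ x z, 0 ≤ F x z ∧ F x z ≤ 1 := fun x z =>
    existF_mem _ _ (exist_par hG (hc z)) (hY _ _) (hY _ _)
  obtain ⟨x, hx⟩ := Vale.Agent.Lib.Brouwer.exists_fixed F
    (continuous_pi fun z => existF_cont _ _ _ (hY' _) (hY' _)) 1 fun x =>
      (pi_norm_le_iff_of_nonneg zero_le_one).2 fun z => by
        rw [Real.norm_of_nonneg (hF x z).1]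
        exact (hF x z).2
  refine ⟨Y x, hY x, fun g hg => ?_⟩
  have h2 := (hG.2.2 g hg).2.1
  have h3 : Y x g.2.1 = F x ⟨_, h2⟩ := by
    simp only [Y]
    rw [dif_pos h2, ← congrFun hx ⟨_, h2⟩, existCl_self (hF _ _), hx]
  rw [h3]
  simp only [F]
  rw [hc' _ g hg rfl]

theorem exists_asg {ε : ℝ} (h0 : 0 < ε) (h1 : ε < 1 / 4) : ∃ K : ℕ, ∀ G : GCirc, G.WF →
    ∃ x : Asg, x.WF G.1 ∧ sz x ≤ K * (G.1 + 1) ∧ ∀ g ∈ G.2, g.Sat ε x.val := by
  obtain ⟨D, hD⟩ := exists_nat_gt (8 / ε)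
  have hD0 : (0 : ℝ) < D := (div_pos (by norm_num) h0).trans hD
  refine ⟨2 * sz D + 2, fun G hG => ?_⟩
  obtain ⟨y, hy, hy'⟩ := exist_fix ε hG
  have h2 : ∀ i, ⌊y i * D⌋₊ ≤ D := fun i =>
    Nat.floor_le_of_le (mul_le_of_le_one_left hD0.le (hy i).2)
  refine ⟨(List.range G.1).map fun i => (⌊y i * D⌋₊, D), ⟨by simp, fun q hq => ?_⟩, ?_, ?_⟩
  · obtain ⟨i, -, rfl⟩ := List.mem_map.1 hq
    exact ⟨Nat.cast_pos.1 hD0, h2 i⟩
  · refine (sz_list_le (B := 2 * sz D + 1) fun q hq => ?_).trans ?_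
    · obtain ⟨i, -, rfl⟩ := List.mem_map.1 hq
      have := sz_mono (h2 i)
      rw [sz_pair]
      omega
    · rw [List.length_map, List.length_range]
      nlinarith
  · have h3 : ∀ i < G.1,
        |Asg.val ((List.range G.1).map fun i => (⌊y i * D⌋₊, D)) i - y i| ≤ ε / 8 := by
      intro i hi
      have h4 : Asg.val ((List.range G.1).map fun i => (⌊y i * D⌋₊, D)) i =
          (⌊y i * D⌋₊ : ℝ) / D := by
        simp [Asg.val, hi]
      have h5 := Nat.floor_le (mul_nonneg (hy i).1 hD0.le)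
      have h6 := Nat.lt_floor_add_one (y i * D)
      have h7 := (div_lt_iff₀ h0).1 hD
      rw [h4, abs_le, le_sub_iff_add_le, sub_le_iff_le_add, le_div_iff₀ hD0, div_le_iff₀ hD0]
      constructor <;> nlinarith
    intro g hg
    obtain ⟨-, k1, k2, k3, -⟩ := hG.2.2 g hg
    exact existF_sat h0 h1 _ (exist_par hG hg) (hy' g hg ▸ h3 _ k1) (h3 _ k2) (h3 _ k3)

end Vale.Agent.P330
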