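import Vale.Agent.P330.MachI

/-! The words that pass the checks. -/

namespace Vale.Agent.P330

namespace EoL

variable {I : EoL} {x y : List Bool} {t : ℕ} {g : Bool}

theorem MachK_ext {u v : List Bool} {n : ℕ} (hu : u.length = n) (hv : v.length = n)
    (h : ∀ j < n, u.getD j false = v.getD j false) : u = v := by
  refine List.ext_getElem (hu.trans hv.symm) fun j h1 h2 => ?_
  have h3 := h j (hu ▸ h1)
  rwa [List.getD_eq_getElem _ _ h1, List.getD_eq_getElem _ _ h2] at h3

theorem MachK_range (f : ℕ → Bool) {n j : ℕ} (hj : j < n) :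
    ((List.range n).map f).getD j false = f j := by
  rw [List.getD_eq_getElem _ _ (by simpa using hj)]
  simp

theorem MachK_out {n : ℕ} {C : Circ} (hC : C.WF n) (v : List Bool) {j : ℕ} (hj : j < n) :
    C.2.getD j 0 < n + C.1.length ∧
      (C.run v).getD j false = (wires C v).getD (C.2.getD j 0) false := by
  have h1 : j < C.2.length := hC.2.1 ▸ hj
  rw [List.getD_eq_getElem _ _ h1]
  refine ⟨hC.2.2 _ (List.getElem_mem h1), ?_⟩
  rw [List.getD_eq_getElem (C.run v) _ (by simpa [Circ.run] using h1)]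
  simp [Circ.run]

theorem MachK_gate {n : ℕ} {C : Circ} (hC : C.WF n) {v w : List Bool} (hv : v.length = n)
    {d i : ℕ} (hi : i < C.1.length)
    (h : ∀ j < n + i, w.getD (d + j) false = (wires C v).getD j false) :
    gateVal (shG d (C.1.getD i (0, 0, 0))) w = (wires C v).getD (n + i) false := by
  rw [wires_gate hC hv hi, gateVal_eq, gateVal_eq, List.getD_eq_getElem _ _ hi]
  simp only [shG]
  rw [add_comm _ d, add_comm _ d, h _ (hC.1 i hi).2.1, h _ (hC.1 i hi).2.2]

theorem MachK_wires {n : ℕ} {C : Circ} (hC : C.WF n) {v w : List Bool} (hv : v.length = n)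
    {d m : ℕ} (hm : m ≤ C.1.length) (h1 : ∀ j < n, w.getD (d + j) false = v.getD j false)
    (h2 : ∀ i < m, w.getD (d + (n + i)) false = gateVal (shG d (C.1.getD i (0, 0, 0))) w) :
    ∀ j < n + m, w.getD (d + j) false = (wires C v).getD j false := by
  intro j
  induction j using Nat.strong_induction_on with
  | _ j ih =>
    intro hj
    rcases lt_or_ge j n with h | h
    · rw [h1 j h, wires_inp C (hv ▸ h)]
    · obtain ⟨i, rfl⟩ := Nat.exists_eq_add_of_le h
      rw [h2 i (by omega), MachK_gate hC hv (by omega) fun j hj' => ih j hj' (by omega)]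

theorem MachK_or (d a : ℕ) (w : List Bool) :
    gateVal (shG d (1, a, a)) w = w.getD (d + a) false := by
  simp [gateVal, shG, add_comm]

theorem MachK_alS {j : ℕ} (hj : j < I.1 + I.gS) : I.alive (I.T + j) t = true ↔
    (j < I.1 → t ≤ I.tD) ∧ (I.1 ≤ j → j + 1 ≤ t + I.1 ∧ t + j < I.tD + I.1) := by
  rw [alive, Bool.and_eq_true, decide_eq_true_iff, decide_eq_true_iff]
  unfold bth dth oP oY oS
  have : I.gS ≤ I.tD := by unfold tD; omega
  split_ifs <;> omega

theorem MachK_alP {j : ℕ} (hj : j < I.1 + I.gP) : I.alive (I.oY + j) t = true ↔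
    (j < I.1 → I.tY ≤ t ∧ t < I.T) ∧
      (I.1 ≤ j → I.tY + 1 + j ≤ t + I.1 ∧ t + j < I.tD + 1 + I.gP + I.1) := by
  rw [alive, Bool.and_eq_true, decide_eq_true_iff, decide_eq_true_iff]
  unfold bth dth oP oY oS
  split_ifs <;> omega

theorem MachK_cS {j : ℕ} (hj : j < I.1 + I.gS) (h : I.alive (I.T + j) t = true) :
    (I.cst x y t).getD (I.T + j) false = (wires I.2.1 x).getD j false := by
  rw [cst_getD x y t (by unfold k oP oY oS; omega), cellv, if_neg (by omega), h,
    if_pos (by unfold oY oS; omega), Bool.true_and, Nat.add_sub_cancel_left]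

theorem MachK_cP {j : ℕ} (hj : j < I.1 + I.gP) (h : I.alive (I.oY + j) t = true) :
    (I.cst x y t).getD (I.oY + j) false = (wires I.2.2 y).getD j false := by
  rw [cst_getD x y t (by unfold k oP; omega), cellv, if_neg (by unfold oY oS; omega), h,
    if_neg (by omega), Bool.true_and, Nat.add_sub_cancel_left]

theorem MachK_opX {j : ℕ} (hj : j < I.1) (w : List Bool) :
    gateVal (I.op (decide (I.oS ≤ I.T + j)) (I.T + j)) w =
      w.getD (I.oY + I.2.2.2.getD j 0) false ∧ (I.con (I.T + j) t = true ↔ I.tP ≤ t) := by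
  have h1 : I.T + j < I.oS := by unfold oS; omega
  rw [op, con, if_pos h1, if_pos h1, decide_eq_false (not_le.2 h1), Nat.add_sub_cancel_left]
  exact ⟨MachK_or _ _ _, decide_eq_true_iff⟩

theorem MachK_opS {i : ℕ} (hi : i < I.gS) :
    I.op (decide (I.oS ≤ I.T + (I.1 + i))) (I.T + (I.1 + i)) =
      shG I.T (I.2.1.1.getD i (0, 0, 0)) ∧ I.con (I.T + (I.1 + i)) t = true := by
  have h1 : ¬I.T + (I.1 + i) < I.oS := by unfold oS; omega
  have h2 : I.T + (I.1 + i) < I.oY := by unfold oY oS; omega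
  have h3 : I.T + (I.1 + i) - I.oS = i := by unfold oS; omega
  rw [op, con, if_neg h1, if_neg h1, if_pos h2, if_pos h2, h3]
  exact ⟨rfl, rfl⟩

theorem MachK_opY {j : ℕ} (hj : j < I.1) (w : List Bool) :
    gateVal (I.op (decide (I.oS ≤ I.oY + j)) (I.oY + j)) w =
      w.getD (I.T + I.2.1.2.getD j 0) false ∧ (I.con (I.oY + j) t = true ↔ t ≤ I.tP) := by
  have h1 : ¬I.oY + j < I.oS := by unfold oY; omega
  have h2 : ¬I.oY + j < I.oY := by omega
  have h3 : I.oY + j < I.oP := by unfold oP; omega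
  rw [op, con, if_neg h1, if_neg h1, if_neg h2, if_neg h2, if_pos h3, if_pos h3,
    decide_eq_true (not_lt.1 h1), Nat.add_sub_cancel_left]
  exact ⟨MachK_or _ _ _, decide_eq_true_iff⟩

theorem MachK_opP {i : ℕ} :
    I.op (decide (I.oS ≤ I.oY + (I.1 + i))) (I.oY + (I.1 + i)) =
      shG I.oY (I.2.2.1.getD i (0, 0, 0)) ∧ I.con (I.oY + (I.1 + i)) t = true := by
  have h1 : ¬I.oY + (I.1 + i) < I.oS := by unfold oY; omega
  have h2 : ¬I.oY + (I.1 + i) < I.oY := by omega
  have h3 : ¬I.oY + (I.1 + i) < I.oP := by unfold oP; omega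
  have h4 : I.oY + (I.1 + i) - I.oP = i := by unfold oP; omega
  rw [op, con, if_neg h1, if_neg h1, if_neg h2, if_neg h2, if_neg h3, if_neg h3, h4]
  exact ⟨rfl, rfl⟩

theorem MachK_cell {q : ℕ} (h1 : I.T ≤ q) (h2 : q < I.k) :
    (∃ j < I.1 + I.gS, q = I.T + j) ∨ ∃ j < I.1 + I.gP, q = I.oY + j := by
  rcases lt_or_ge q I.oY with h | h
  · exact .inl ⟨q - I.T, by unfold oY oS at h; omega, by omega⟩
  · exact .inr ⟨q - I.oY, by unfold k oP at h2; omega, by omega⟩

theorem ok_cases (hI : I.Valid) {w : List Bool} (h : I.mach.ok g w) :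
    (∀ t < I.T, w.getD t false = false) ∨
      ∃ t < I.T, ∃ x y, t % 2 = g.toNat ∧ I.Cons x y t ∧ w = I.cst x y t := by
  refine or_iff_not_imp_left.2 fun hn => ?_
  push Not at hn
  obtain ⟨t, ht, hw⟩ := hn
  rw [Bool.ne_false_iff] at hw
  obtain ⟨hl, hc⟩ := (ok_iff g w).1 h
  obtain ⟨-, hS, hP, -⟩ := hI
  have hc := fun q hq => (ev_chk g t q w).1 (hc t ht q hq) hw
  have hT : I.T = I.tD + I.gP + 3 := rfl
  have hD : I.tD = I.tP + I.gS := rfl
  have hM : I.tP = I.tY + I.gP := rfl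
  have hY : I.tY = I.gS + 1 := rfl
  have hk : I.k = I.oY + I.1 + I.gP := rfl
  have ho : I.oY = I.T + I.1 + I.gS := rfl
  set xr := (List.range I.1).map fun j => w.getD (I.T + j) false with hxr
  set yr := (List.range I.1).map fun j => w.getD (I.oY + j) false with hyr
  have lx : xr.length = I.1 := by simp [hxr]
  have ly : yr.length = I.1 := by simp [hyr]
  have wS : ∀ m ≤ I.gS, m ≤ t → t + m ≤ I.tD → ∀ j < I.1 + m,
      w.getD (I.T + j) false = (wires I.2.1 xr).getD j false := fun m h1 h2 h3 =>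
    MachK_wires hS lx h1 (fun j hj => by rw [hxr, MachK_range _ hj]) fun i hi => by
      rw [← (MachK_opS (t := t) (hi.trans_le h1)).1]
      exact (hc _ (by omega)).2.2 (by omega) ((MachK_alS (by omega)).2 (by omega))
        (MachK_opS (hi.trans_le h1)).2
  have wP : ∀ m ≤ I.gP, m = 0 ∨ (I.tY + m ≤ t ∧ t + m ≤ I.tD + 1 + I.gP) → ∀ j < I.1 + m,
      w.getD (I.oY + j) false = (wires I.2.2 yr).getD j false := fun m h1 h2 =>
    MachK_wires hP ly h1 (fun j hj => by rw [hyr, MachK_range _ hj]) fun i hi => by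
      rw [← (MachK_opP (t := t)).1]
      exact (hc _ (by omega)).2.2 (by omega) ((MachK_alP (by omega)).2 (by omega)) MachK_opP.2
  refine ⟨t, ht, if t ≤ I.tD then xr else I.2.2.run yr, if I.tY ≤ t then yr else I.2.1.run xr,
    ?_, ⟨?_, ?_, fun h1 => ?_, fun h1 => ?_⟩, MachK_ext hl (by simp [cst]) fun q hq => ?_⟩
  · by_contra h1
    exact Bool.false_ne_true (((hc t (by omega)).1 ht (.inr h1)).symm.trans hw)
  · split_ifs
    exacts [lx, run_length hP _]
  · split_ifs
    exacts [ly, run_length hS _]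
  · rw [if_pos (show t ≤ I.tD by omega)]
    split_ifs with h2
    · refine MachK_ext ly (run_length hS _) fun j hj => ?_
      rw [MachK_range _ hj, (hc _ (by omega)).2.2 (by omega) ((MachK_alP (by omega)).2 (by omega))
        ((MachK_opY hj w).2.2 h1), (MachK_opY (t := t) hj w).1, (MachK_out hS xr hj).2]
      exact wS _ le_rfl (by omega) (by omega) _ (MachK_out hS xr hj).1
    · rfl
  · rw [if_pos (show I.tY ≤ t by omega)]
    split_ifs with h2
    · refine MachK_ext lx (run_length hP _) fun j hj => ?_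
      rw [MachK_range _ hj, (hc _ (by omega)).2.2 (by omega) ((MachK_alS (by omega)).2 (by omega))
        ((MachK_opX hj w).2.2 h1), (MachK_opX (t := t) hj w).1, (MachK_out hP yr hj).2]
      exact wP _ le_rfl (.inr (by omega)) _ (MachK_out hP yr hj).1
    · rfl
  · rcases lt_or_ge q I.T with h1 | h1
    · rw [cst_getD _ _ _ hq, cellv, if_pos h1]
      by_cases h2 : q = t
      · rw [h2, hw, decide_eq_true rfl]
      · rw [(hc q hq).1 h1 (.inl h2), decide_eq_false h2]
    cases ha : I.alive q t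
    · rw [cst_getD _ _ _ hq, cellv, if_neg (not_lt.2 h1), ha, (hc q hq).2.1 h1 ha, Bool.false_and]
    obtain ⟨j, hj, rfl⟩ | ⟨j, hj, rfl⟩ := MachK_cell h1 hq
    · have h2 := (MachK_alS hj).1 ha
      rw [MachK_cS hj ha, if_pos (by omega)]
      exact wS (j + 1 - I.1) (by omega) (by omega) (by omega) j (by omega)
    · have h2 := (MachK_alP hj).1 ha
      rw [MachK_cP hj ha, if_pos (by omega)]
      exact wP (j + 1 - I.1) (by omega) (by omega) j (by omega)

theorem ok_cst (hI : I.Valid) (ht : t < I.T) (hg : t % 2 = g.toNat) (h : I.Cons x y t) :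
    I.mach.ok g (I.cst x y t) := by
  obtain ⟨-, hS, hP, -⟩ := hI
  obtain ⟨lx, ly, h1, h2⟩ := h
  have hT : I.T = I.tD + I.gP + 3 := rfl
  have hD : I.tD = I.tP + I.gS := rfl
  have hM : I.tP = I.tY + I.gP := rfl
  have hY : I.tY = I.gS + 1 := rfl
  have hk : I.k = I.oY + I.1 + I.gP := rfl
  have ho : I.oY = I.T + I.1 + I.gS := rfl
  refine (ok_iff g _).2 ⟨by simp [cst], fun s hs q hq => (ev_chk g s q _).2 fun hw => ?_⟩
  rw [cst_getD _ _ _ (by omega), cellv, if_pos hs, decide_eq_true_eq] at hw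
  subst hw
  refine ⟨fun h3 h4 => ?_, fun h3 h4 => ?_, fun h3 ha hc => ?_⟩
  · rw [cst_getD _ _ _ hq, cellv, if_pos h3, decide_eq_false (h4.resolve_right (not_not.2 hg))]
  · rw [cst_getD _ _ _ hq, cellv, if_neg (not_lt.2 h3), h4, Bool.false_and]
  obtain ⟨j, hj, rfl⟩ | ⟨j, hj, rfl⟩ := MachK_cell h3 hq
  · have h4 := (MachK_alS hj).1 ha
    rw [MachK_cS hj ha]
    rcases lt_or_ge j I.1 with h5 | h5
    · have h6 := (MachK_opX h5 []).2.1 hc
      have h7 : I.2.2.2.getD j 0 < I.1 + I.gP := (MachK_out hP y h5).1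
      rw [(MachK_opX (t := s) h5 _).1, MachK_cP h7 ((MachK_alP h7).2 (by omega)),
        wires_inp _ (lx ▸ h5), ← (MachK_out hP y h5).2, ← h2 h6]
    · obtain ⟨i, rfl⟩ := Nat.exists_eq_add_of_le h5
      rw [(MachK_opS (t := s) (by omega)).1, MachK_gate hS lx (show i < I.gS by omega) fun l hl =>
        MachK_cS (by omega) ((MachK_alS (by omega)).2 (by omega))]
  · have h4 := (MachK_alP hj).1 ha
    rw [MachK_cP hj ha]
    rcases lt_or_ge j I.1 with h5 | h5
    · have h6 := (MachK_opY h5 []).2.1 hc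
      have h7 : I.2.1.2.getD j 0 < I.1 + I.gS := (MachK_out hS x h5).1
      rw [(MachK_opY (t := s) h5 _).1, MachK_cS h7 ((MachK_alS h7).2 (by omega)),
        wires_inp _ (ly ▸ h5), ← (MachK_out hS x h5).2, ← h1 h6]
    · obtain ⟨i, rfl⟩ := Nat.exists_eq_add_of_le h5
      rw [(MachK_opP (t := s)).1, MachK_gate hP ly (show i < I.gP by omega) fun l hl =>
        MachK_cP (by omega) ((MachK_alP (by omega)).2 (by omega))]

theorem ok_cst_mid (hI : I.Valid) (hx : x.length = I.1) (hy : y.length = I.1)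
    (h : I.mach.ok g (I.cst x y I.tP)) : y = I.2.1.run x := by
  obtain ⟨-, hS, hP, -⟩ := hI
  have hT : I.T = I.tD + I.gP + 3 := rfl
  have hD : I.tD = I.tP + I.gS := rfl
  have hM : I.tP = I.tY + I.gP := rfl
  have hY : I.tY = I.gS + 1 := rfl
  have hk : I.k = I.oY + I.1 + I.gP := rfl
  have ho : I.oY = I.T + I.1 + I.gS := rfl
  refine MachK_ext hy (run_length hS _) fun j hj => ?_
  have ha : I.alive (I.oY + j) I.tP = true := (MachK_alP (by omega)).2 (by omega)
  have h1 := ((ev_chk g I.tP (I.oY + j) _).1 (((ok_iff g _).1 h).2 _ (by omega) _ (by omega)) (by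
    rw [cst_getD _ _ _ (by omega), cellv, if_pos (by omega), decide_eq_true rfl])).2.2 (by omega)
    ha ((MachK_opY hj []).2.2 le_rfl)
  have h7 : I.2.1.2.getD j 0 < I.1 + I.gS := (MachK_out hS x hj).1
  rwa [(MachK_opY (t := 0) hj _).1, MachK_cS h7 ((MachK_alS h7).2 (by omega)),
    MachK_cP (by omega) ha, wires_inp _ (hy ▸ hj), ← (MachK_out hS x hj).2] at h1

theorem ok_idle (g : Bool) {w : List Bool} (hw : w.length = I.k)
    (h : ∀ t < I.T, w.getD t false = false) : I.mach.ok g w :=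
  (ok_iff g w).2 ⟨hw, fun t ht q _ => (ev_chk g t q w).2 fun h1 =>
    absurd ((h t ht).symm.trans h1) Bool.false_ne_true⟩

theorem cands_fst (hx : x.length = I.1) (ht : t ≤ I.tD) : x ∈ I.cands (I.cst x y t) := by
  refine List.mem_cons.2 (.inl (MachK_ext hx (by simp) fun j hj => ?_))
  rw [MachK_range _ hj, MachK_cS (by omega) ((MachK_alS (by omega)).2 (by omega)),
    wires_inp _ (hx ▸ hj)]

theorem cands_snd (hy : y.length = I.1) (ht : I.tY ≤ t) (ht' : t < I.T) :
    y ∈ I.cands (I.cst x y t) := by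
  refine List.mem_cons_of_mem _ (List.mem_singleton.2 (MachK_ext hy (by simp) fun j hj => ?_))
  rw [MachK_range _ hj, MachK_cP (by omega) ((MachK_alP (by omega)).2 (by omega)),
    wires_inp _ (hy ▸ hj)]

end EoL

end Vale.Agent.P330
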