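import Vale.Agent.P330.MachS
import Vale.Agent.P330.MachK

/-! Ends of lines of the machine give solutions. -/

namespace Vale.Agent.P330

namespace EoL

variable {I : EoL}

theorem MachF_num (I : EoL) : 1 ≤ I.tY ∧ I.tY ≤ I.tP ∧ I.tP ≤ I.tD ∧ I.tD + 3 ≤ I.T ∧
    I.T % 2 = 0 := by
  unfold T tD tP tY
  omega

theorem MachF_not {g : Bool} {s t : ℕ} (h : t % 2 = g.toNat) (h' : (s + t) % 2 = 1) :
    s % 2 = (!g).toNat := by
  cases g
  · rw [Bool.toNat_false] at h
    rw [Bool.not_false, Bool.toNat_true]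
    omega
  · rw [Bool.toNat_true] at h
    rw [Bool.not_true, Bool.toNat_false]
    omega

theorem MachF_edge (hI : I.Valid) {x y : List Bool} {t : ℕ} {g : Bool} (ht : t + 1 < I.T)
    (hg : t % 2 = g.toNat) (h : I.Cons x y t) (h' : I.Cons x y (t + 1)) :
    I.mach.Edge g (I.cst x y t) (I.cst x y (t + 1)) :=
  have := MachF_num I
  ⟨ok_cst hI (by omega) hg h, ok_cst hI ht (MachF_not hg (by omega)) h',
    step_fw hI h.1 h.2.1 ht fun _ => h'.2.2.1 (by omega),
    step_bw hI h.1 h.2.1 ht fun _ => h.2.2.2 (by omega)⟩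

theorem MachF_wrap (hI : I.Valid) {x y z : List Bool} {g : Bool}
    (hg : (I.T - 1) % 2 = g.toNat) (h : I.Cons x y (I.T - 1)) (h' : I.Cons y z 0) :
    I.mach.Edge g (I.cst x y (I.T - 1)) (I.cst y z 0) :=
  have := MachF_num I
  ⟨ok_cst hI (by omega) hg h, ok_cst hI (by omega) (MachF_not hg (by omega)) h',
    step_fw_last hI h.2.1 z, step_bw_zero hI h.2.1 x⟩

theorem MachF_idle (g : Bool) {w : List Bool} (hw : w.length = I.k)
    (h : ∀ t < I.T, w.getD t false = false) : I.mach.Edge g w w :=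
  ⟨ok_idle _ hw h, ok_idle _ hw h, step_idle _ hw h, step_idle _ hw h⟩

theorem MachF_g0 {g : Bool} : (I.tP + 1) % 2 = g.toNat ↔ g = I.mach.g0 := by
  change _ ↔ g = decide ((I.tP + 1) % 2 = 1)
  cases g <;> simp

theorem mach_start (hI : I.Valid) : I.mach.Start := by
  have hn := MachF_num I
  have hl : (List.replicate I.1 false).length = I.1 := List.length_replicate
  have h1 : ∀ t, I.tP < t → I.Cons (List.replicate I.1 false) (List.replicate I.1 false) t :=
    fun t ht => ⟨hl, hl, fun _ => by omega, fun _ => hI.2.2.2.1.symm⟩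
  have h2 := MachF_edge hI (t := I.tP + 1) (by omega) (MachF_g0.2 rfl) (h1 _ (by omega))
    (h1 _ (by omega))
  refine ⟨mach_wf hI, ⟨h2.1, ?_, rfl, ?_⟩, fun ⟨w, h3⟩ => hI.2.2.2.2.1 ?_⟩
  · exact (congrArg _ h2.2.2.1).mpr h2.2.1
  · exact (congrArg _ h2.2.2.1).trans h2.2.2.2
  · have h4 := (step_bw hI hl hl (t := I.tP) (by omega) fun _ => hI.2.2.2.1.symm).symm.trans
      h3.2.2.2
    exact (ok_cst_mid hI hl hl (h4 ▸ h3.1)).symm

theorem mach_end (hI : I.Valid) {w : List Bool} (h : I.mach.End w) :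
    ∃ v ∈ I.cands w, I.Sol v := by
  have hn := MachF_num I
  rcases h with ⟨g, w', h1, h2⟩ | ⟨g, w', h1, h2, h3⟩
  · rcases ok_cases hI h1.2.1 with h4 | ⟨t, ht, x, y, hg, h4, rfl⟩
    · exact absurd ⟨w, MachF_idle _ h1.2.1.1 h4⟩ h2
    by_cases h5 : t + 1 < I.T
    · by_cases h6 : x = I.2.2.run y ∨ t + 1 ≠ I.tP
      · exact absurd ⟨_, MachF_edge hI h5 hg h4 ⟨h4.1, h4.2.1, fun _ => h4.2.2.1 (by omega),
          fun _ => h6.elim id fun _ => h4.2.2.2 (by omega)⟩⟩ h2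
      · rw [not_or, not_not, h4.2.2.1 (by omega)] at h6
        exact ⟨x, cands_fst h4.1 (by omega), h4.1,
          fun h7 => h6.1 (by rw [h7, hI.2.2.2.2.2]), Or.inl (Ne.symm h6.1)⟩
    · obtain rfl : t = I.T - 1 := by omega
      exact absurd ⟨_, MachF_wrap hI hg h4
        ⟨h4.2.1, run_length hI.2.1 y, fun _ => rfl, fun _ => by omega⟩⟩ h2
  · rcases ok_cases hI h1.1 with h4 | ⟨t, ht, x, y, hg, h4, rfl⟩
    · exact absurd ⟨w, MachF_idle _ h1.1.1 h4⟩ h2
    obtain _ | t := t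
    · exact absurd ⟨_, MachF_wrap hI (MachF_not hg (by omega))
        ⟨run_length hI.2.2.1 x, h4.1, fun _ => by omega, fun _ => rfl⟩ h4⟩ h2
    · by_cases h6 : y = I.2.1.run x ∨ t ≠ I.tP
      · exact absurd ⟨_, MachF_edge hI ht (MachF_not hg (by omega)) ⟨h4.1, h4.2.1,
          fun _ => h6.elim id fun _ => h4.2.2.1 (by omega), fun _ => h4.2.2.2 (by omega)⟩ h4⟩ h2
      · rw [not_or, not_not] at h6
        obtain ⟨h6, rfl⟩ := h6
        have h7 := h4.2.2.2 (by omega)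
        refine ⟨y, cands_snd h4.2.1 (by omega) ht, h4.2.1, fun h8 => h3 ?_,
          Or.inr (h7 ▸ Ne.symm h6)⟩
        rw [MachF_g0.1 hg, h7, h8, hI.2.2.2.1]
        rfl

end EoL

end Vale.Agent.P330
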