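import Vale.Agent.P330.Av

/-! Linearity test, replica test and random linear combinations. -/

namespace Vale.Agent.P330

open scoped BigOperators

lemma KBlr_plur {P S : Type} [Fintype P] [Nonempty P] (f : P → S) :
    ∃ v, pr (fun x => f x ≠ v) ≤ pr fun z : P × P => f z.1 ≠ f z.2 := by
  obtain ⟨y, -, hy⟩ := Finset.exists_le_of_expect_le Finset.univ_nonempty
    (pr_prod' fun z : P × P => f z.1 ≠ f z.2).ge
  exact ⟨f y, hy⟩

lemma KBlr_add {A B : Type} [AddCommGroup A] [Fintype A] [AddCommGroup B] (T : A → B)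
    (hk : (pr fun z : A × A => T (z.1 + z.2) ≠ T z.1 + T z.2) < 1 / 10) : ∃ φ : A →+ B,
      pr (fun a => T a ≠ φ a) ≤ 2 * pr fun z : A × A => T (z.1 + z.2) ≠ T z.1 + T z.2 := by
  have h1 : ∀ a, ∃ v, pr (fun r => T (a + r) - T r ≠ v) < 1 / 5 := fun a => by
    obtain ⟨v, hv⟩ := KBlr_plur fun r => T (a + r) - T r
    have e1 := pr_equiv ((Equiv.addLeft a).prodCongr (Equiv.refl A))
      fun z : A × A => T (z.1 + z.2) ≠ T z.1 + T z.2
    have e2 := pr_equiv ((Equiv.prodComm A A).trans ((Equiv.addLeft a).prodCongr (Equiv.refl A)))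
      fun z : A × A => T (z.1 + z.2) ≠ T z.1 + T z.2
    refine ⟨v, (hv.trans ((pr_le_add fun z hz => ?_).trans_eq
      (congrArg₂ (· + ·) e1 e2))).trans_lt (by linarith)⟩
    by_contra h
    obtain ⟨h2, h3⟩ := not_or.1 h
    have h4 : T (a + z.1 + z.2) = T (a + z.1) + T z.2 := not_not.1 h2
    have h5 : T (a + z.2 + z.1) = T (a + z.2) + T z.1 := not_not.1 h3
    rw [add_right_comm, h4] at h5
    exact hz (sub_eq_sub_iff_add_eq_add.2 h5)
  choose φ hφ using h1
  refine ⟨AddMonoidHom.mk' φ fun a b => ?_, ?_⟩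
  · have e := pr_equiv (Equiv.addLeft b) fun r => T (a + r) - T r ≠ φ a
    have h2 := pr_le_add3 (A := fun r => T (a + b + r) - T r ≠ φ (a + b) ∨
      T (a + Equiv.addLeft b r) - T (Equiv.addLeft b r) ≠ φ a ∨ T (b + r) - T r ≠ φ b) fun _ h => h
    obtain ⟨r, hr⟩ := exists_not_of_pr_lt (h2.trans_lt (by
      rw [e]; linarith [hφ a, hφ b, hφ (a + b)]))
    simp only [not_or, not_not, Equiv.coe_addLeft] at hr
    rw [← hr.1, ← hr.2.1, ← hr.2.2, add_assoc, sub_add_sub_cancel]
  · rw [pr_prod, ← ex_mul]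
    refine ex_mono fun a => ?_
    by_cases h : T a ≠ φ a
    · have h2 := pr_le_add (A := fun _ : A => True) (B := fun r => T (a + r) - T r ≠ φ a)
        (C := fun r => T (a + r) ≠ T a + T r) fun r _ => by
          by_contra h'
          obtain ⟨h3, h4⟩ := not_or.1 h'
          exact h (by rw [← not_not.1 h3, not_not.1 h4, add_sub_cancel_right])
      rw [pr_true fun _ => trivial] at h2
      exact (ind_le_one _).trans (by linarith [hφ a])
    · exact (ind_neg h).trans_le (mul_nonneg zero_le_two (pr_nonneg _))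

lemma KBlr_var {J Ω S : Type} [Fintype J] [Fintype Ω] [Nonempty Ω] {π : J → Equiv.Perm Ω}
    (hπ : Samp (1 / 100) π) (m : Ω → S) (A : S → Prop) :
    pr (fun w => A (m w)) * (1 - pr fun w => A (m w)) ≤
      pr (fun w => A (m w)) / 100 + pr fun w => ¬∀ j, m (π j w) = m w := by
  have hJ : Nonempty J := by
    by_contra h
    have := not_nonempty_iff.1 h
    have h1 := hπ fun _ => 1
    norm_num [ex_const] at h1
  have h1 := hπ fun w => ind (A (m w))
  simp only [ind_sq] at h1
  change _ ≤ 1 / 100 * pr fun w => A (m w) at h1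
  have h0 := pr_nonneg fun w => A (m w)
  have h2 := pr_le_one fun w => A (m w)
  set t := pr fun w => A (m w) with ht
  have h3 : 𝔼 w, (ind (A (m w)) - t) ^ 2 = t * (1 - t) := by
    have : ∀ w, (ind (A (m w)) - t) ^ 2 = (1 - 2 * t) * ind (A (m w)) + t ^ 2 := fun w => by
      rw [sub_sq, ind_sq]; ring
    simp only [this]
    rw [ex_add, ex_mul, ex_const]
    change _ * t + _ = _
    ring
  have h4 : 𝔼 w, (ind (A (m w)) - t) ^ 2 ≤
      𝔼 w, (((𝔼 j, ind (A (m (π j w)))) - t) ^ 2 + ind (¬∀ j, m (π j w) = m w)) :=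
    ex_mono fun w => by
      by_cases h : ∀ j, m (π j w) = m w
      · simp only [h, ex_const]
        exact le_add_of_nonneg_right (ind_nonneg _)
      · rw [ind_pos h]
        nlinarith [ind_nonneg (A (m w)), ind_le_one (A (m w)),
          sq_nonneg ((𝔼 j, ind (A (m (π j w)))) - t)]
  rw [h3, ex_add] at h4
  exact h4.trans (add_le_add (h1.trans_eq (by ring)) le_rfl)

theorem blr {p : ℕ} [Fact p.Prime] {C : Type} [Fintype C] [DecidableEq C]
    (T : (C → ZMod p) → ZMod p) : ∃ θ : C → ZMod p, pr (fun a => T a ≠ ∑ c, a c * θ c) ≤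
      10 * pr fun z : (C → ZMod p) × (C → ZMod p) => T (z.1 + z.2) ≠ T z.1 + T z.2 := by
  have h0 := pr_nonneg fun z : (C → ZMod p) × (C → ZMod p) => T (z.1 + z.2) ≠ T z.1 + T z.2
  by_cases hk : (pr fun z : (C → ZMod p) × (C → ZMod p) => T (z.1 + z.2) ≠ T z.1 + T z.2) < 1 / 10
  · obtain ⟨φ, hφ⟩ := KBlr_add T hk
    refine ⟨fun c => φ fun j => if c = j then 1 else 0, (pr_mono fun a ha e => ha ?_).trans
      (hφ.trans (by linarith))⟩
    exact e.trans ((φ.toZModLinearMap p).pi_apply_eq_sum_univ a)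
  · exact ⟨0, (pr_le_one _).trans (by linarith)⟩

theorem rep_test {J Ω S : Type} [Fintype J] [Fintype Ω] [Nonempty S] {π : J → Equiv.Perm Ω}
    (hπ : Samp (1 / 100) π) (m : Ω → S) :
    ∃ v, pr (fun w => m w ≠ v) ≤ 10 * pr fun w => ¬∀ j, m (π j w) = m w := by
  classical
  have h0 := pr_nonneg fun w => ¬∀ j, m (π j w) = m w
  cases isEmpty_or_nonempty Ω with
  | inl _ => exact ⟨Classical.arbitrary S, (pr_false isEmptyElim).trans_le (by linarith)⟩
  | inr _ =>
    by_contra hc
    replace hc := fun v => not_le.1 (not_exists.1 hc v)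
    have hk := (hc (Classical.arbitrary S)).trans_le (pr_le_one _)
    have h1 : ∀ v, pr (fun w => m w = v) < 1 / 2 := fun v => by
      have h2 := KBlr_var hπ m (· ≠ v)
      have h3 := hc v
      have h4 := pr_not fun w => m w = v
      by_contra h5
      change pr (fun w => m w ≠ v) = _ at h4
      nlinarith
    have h2 : ∀ s : Finset S, pr (fun w => m w ∈ s) < 1 / 4 := fun s => by
      induction s using Finset.induction_on with
      | empty => rw [pr_false fun _ => Finset.notMem_empty _]; norm_num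
      | insert a s _ ih =>
        have h3 := KBlr_var hπ m (· ∈ insert a s)
        have h4 := pr_le_add (A := fun w => m w ∈ insert a s) fun w => Finset.mem_insert.1
        have h5 := h1 a
        by_contra h6
        nlinarith
    have h3 := h2 (Finset.univ.image m)
    rw [pr_true fun w => Finset.mem_image_of_mem m (Finset.mem_univ w)] at h3
    linarith

variable {F C : Type} [Field F] [Fintype F] [Fintype C] [DecidableEq C]

theorem sub_half {W : Submodule F (C → F)} (hW : W ≠ ⊤) : pr (fun a => a ∈ W) ≤ 1 / 2 := by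
  obtain ⟨v, hv⟩ : ∃ v, v ∉ W := by_contra fun h => hW (eq_top_iff.2 fun v _ => by_contra
    fun h' => h ⟨v, h'⟩)
  have h1 := pr_equiv (Equiv.addLeft v) fun a => ¬a ∈ W
  have h2 := pr_mono (A := fun a => a ∈ W) (B := fun a => ¬Equiv.addLeft v a ∈ W)
    fun a ha h => hv ((W.add_mem_iff_left ha).1 h)
  rw [h1, pr_not] at h2
  linarith

theorem lin_zero {v : C → F} (hv : v ≠ 0) :
    pr (fun a : C → F => ∑ c, a c * v c = 0) ≤ 1 / Fintype.card F := by
  classical
  obtain ⟨j, hj⟩ := Function.ne_iff.1 hv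
  have hj : v j ≠ 0 := hj
  have h1 : ∀ t : F, pr (fun a : C → F => ∑ c, a c * v c = t) =
      pr fun a : C → F => ∑ c, a c * v c = 0 := fun t => by
    rw [← pr_equiv (Equiv.addLeft (Pi.single j (t / v j) : C → F))]
    refine pr_congr fun a => ?_
    simp [add_mul, Finset.sum_add_distrib, Pi.single_apply, hj]
  have h2 : ∑ t : F, pr (fun a : C → F => ∑ c, a c * v c = t) = 1 := by
    unfold pr
    rw [← ex_sum, ← ex_const (P := C → F) 1]
    refine Finset.expect_congr rfl fun a _ => ?_
    rw [Finset.sum_eq_single (∑ c, a c * v c) (fun t _ h => ind_neg h.symm) (by simp), ind_pos rfl]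
  simp only [h1, Finset.sum_const, Finset.card_univ, nsmul_eq_mul] at h2
  rw [le_div_iff₀ (by exact_mod_cast Fintype.card_pos), mul_comm, h2]

theorem lin_half {v : C → F} (hv : v ≠ 0) : pr (fun a : C → F => ∑ c, a c * v c = 0) ≤ 1 / 2 := by
  refine (lin_zero hv).trans (one_div_le_one_div_of_le two_pos ?_)
  exact_mod_cast Fintype.one_lt_card (α := F)

/-- The dictator test. -/
theorem one_hot {μ : C → F}
    (h : 3 / 4 < pr fun z : (C → F) × (C → F) =>
      ∑ c, z.1 c * z.2 c * μ c = (∑ c, z.1 c * μ c) * ∑ c, z.2 c * μ c)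
    (h1 : ∑ c, μ c = 1) : ∃ j, ∀ c, μ c = if c = j then 1 else 0 := by
  let L : (C → F) →ₗ[F] C → F :=
    { toFun := fun a c => (a c - ∑ c', a c' * μ c') * μ c
      map_add' := fun a b => by funext c; simp [add_mul, Finset.sum_add_distrib]; ring
      map_smul' := fun r a => by funext c; simp [mul_assoc, ← Finset.mul_sum]; ring }
  have hL : L.ker = ⊤ := by
    by_contra hW
    have h2 := sub_half hW
    refine h.not_ge ?_
    rw [pr_prod]
    refine (ex_mono (g := fun a => 1 / 2 * ind (a ∈ L.ker) + 1 / 2) fun a => ?_).trans ?_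
    · by_cases ha : a ∈ L.ker
      · rw [ind_pos ha]
        exact (pr_le_one _).trans (by norm_num)
      · rw [ind_neg ha, mul_zero, zero_add]
        refine (pr_mono fun b hb => ?_).trans (lin_half ha)
        have hb : ∑ c, a c * b c * μ c = (∑ c, a c * μ c) * ∑ c, b c * μ c := hb
        rw [← sub_eq_zero, Finset.mul_sum, ← Finset.sum_sub_distrib] at hb
        rw [← hb]
        refine Finset.sum_congr rfl fun c _ => ?_
        change b c * ((a c - ∑ c', a c' * μ c') * μ c) = _
        ring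
    · rw [ex_add, ex_mul, ex_const]
      unfold pr at h2
      linarith
  obtain ⟨j, -, hj⟩ := Finset.exists_ne_zero_of_sum_ne_zero (h1.trans_ne one_ne_zero)
  refine ⟨j, fun c => ?_⟩
  have h2 : L (fun c' => if c = c' then 1 else 0) = 0 := LinearMap.mem_ker.1 (hL ▸ trivial)
  have h3 := sub_eq_zero.1 ((mul_eq_zero.1 (congrFun h2 j)).resolve_right hj)
  simpa using h3.symm

end Vale.Agent.P330
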