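import Vale.Agent.P330.KLdtC
import Vale.Agent.P330.KBlr

/-! A word that passes the replica, linearity and line tests is near a Hadamard codeword. -/

namespace Vale.Agent.P330

open scoped BigOperators

lemma KNear_pr3 {P Q R : Type} [Fintype P] [Fintype Q] [Fintype R] (A : P × Q × R → Prop) :
    pr A = 𝔼 x, 𝔼 a, pr fun w => A (x, a, w) := by
  rw [pr_prod]
  exact Finset.expect_congr rfl fun x _ => pr_prod _

section Eqv

variable {X A I : Type} [AddCommGroup X] [AddCommGroup A]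

/-- Shift of the second coordinate. -/
def KNearE1 : X × A × I × A × X ≃ X × A × I × A × X where
  toFun z := (z.1, z.2.1 + z.2.2.2.1, z.2.2)
  invFun z := (z.1, z.2.1 - z.2.2.2.1, z.2.2)
  left_inv z := by simp
  right_inv z := by simp

/-- Exchange of two coordinates. -/
def KNearE2 : X × A × I × A × X ≃ X × A × I × A × X where
  toFun z := (z.1, z.2.2.2.1, z.2.2.1, z.2.1, z.2.2.2.2)
  invFun z := (z.1, z.2.2.2.1, z.2.2.1, z.2.1, z.2.2.2.2)
  left_inv _ := rfl
  right_inv _ := rfl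

/-- Shift of the first coordinate. -/
def KNearE3 (t : I → X) : X × A × I × A × X ≃ X × A × I × A × X where
  toFun z := (z.1 + t z.2.2.1, z.2.1, z.2.2)
  invFun z := (z.1 - t z.2.2.1, z.2.1, z.2.2)
  left_inv z := by simp
  right_inv z := by simp

end Eqv

lemma KNear_vec {M : ℕ} [Fact M.Prime] {F C : Type} [Field F] [Fintype F] [Fintype C]
    [DecidableEq C] {χ : AddChar (ZMod M) F} {D : ℕ} (g : ZMod M → C → F) :
    ind (¬LD χ D g) ≤ 2 * pr fun a : C → F => ¬LD χ D fun α => ∑ c, a c * g α c := by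
  by_cases h : LD χ D g
  · rw [ind_neg (not_not.2 h)]
    exact mul_nonneg zero_le_two (pr_nonneg _)
  · let W : Submodule F (C → F) :=
      { carrier := {a | LD χ D fun α => ∑ c, a c * g α c}
        add_mem' := fun {a b} ha hb => by
          have := LD.add ha hb
          simpa only [Set.mem_ofPred_eq, Pi.add_apply, add_mul, Finset.sum_add_distrib] using this
        zero_mem' := by
          simpa only [Set.mem_ofPred_eq, Pi.zero_apply, zero_mul, Finset.sum_const_zero] using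
            (LD.zero : LD χ D fun _ => (0 : F))
        smul_mem' := fun t a ha => by
          have := LD.smul t ha
          simpa only [Set.mem_ofPred_eq, Pi.smul_apply, smul_eq_mul, Finset.mul_sum, mul_assoc]
            using this }
    have hW : W ≠ ⊤ := fun e => h (LD.pi_iff.2 fun c => by
      have h1 : (Pi.single c 1 : C → F) ∈ W := e ▸ Submodule.mem_top
      have h2 : LD χ D fun α => ∑ c', (Pi.single c 1 : C → F) c' * g α c' := h1
      simpa [Pi.single_apply] using h2)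
    have h1 : pr (fun a : C → F => LD χ D fun α => ∑ c, a c * g α c) ≤ 1 / 2 := sub_half hW
    rw [ind_pos h, pr_not]
    linarith

theorem near_code (M : ℕ) [Fact M.Prime] {η : ℝ} (hη : 0 < η) : ∃ κ : ℝ, 0 < κ ∧
    ∀ (p : ℕ) [Fact p.Prime] (χ : AddChar (ZMod M) (ZMod p)) (D : ℕ) (ι I C J : Type) [Fintype ι]
      [DecidableEq ι] [Fintype I] [Nonempty I] [Fintype C] [DecidableEq C] [Fintype J]
      (s : I → ι → ZMod M) (π : J → Equiv.Perm (I × (C → ZMod p) × (ι → ZMod M)))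
      (m : Pos M (ZMod p) ι I C → ZMod p), χ.IsPrimitive → 100 * (D + 1) ≤ M → Expd s lam0 →
      Samp (1 / 100) π →
      pr (fun z : Pos M (ZMod p) ι I C => ¬∀ j, m (z.1, z.2.1, π j z.2.2) = m z) ≤ κ →
      pr (fun z : Pos M (ZMod p) ι I C => m (z.1, z.2.1 + z.2.2.2.1, z.2.2) ≠
        m z + m (z.1, z.2.2.2.1, z.2.2.1, z.2.1, z.2.2.2.2)) ≤ κ →
      pr (fun z : Pos M (ZMod p) ι I C =>
        ¬LD χ D fun α => m (z.1 + α • s z.2.2.1, z.2.1, z.2.2)) ≤ κ →
      ∃ (Θ : (ι → ZMod M) → C → ZMod p) (S : I → Prop), pr (fun i => ¬S i) ≤ η ∧ Cd χ D s S Θ ∧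
        pr (fun z => m z ≠ hw Θ z) ≤ η := by
  obtain ⟨η1, h0, h1, h2⟩ : ∃ η1 : ℝ, 0 < η1 ∧ η1 ≤ 1 / 10 ^ 8 ∧ 5 * η1 ≤ η :=
    ⟨min (η / 5) (1 / 10 ^ 8), lt_min (by positivity) (by positivity), min_le_right _ _, by
      linarith [min_le_left (η / 5) (1 / 10 ^ 8)]⟩
  have hM1 : (1 : ℝ) ≤ M := by exact_mod_cast (Fact.out : M.Prime).one_lt.le
  obtain ⟨κ, hκ, hκ1⟩ : ∃ κ : ℝ, 0 < κ ∧ 2 * (κ + M * (320 * κ)) = η1 ^ 2 :=
    ⟨η1 ^ 2 / (2 * (1 + 320 * M)), by positivity, by field_simp⟩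
  have hκ2 : 320 * κ ≤ η1 := by nlinarith
  refine ⟨κ, hκ, fun p _ χ D ι I C J _ _ _ _ _ _ _ s π m hχ hM hE hπ t1 t2 t3 => ?_⟩
  choose T hT using fun (x : ι → ZMod M) (a : C → ZMod p) => rep_test hπ fun w => m (x, a, w)
  have a1 : pr (fun z : Pos M (ZMod p) ι I C => m z ≠ T z.1 z.2.1) ≤ 10 * κ := by
    rw [KNear_pr3] at t1 ⊢
    refine le_trans ?_ (mul_le_mul_of_nonneg_left t1 (by norm_num))
    rw [← ex_mul]
    refine ex_mono fun x => ?_
    rw [← ex_mul]
    exact ex_mono fun a => hT x a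
  have a2 : pr (fun z : Pos M (ZMod p) ι I C =>
      T z.1 (z.2.1 + z.2.2.2.1) ≠ T z.1 z.2.1 + T z.1 z.2.2.2.1) ≤ 31 * κ := by
    have b1 := (pr_equiv KNearE1 fun z : Pos M (ZMod p) ι I C => m z ≠ T z.1 z.2.1).trans_le a1
    have b2 := (pr_equiv KNearE2 fun z : Pos M (ZMod p) ι I C => m z ≠ T z.1 z.2.1).trans_le a1
    have b3 := pr_or_le (fun z : Pos M (ZMod p) ι I C => m z ≠ T z.1 z.2.1)
      fun z => m (KNearE2 z) ≠ T (KNearE2 z).1 (KNearE2 z).2.1
    refine (pr_le_add3 (B := fun z : Pos M (ZMod p) ι I C => m (z.1, z.2.1 + z.2.2.2.1, z.2.2) ≠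
        m z + m (z.1, z.2.2.2.1, z.2.2.1, z.2.1, z.2.2.2.2))
      (C := fun z => m (KNearE1 z) ≠ T (KNearE1 z).1 (KNearE1 z).2.1)
      (D := fun z => m z ≠ T z.1 z.2.1 ∨ m (KNearE2 z) ≠ T (KNearE2 z).1 (KNearE2 z).2.1)
      fun z hz => ?_).trans (by linarith)
    by_contra hn
    push Not at hn
    obtain ⟨c1, c2, c3, c4⟩ := hn
    refine hz ?_
    rw [← c3]
    exact c2.symm.trans (c1.trans (congrArg (m z + ·) c4))
  choose θ hθ using fun x : ι → ZMod M => blr (T x)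
  have a3 : pr (fun z : Pos M (ZMod p) ι I C => T z.1 z.2.1 ≠ hw θ z) ≤ 310 * κ := by
    have b1 : pr (fun z : Pos M (ZMod p) ι I C => T z.1 z.2.1 ≠ hw θ z) =
        𝔼 x, pr fun a => T x a ≠ ∑ c, a c * θ x c := by
      rw [pr_prod]
      exact Finset.expect_congr rfl fun x _ => pr_fst fun a => T x a ≠ ∑ c, a c * θ x c
    have b2 : pr (fun z : Pos M (ZMod p) ι I C =>
        T z.1 (z.2.1 + z.2.2.2.1) ≠ T z.1 z.2.1 + T z.1 z.2.2.2.1) =
        𝔼 x, pr fun y : (C → ZMod p) × (C → ZMod p) => T x (y.1 + y.2) ≠ T x y.1 + T x y.2 := by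
      rw [KNear_pr3]
      refine Finset.expect_congr rfl fun x _ => ?_
      rw [pr_prod]
      refine Finset.expect_congr rfl fun a _ => ?_
      exact (pr_snd fun y : (C → ZMod p) × (ι → ZMod M) =>
        T x (a + y.1) ≠ T x a + T x y.1).trans (pr_fst fun r => T x (a + r) ≠ T x a + T x r)
    rw [b2] at a2
    rw [b1]
    refine (ex_mono hθ).trans ?_
    rw [ex_mul]
    linarith
  have a4 : pr (fun z : Pos M (ZMod p) ι I C => m z ≠ hw θ z) ≤ 320 * κ :=
    (pr_le_add (B := fun z : Pos M (ZMod p) ι I C => m z ≠ T z.1 z.2.1)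
      (C := fun z => T z.1 z.2.1 ≠ hw θ z) fun z hz => by
        by_contra hn
        push Not at hn
        exact hz (hn.1.trans hn.2)).trans (by linarith)
  have a5 : pr (fun z : Pos M (ZMod p) ι I C =>
      ¬LD χ D fun α => ∑ c, z.2.1 c * θ (z.1 + α • s z.2.2.1) c) ≤ κ + M * (320 * κ) := by
    have b1 := pr_exists_le' (A := fun (α : ZMod M) (z : Pos M (ZMod p) ι I C) =>
      m (KNearE3 (fun i => α • s i) z) ≠ hw θ (KNearE3 (fun i => α • s i) z)) fun α =>
        (pr_equiv _ fun z : Pos M (ZMod p) ι I C => m z ≠ hw θ z).trans_le a4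
    rw [ZMod.card] at b1
    refine (pr_le_add fun z hz => ?_).trans (add_le_add t3 b1)
    by_contra hn
    push Not at hn
    refine hz ?_
    have e : (fun α : ZMod M => m (z.1 + α • s z.2.2.1, z.2.1, z.2.2)) =
        fun α => ∑ c, z.2.1 c * θ (z.1 + α • s z.2.2.1) c := funext hn.2
    rw [← e]
    exact hn.1
  have a6 : pr (fun z : (ι → ZMod M) × I => ¬LD χ D fun α => θ (z.1 + α • s z.2)) ≤ η1 ^ 2 := by
    have b1 : pr (fun z : Pos M (ZMod p) ι I C =>
        ¬LD χ D fun α => ∑ c, z.2.1 c * θ (z.1 + α • s z.2.2.1) c) =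
        𝔼 x, 𝔼 i, pr fun a : C → ZMod p => ¬LD χ D fun α => ∑ c, a c * θ (x + α • s i) c := by
      rw [KNear_pr3]
      refine Finset.expect_congr rfl fun x _ => ?_
      refine Eq.trans ?_ (ex_comm fun (a : C → ZMod p) (i : I) =>
        ind (¬LD χ D fun α => ∑ c, a c * θ (x + α • s i) c))
      exact Finset.expect_congr rfl fun a _ =>
        pr_fst fun i => ¬LD χ D fun α => ∑ c, a c * θ (x + α • s i) c
    rw [b1] at a5
    rw [← hκ1, pr_prod]
    refine le_trans ?_ (mul_le_mul_of_nonneg_left a5 zero_le_two)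
    rw [← ex_mul]
    refine ex_mono fun x => ?_
    rw [← ex_mul]
    exact ex_mono fun i => KNear_vec fun α => θ (x + α • s i)
  obtain ⟨S, Θ, c1, c2, c3⟩ := ldt_avg hχ hM hE h0 h1 a6
  refine ⟨Θ, S, by linarith, c2, ?_⟩
  have c4 := (pr_fst (P' := (C → ZMod p) × I × (C → ZMod p) × (ι → ZMod M))
    fun x => θ x ≠ Θ x).trans_le c3
  refine (pr_le_add fun z hz => ?_).trans ((add_le_add a4 c4).trans (by linarith))
  by_contra hn
  push Not at hn
  refine hz (hn.1.trans ?_)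
  unfold hw
  rw [hn.2]

end Vale.Agent.P330
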