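import Vale.Agent.P330.YCd

/-! Tests on codewords that pass often pass always. -/

namespace Vale.Agent.P330

open Finset
open scoped BigOperators

set_option linter.unusedSectionVars false

variable {M p c N : ℕ} [Fact M.Prime] [Fact p.Prime] [NeZero N] [NeZero c] {J : Type}
  [Fintype J] {χ : AddChar (ZMod M) (ZMod p)} {cx : Cx M p c N J} {d : ℕ}
  {D : ℕ} {S : II N c → Prop}

lemma yt_marg {G H : Type} [Fintype G] [Fintype H] [AddGroup G] [AddGroup H] (φ : G → H)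
    (hφ : ∀ a b, φ (a + b) = φ a + φ b) (hs : Function.Surjective φ) (A : H → Prop) :
    pr (fun a => A (φ a)) = pr A := by
  choose σ hσ using hs
  have h1 : ∀ y, pr (fun a => A (φ a + y)) = pr fun a => A (φ a) := fun y => by
    rw [← pr_equiv (Equiv.addRight (σ y)) fun a => A (φ a)]
    simp only [Equiv.coe_addRight, hφ, hσ]
  have h2 : ∀ a, pr (fun y => A (φ a + y)) = pr A := fun a => pr_equiv (Equiv.addLeft (φ a)) A
  have h3 := pr_prod fun z : G × H => A (φ z.1 + z.2)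
  rw [pr_prod'] at h3
  simp only [h1, h2, ex_const] at h3
  exact h3

lemma yt_zero (h : cx.Ok χ d) (hD : D ≤ 66 * d) (hS : 1 / 2 ≤ pr S) {V : Type} [AddCommGroup V]
    [Module (ZMod p) V] {f : XX M N → V} (hf : Cd χ D (dirs cx.g) S f) (h0 : f ≠ 0) :
    pr (fun x => f x = 0) ≤ 1 / 10 := by
  have h1 : (20000 * (11 * d + 2) : ℝ) ≤ M := by exact_mod_cast h.hM
  have h2 : (D : ℝ) ≤ 66 * d := by exact_mod_cast hD
  have h3 : (0 : ℝ) ≤ d := Nat.cast_nonneg d
  have h4 : (2 * D / M : ℝ) ≤ 1 / 20 := by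
    rw [div_le_iff₀ (by linarith)]
    linarith
  refine (Cd.zeros h.prim h.expd (by unfold lam0; positivity) hS hf h0).trans ?_
  unfold lam0
  linarith [show (2 * (1 / 10 ^ 30) : ℝ) ≤ 1 / 20 by norm_num]

lemma yt_lin (h : cx.Ok χ d) (hD : D ≤ 66 * d) (hS : 1 / 2 ≤ pr S)
    {E : XX M N → Fin (RR N + 2) → ZMod p} (hE : Cd χ D (dirs cx.g) S E) (h0 : E ≠ 0) :
    pr (fun q : XX M N × (Fin (RR N + 2) → ZMod p) => ∑ s, q.2 s * E q.1 s = 0) ≤ 3 / 5 := by
  have h1 := yt_zero h hD hS hE h0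
  rw [pr_prod]
  refine (ex_mono (g := fun x => ind (E x = 0) + 1 / 2) fun x => ?_).trans ?_
  · by_cases hx : E x = 0
    · rw [ind_pos hx]
      exact (pr_le_one _).trans (by norm_num)
    · rw [ind_neg hx, zero_add]
      exact lin_half (v := E x) hx
  · rw [ex_add, ex_const]
    unfold pr at h1
    linarith

lemma yt_msk (o : Option (Option (Slot × Fin 5))) (v w : XX M N) :
    msk o (v + w) = msk o v + msk o w := by
  rcases o with _ | _ | z
  · exact (add_zero _).symm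
  · rfl
  · funext l
    simp only [msk, Pi.add_apply]
    split_ifs
    · exact (add_zero _).symm
    · rfl

lemma yt_inv {V Q : Type} [Fintype Q] {E : XX M N → V} (o : Option (Option (Slot × Fin 5)))
    {B : XX M N × Q → Prop}
    (hB : ∀ v, (¬∀ x, E (x + msk o v) = E x) → pr (fun q => B (v, q)) ≤ 3 / 5)
    (ht : 9 / 10 ≤ pr B) : ∀ x v, E (x + msk o v) = E x := by
  intro x₀ v₀
  by_contra hv
  have h1 := pr_equiv (Equiv.addLeft v₀) fun v : XX M N => ¬∀ x, E (x + msk o v) = E x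
  have h2 := pr_mono (A := fun v : XX M N => ∀ x, E (x + msk o v) = E x)
    (B := fun v => ¬∀ x, E (x + msk o (Equiv.addLeft v₀ v)) = E x) fun a ha h => hv (by
      rw [← ha, add_assoc, ← yt_msk]
      exact h x₀)
  rw [h1, pr_not] at h2
  refine absurd ht (not_le.2 ?_)
  rw [pr_prod]
  refine (ex_mono (g := fun v => 2 / 5 * ind (∀ x, E (x + msk o v) = E x) + 3 / 5)
    fun v => ?_).trans_lt ?_
  · by_cases hx : ∀ x, E (x + msk o v) = E x
    · rw [ind_pos hx]
      exact (pr_le_one _).trans (by norm_num)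
    · rw [ind_neg hx, mul_zero, zero_add]
      exact hB v hx
  · rw [ex_add, ex_mul, ex_const]
    unfold pr at h2
    linarith

theorem pt_test (h : cx.Ok χ d) (hD : D ≤ 66 * d) (hS : 1 / 2 ≤ pr S) {f : XX M N → ZMod p}
    (hf : Cd χ D (dirs cx.g) S f) (ht : 9 / 10 ≤ pr fun z : PP M p c N => f z.1 = 0) :
    ∀ x, f x = 0 := by
  by_contra h0
  have h1 := yt_zero h hD hS hf fun e => h0 (congrFun e)
  rw [pr_fst fun x => f x = 0] at ht
  linarith

theorem lin_test (h : cx.Ok χ d) (hD : D ≤ 66 * d) (hS : 1 / 2 ≤ pr S) (r : Row)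
    {E : XX M N → Fin (RR N + 2) → ZMod p} (hE : Cd χ D (dirs cx.g) S E)
    (ht : 9 / 10 ≤ pr fun z : PP M p c N => ∑ s, z.2.1 (r, s) * E z.1 s = 0) :
    ∀ x s, E x s = 0 := by
  by_contra h0
  have h1 := yt_lin h hD hS hE fun e => h0 fun x s => congrFun (congrFun e x) s
  rw [← yt_marg (fun z : PP M p c N => (z.1, fun s => z.2.1 (r, s))) (fun _ _ => rfl)
    fun y => ⟨(y.1, fun z => y.2 z.2, 0), rfl⟩] at h1
  linarith

theorem inv_test (h : cx.Ok χ d) (hD : D ≤ 66 * d) (hS : 1 / 2 ≤ pr S) (r : Row)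
    (o : Option (Option (Slot × Fin 5))) {E : XX M N → Fin (RR N + 2) → ZMod p}
    (hE : Cd χ D (dirs cx.g) S E)
    (ht : 9 / 10 ≤ pr fun z : PP M p c N =>
      ∑ s, z.2.1 (r, s) * E (z.1 + msk o z.2.2.2.2) s = ∑ s, z.2.1 (r, s) * E z.1 s) :
    ∀ x v, E (x + msk o v) = E x := by
  refine yt_inv o (B := fun q : XX M N × XX M N × (Fin (RR N + 2) → ZMod p) =>
    ∑ s, q.2.2 s * E (q.2.1 + msk o q.1) s = ∑ s, q.2.2 s * E q.2.1 s) (fun v hv => ?_) ?_
  · refine le_trans (pr_mono fun q hq => ?_) (yt_lin h hD hS ((hE.shift (msk o v)).sub hE)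
      fun e => hv fun x => sub_eq_zero.1 (congrFun e x))
    simp only [Pi.sub_apply, mul_sub, sum_sub_distrib]
    exact sub_eq_zero.2 hq
  · rw [← yt_marg (fun z : PP M p c N => (z.2.2.2.2, z.1, fun s => z.2.1 (r, s))) (fun _ _ => rfl)
      fun y => ⟨(y.2.1, fun z => y.2.2 z.2, 0, 0, y.1), rfl⟩]
    exact ht

theorem inv_test' (h : cx.Ok χ d) (hD : D ≤ 66 * d) (hS : 1 / 2 ≤ pr S)
    (o : Option (Option (Slot × Fin 5))) {f : XX M N → ZMod p} (hf : Cd χ D (dirs cx.g) S f)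
    (ht : 9 / 10 ≤ pr fun z : PP M p c N => f (z.1 + msk o z.2.2.2.2) = f z.1) :
    ∀ x v, f (x + msk o v) = f x := by
  refine yt_inv o (B := fun q : XX M N × XX M N => f (q.2 + msk o q.1) = f q.2) (fun v hv => ?_) ?_
  · refine le_trans (pr_mono fun q hq => ?_) ((yt_zero h hD hS ((hf.shift (msk o v)).sub hf)
      fun e => hv fun x => sub_eq_zero.1 (congrFun e x)).trans (by norm_num))
    exact sub_eq_zero.2 hq
  · rw [← yt_marg (fun z : PP M p c N => (z.2.2.2.2, z.1)) (fun _ _ => rfl)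
      fun y => ⟨(y.2, 0, 0, 0, y.1), rfl⟩]
    exact ht

theorem hot_test {μ : Fin (RR N + 2) → ZMod p}
    (ht : 9 / 10 ≤ pr fun z : PP M p c N =>
      ∑ s, z.2.1 (.inr false, s) * z.2.1 (.inr true, s) * μ s =
        (∑ s, z.2.1 (.inr false, s) * μ s) * ∑ s, z.2.1 (.inr true, s) * μ s)
    (h1 : ∑ s, μ s = 1) : ∃ j ≤ RR N + 1, ∀ s, μ s = if s.val = j then 1 else 0 := by
  obtain ⟨j, hj⟩ := one_hot (μ := μ) (by
    rw [← yt_marg (fun z : PP M p c N =>
      ((fun s => z.2.1 (.inr false, s)), fun s => z.2.1 (.inr true, s))) (fun _ _ => rfl)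
      fun y => ⟨(0, fun z => if z.1 = .inr false then y.1 z.2 else y.2 z.2, 0), by simp⟩]
    exact lt_of_lt_of_le (by norm_num) ht) h1
  exact ⟨j, Nat.lt_succ_iff.1 j.2, fun s => by simp only [hj s, Fin.ext_iff]⟩

lemma dep_of_msk {Θ : XX M N → CC N → ZMod p} {σ : Slot} {b : Fin 5} :
    DepB (bn (!ing σ) b) (Cx.top Θ σ b) ↔
      ∀ x v, Θ (x + msk (some (some (σ, b))) v) (.inl (σ, b), 0) = Θ x (.inl (σ, b), 0) := by
  refine ⟨fun h x v => ?_, fun h y y' e => ?_⟩
  · have h1 := h (tw (sh N σ) (x + msk (some (some (σ, b))) v)) (tw (sh N σ) x) fun l hl => by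
      simp only [tw, msk, Pi.add_apply, sub_add_cancel, if_pos hl, add_zero]
    simpa only [Cx.top, tw_tw, neg_add_cancel, tw_zero] using h1
  · have h1 := h (tw (-sh N σ) y') (tw (-sh N σ) y - tw (-sh N σ) y')
    rw [Cx.top, Cx.top, ← h1]
    refine congrArg (fun u => Θ u _) (funext fun l => ?_)
    simp only [tw, msk, Pi.add_apply, Pi.sub_apply, sub_neg_eq_add]
    split_ifs with hl
    · rw [add_zero, e _ hl]
    · rw [add_sub_cancel]

end Vale.Agent.P330
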