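import Vale.Agent.P330.YRd
import Vale.Agent.P330.YTest

/-! Soundness of the tests on Hadamard words. -/

namespace Vale.Agent.P330

variable {M p c N : ℕ} [Fact M.Prime] [Fact p.Prime] [NeZero N] [NeZero c] {J : Type}
  [Fintype J] {χ : AddChar (ZMod M) (ZMod p)} {cx : Cx M p c N J} {d : ℕ}
  {Θ : XX M N → CC N → ZMod p} {S : II N c → Prop} {τ : Bool}

lemma YRelB_pr {P : Type} [Fintype P] [Nonempty P] {T A : P → Prop}
    (ht : pr (fun z => ¬T z) ≤ 1 / 100) (h : ∀ z, T z → A z) : 9 / 10 ≤ pr A := by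
  rw [pr_not] at ht
  linarith [pr_mono h]

omit [Fact M.Prime] [Fact p.Prime] in
lemma YRelB_three (hS : pr (fun i => ¬S i) ≤ 1 / 100) (m m' : ZMod N) :
    1 / 2 ≤ pr fun i : II N c => S i ∧ S (i.1 + m, i.2) ∧ S (i.1 + m', i.2) := by
  have h1 := pr_le_add3 (A := fun i : II N c => ¬(S i ∧ S (i.1 + m, i.2) ∧ S (i.1 + m', i.2)))
    (B := fun i => ¬S i) (C := fun i => ¬S (i.1 + m, i.2)) (D := fun i => ¬S (i.1 + m', i.2))
    fun i hi => by tauto
  rw [pr_shift (fun i => ¬S i) m, pr_shift (fun i => ¬S i) m', pr_not] at h1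
  linarith

omit [NeZero N] in
lemma YRelB_hgt {κ : Ctl} {j : ℕ} (hj : j ≤ RR N + 1) (σ : Slot) : hgt N κ j σ ≤ RR N + 1 := by
  unfold hgt
  split_ifs <;> omega

theorem ctl_of_tst (h : cx.Ok χ d) (hS : pr (fun i => ¬S i) ≤ 1 / 100)
    (hΘ : Cd χ (11 * d) (dirs cx.g) S Θ)
    (ht : pr (fun z => ¬TstB (cx.tab χ z) (cx.rh χ Θ z) τ) ≤ 1 / 100) :
    ∃ κ j, j ≤ RR N + 1 ∧ (∀ x s, Θ x (.inr false, s) = if s.val = j then 1 else 0) ∧
      (∀ x s, Θ x (.inr true, s) = if s.val = 0 then code p κ else 0) ∧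
      par (tv N κ.2 j : ℕ) = τ := by
  have hS' : 1 / 2 ≤ pr S := by linarith [YRelB_pr hS fun _ h => h]
  have hc : ∀ b x s, Θ x (.inr b, s) = Θ 0 (.inr b, s) := fun b x s => by
    have := inv_test h (D := 11 * d) (by omega) hS' (.inr b) (some none)
      (E := fun x s => Θ x (.inr b, s)) (Cd.pi_iff.2 fun s => Cd.pi_iff.1 hΘ (.inr b, s))
      (YRelB_pr ht fun z hz => by
        have := hz.cst b
        rwa [val_row, val_row, xa_msk, xa_xd0] at this) 0 x
    simpa [msk] using congrFun this s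
  obtain ⟨z0, h0⟩ := exists_of_pr_pos (lt_of_lt_of_le (by norm_num) (YRelB_pr ht fun _ h => h))
  have hκ := h0.ctl
  rw [at0_rh, xa_xd0] at hκ
  generalize gam (cx.rh χ Θ z0) = κ at hκ
  have h1 := lin_test h (D := 0) (by omega) hS' (.inr true)
    (E := fun _ s => Θ 0 (.inr true, s) - if s.val = 0 then code p κ else 0) (Cd.const _)
    (YRelB_pr ht fun z hz => by
      have e := hz.rest
      rw [val_row, at0_rh, xa_xd0, hc true z.1, ← hc true z0.1, ← hκ] at e
      simp only [hc true z.1] at e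
      simp only [mul_sub, Finset.sum_sub_distrib, e]
      rw [Finset.sum_eq_single 0 (fun s _ hs => by
        rw [if_neg fun e : s.val = 0 => hs (Fin.ext e), mul_zero]) (by simp), sub_eq_zero]
      exact congrArg (· * code p κ) (ext_val z.2.1 (.inr true) 0))
  obtain ⟨j, hj, h2⟩ := hot_test (M := M) (c := c) (μ := fun s => Θ 0 (.inr false, s))
    (YRelB_pr ht fun z hz => by
      have e := hz.hot
      rw [val_row2, val_row, val_row] at e
      simpa only [hc false (cx.xa xd0 z.1 z.2.2)] using e)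
    (by
      have e := h0.one
      rw [val_one] at e
      simpa only [hc false (cx.xa xd0 z0.1 z0.2.2)] using e)
  refine ⟨κ, j, hj, fun x s => (hc false x s).trans (h2 s),
    fun x s => (hc true x s).trans (sub_eq_zero.1 (h1 0 s)), ?_⟩
  rw [← tmF_rh (cx := cx) (χ := χ) h.hp hκ.symm hj fun s => (hc false _ s).trans (h2 s)]
  exact h0.par

theorem rel_of_tst (h : cx.Ok χ d) (hS : pr (fun i => ¬S i) ≤ 1 / 100)
    (hΘ : Cd χ (11 * d) (dirs cx.g) S Θ)
    (ht : pr (fun z => ¬TstB (cx.tab χ z) (cx.rh χ Θ z) τ) ≤ 1 / 100) :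
    ∃ κ j, cx.Rel χ κ j Θ ∧ Cx.RelE κ j Θ ∧ par (tv N κ.2 j : ℕ) = τ := by
  have hS' : 1 / 2 ≤ pr S := by linarith [YRelB_pr hS fun _ h => h]
  obtain ⟨κ, j, hj, hμ, hc, hτ⟩ := ctl_of_tst h hS hΘ ht
  have hg : ∀ z : PP M p c N, gam (cx.rh χ Θ z) = κ := fun z =>
    gam_rh h.hp (by rw [hc]; simp)
  refine ⟨κ, j, ⟨hj, hμ, hc, fun σ b x s => ?_, fun dir b => ?_⟩, fun hj' dir b hd x => ?_, hτ⟩
  · by_cases hs : s < RR N + 2
    · have := lin_test h (D := 6 * d + 5 * (11 * d)) (by omega)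
        (YRelB_three hS 1 (lo N (ing σ) - sh N (src κ σ))) (.inl (σ, b))
        (E := fun x s => ext (Θ x) (.inl (σ, b)) s -
          Aop (fun y => ext (Θ y) (.inl (σ, b)) (s + 1)) x -
          if s.val + 1 = hgt N κ j σ then cx.baseT χ Θ κ σ b x else 0)
        (Cd.pi_iff.2 fun s => by
          refine (((hΘ.ext _ _).mono (by omega) fun i hi => hi.1).sub
            ((hΘ.ext _ _).aop.mono (by omega) fun i hi => hi.2.1)).sub ?_
          split_ifs
          · exact (baseT_cd h (by omega) hΘ κ σ b).mono le_rfl fun i hi => hi.2.2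
          · exact Cd.const _)
        (YRelB_pr ht fun z hz => by
          have e := hz.stk σ b
          rw [val_row, Aval_dn, hg, Jv_rh hj (hμ _), basev_rh, xa_xd0, Finset.sum_mul,
            ← Finset.sum_add_distrib, ← sub_eq_zero, ← Finset.sum_sub_distrib] at e
          refine Eq.trans (Finset.sum_congr rfl fun s _ => ?_) e
          rw [ext_val]
          split_ifs <;> ring) x ⟨s, hs⟩
      rw [sub_sub, sub_eq_zero] at this
      exact this
    · have e : (fun y => ext (Θ y) (.inl (σ, b)) (s + 1)) = 0 :=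
        funext fun y => dif_neg (by omega)
      have := YRelB_hgt (κ := κ) hj σ
      rw [e, Aop_zero, if_neg (by omega), ext, dif_neg hs]
      simp
  · refine dep_of_msk.2 (inv_test' h (D := 11 * d) (by omega) hS' _
      (f := fun x => Θ x (.inl ((dir, κ.1), b), 0)) (Cd.pi_iff.1 hΘ _)
      (YRelB_pr ht fun z hz => ?_))
    have e := hz.inv dir b
    rwa [hg, at0_rh, at0_rh, xa_msk, xa_xd0] at e
  · refine sub_eq_zero.1 (pt_test h (D := 11 * d) (by omega) hS'
      (f := fun x => Θ x (.inl ((dir, !κ.1), b), 0) - Θ x (.inl ((!dir, κ.1), b), 0))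
      ((Cd.pi_iff.1 hΘ _).sub (Cd.pi_iff.1 hΘ _)) (YRelB_pr ht fun z hz => ?_) x)
    have e := hz.eq (by rw [muB_rh hj (hμ _), if_pos (by simpa [posB] using hj')]) dir b
      (by rw [hg]; exact hd)
    rw [hg, at0_rh, at0_rh, xa_xd0] at e
    exact sub_eq_zero.2 e

end Vale.Agent.P330
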