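import Vale.Agent.P330.YStA

/-! The relations determine a state. -/

namespace Vale.Agent.P330

variable {M p c N : ℕ} [Fact M.Prime] [Fact p.Prime] [NeZero N] [NeZero c] {J : Type}
  [Fintype J] {χ : AddChar (ZMod M) (ZMod p)} {cx : Cx M p c N J} {d : ℕ}
  {Θ : XX M N → CC N → ZMod p} {κ : Ctl} {j : ℕ}

lemma YStB_pos (N : ℕ) (b : Bool) : posB N b ≤ RR N + 1 := by
  cases b <;> simp [posB]

lemma YStB_nx (κ : Ctl) : (κ.2 = 3 → (nxC κ).1 = !κ.1 ∧ up κ = true) ∧
    (¬κ.2 = 3 → (nxC κ).1 = κ.1) := by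
  revert κ
  decide

lemma YStB_pv (κ : Ctl) : nxC (pvC κ) = κ ∧
    (κ.2 = 0 → (pvC κ).1 = !κ.1 ∧ up κ = false ∧ (pvC κ).2 = 3) ∧
    (¬κ.2 = 0 → (pvC κ).1 = κ.1 ∧ ¬(pvC κ).2 = 3) := by
  revert κ
  decide

lemma Mach.has_next {A : Mach} {s : Sta} (hs : A.Val N s)
    (h : s.1.2 = 3 → s.2.1 = RR N + 1 → ∃ w, A.Edge (!s.1.1) s.2.2.2 w) : ∃ t, A.LNx N s t := by
  obtain ⟨κ, j, w, w'⟩ := s
  have hj : j ≤ RR N + 1 := hs.1
  by_cases h1 : j = posB N (up κ)
  · by_cases h2 : κ.2 = 3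
    · obtain ⟨h3, h4⟩ := (YStB_nx κ).1 h2
      obtain ⟨v, hv⟩ := h h2 (by rw [h4] at h1; exact h1)
      refine ⟨(nxC κ, posB N (!up (nxC κ)), w', v), hs, ⟨YStB_pos N _, ?_⟩, ?_⟩
      · rw [← h3] at hv
        exact hv
      · simp only [if_pos h1, if_pos h2, and_self]
    · refine ⟨(nxC κ, posB N (!up (nxC κ)), w, w'), hs, ⟨YStB_pos N _, ?_⟩, ?_⟩
      · have h3 := hs.2
        rw [← (YStB_nx κ).2 h2] at h3
        exact h3
      · simp only [if_pos h1, if_neg h2, and_self]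
  · refine ⟨(κ, if up κ then j + 1 else j - 1, w, w'), hs, ⟨?_, hs.2⟩, ?_⟩
    · cases hu : up κ <;> simp [hu, posB] at h1 ⊢ <;> omega
    · simp only [if_neg h1, and_self]

lemma Mach.has_prev {A : Mach} {s : Sta} (hs : A.Val N s)
    (h : s.1.2 = 0 → s.2.1 = RR N + 1 → ∃ w, A.Edge (!s.1.1) w s.2.2.1) : ∃ t, A.LNx N t s := by
  obtain ⟨κ, j, w, w'⟩ := s
  have hj : j ≤ RR N + 1 := hs.1
  obtain ⟨e0, e1, e2⟩ := YStB_pv κ
  by_cases h1 : j = posB N (!up κ)
  · by_cases h2 : κ.2 = 0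
    · obtain ⟨h3, h4, h5⟩ := e1 h2
      obtain ⟨v, hv⟩ := h h2 (by rw [h4] at h1; exact h1)
      refine ⟨(pvC κ, posB N (up (pvC κ)), v, w), ⟨YStB_pos N _, ?_⟩, hs, ?_⟩
      · rw [← h3] at hv
        exact hv
      · simp only [if_true, if_pos h5, e0, and_true, true_and]
        exact h1
    · obtain ⟨h3, h5⟩ := e2 h2
      refine ⟨(pvC κ, posB N (up (pvC κ)), w, w'), ⟨YStB_pos N _, ?_⟩, hs, ?_⟩
      · have h4 := hs.2
        rw [← h3] at h4
        exact h4
      · simp only [if_true, if_neg h5, e0, and_true, true_and]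
        exact h1
  · refine ⟨(κ, if up κ then j - 1 else j + 1, w, w'), ⟨?_, hs.2⟩, hs, ?_⟩
    · cases hu : up κ <;> simp [hu, posB] at h1 ⊢ <;> omega
    · have h2 : ¬(if up κ then j - 1 else j + 1) = posB N (up κ) := by
        cases hu : up κ <;> simp [hu, posB] at h1 ⊢ <;> omega
      simp only [if_neg h2, true_and]
      cases hu : up κ <;> simp [hu, posB] at h1 ⊢ <;> omega

lemma rel_stk_eq (h1 : cx.Rel χ κ j Θ) (σ : Slot) (b : Fin 5) (n : ℕ) :
    (fun x => ext (Θ x) (.inl (σ, b)) n) = stk (cx.baseT χ Θ κ σ b) (hgt N κ j σ) n := by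
  have h2 : hgt N κ j σ ≤ RR N + 1 := by
    unfold hgt
    split_ifs
    exacts [h1.le, le_rfl, Nat.zero_le _]
  suffices H : ∀ k n, RR N + 2 ≤ n + k →
      (fun x => ext (Θ x) (.inl (σ, b)) n) = stk (cx.baseT χ Θ κ σ b) (hgt N κ j σ) n from
    H (RR N + 2) n (Nat.le_add_left _ _)
  intro k
  induction k with
  | zero =>
    intro n hn
    funext x
    rw [ext, dif_neg (by omega), stk, if_neg (by omega)]
    rfl
  | succ k ih =>
    intro n hn
    funext x
    rw [h1.stk, ih (n + 1) (by omega), stk, stk]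
    rcases lt_trichotomy (n + 1) (hgt N κ j σ) with h3 | h3 | h3
    · rw [if_pos h3, if_neg h3.ne, if_pos (by omega), add_zero,
        show hgt N κ j σ - 1 - n = hgt N κ j σ - 1 - (n + 1) + 1 by omega,
        Function.iterate_succ_apply']
    · rw [if_neg (by omega), if_pos h3, if_pos (by omega), Aop_zero,
        show hgt N κ j σ - 1 - n = 0 by omega, Function.iterate_zero_apply, Pi.zero_apply, zero_add]
    · rw [if_neg (by omega), if_neg h3.ne', if_neg (by omega), Aop_zero, add_zero]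

lemma YStB_top (h1 : cx.Rel χ κ j Θ) {σ : Slot} (hσ : hgt N κ j σ = RR N + 1) (b : Fin 5)
    (y : XX M N) : Cx.top Θ σ b y = Aop^[RR N] (cx.baseT χ Θ κ σ b) (tw (-sh N σ) y) := by
  have h2 := congrFun (rel_stk_eq h1 σ b 0) (tw (-sh N σ) y)
  rw [hσ, stk, if_pos (Nat.succ_pos _)] at h2
  exact (ext_val (Θ (tw (-sh N σ) y)) (.inl (σ, b)) 0).symm.trans h2

lemma YStB_out (h : cx.Ok χ d) (h1 : cx.Rel χ κ j Θ) {σ : Slot} (hσ : hgt N κ j σ = RR N + 1)
    (hd : ∀ b, DepB (bn (ing σ) b) (Cx.top Θ (src κ σ) b)) (b : Fin 5) :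
    Cx.top Θ σ b = cx.outF χ σ.1 (ing σ) b fun b' i =>
      coef χ (Cx.top Θ (src κ σ) b') (cx.al (ing σ) b' i) := by
  funext y
  rw [YStB_top h1 hσ]
  refine (chain h σ.1 (ing σ) b hd _).trans ?_
  rw [tw_tw, sh, add_neg_cancel, tw_zero]

lemma YStB_enc (h : cx.Ok χ d) (h1 : cx.Rel χ κ j Θ) {σ : Slot} (hσ : hgt N κ j σ = RR N + 1)
    {w : List Bool} (hw : cx.A.ok (ing σ) w)
    (hd : ∀ b, Cx.top Θ (src κ σ) b = cx.encB χ (ing σ) b (bitv p w)) (b : Fin 5) :
    Cx.top Θ σ b = cx.encB χ (!ing σ) b (bitv p (cx.A.step σ.1 w)) := by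
  funext y
  rw [YStB_top h1 hσ, ← outF_ok h σ.1 b hw]
  have h2 : cx.baseT χ Θ κ σ b = fun y => cx.psi χ σ.1 (ing σ) b
      (fun b' => cx.encB χ (ing σ) b' (bitv p w)) (tw (lo N (ing σ)) y) := by
    funext y
    rw [Cx.baseT, funext hd]
  rw [h2, chain_enc h, tw_tw, sh, add_neg_cancel, tw_zero]

theorem St_of_rel (h : cx.Ok χ d) (h1 : cx.Rel χ κ j Θ) :
    ∃ w w', cx.A.Val N (κ, j, w, w') ∧ Θ = cx.St χ (κ, j, w, w') := by
  obtain ⟨π, ph⟩ := κ
  have g1 : ∀ dir, hgt N (π, ph) j (dir, π) = RR N + 1 := fun dir => by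
    cases π <;> simp [hgt, act, full]
  have i1 : ∀ b, DepB (bn π b) (Cx.top Θ (false, π) b) := fun b => by
    simpa [ing] using h1.inv false b
  have i2 : ∀ b, DepB (bn (!π) b) (Cx.top Θ (true, π) b) := fun b => h1.inv true b
  have s1 : src (π, ph) (true, π) = (false, π) := by simp [src]
  have s2 : src (π, ph) (false, π) = (true, π) := by simp [src]
  obtain ⟨w, w', he, e1, e2⟩ := pair_edge h i1 i2
    (fun b => by
      have h2 := YStB_out h h1 (g1 true) (by rw [s1]; exact i1) b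
      rwa [s1] at h2)
    (fun b => by
      have h2 := YStB_out h h1 (g1 false) (by rw [s2]; exact i2) b
      rwa [s2] at h2)
  have t1 : ph = 0 → ∀ b, Cx.top Θ (false, !π) b =
      cx.encB χ (!π) b (bitv p (cx.A.step false w)) := by
    rintro rfl b
    have h2 : ing (false, !π) = π := by simp [ing]
    have h3 := YStB_enc h h1 (σ := (false, !π)) (w := w) (by cases π <;> simp [hgt, act, full])
      (by rw [h2]; exact he.1) (fun b => by
        rw [h2, ← e1]
        cases π <;> rfl) b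
    rwa [h2] at h3
  have t2 : ph = 3 → ∀ b, Cx.top Θ (true, !π) b =
      cx.encB χ π b (bitv p (cx.A.step true w')) := by
    rintro rfl b
    have h2 : ing (true, !π) = !π := rfl
    have h3 := YStB_enc h h1 (σ := (true, !π)) (w := w') (by cases π <;> simp [hgt, act, full])
      he.2.1 (fun b => by
        rw [h2, ← e2]
        cases π <;> rfl) b
    rwa [h2, Bool.not_not] at h3
  have key : ∀ σ b, Cx.top Θ (src (π, ph) σ) b =
      cx.encB χ (ing σ) b (bitv p (cx.A.msg ((π, ph), j, w, w') σ)) := by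
    rintro ⟨dir, q⟩ b
    by_cases hq : q = π
    · subst hq
      cases dir
      · simpa [src, ing, Mach.msg] using e2 b
      · simpa [src, ing, Mach.msg] using e1 b
    · obtain rfl : q = !π := by cases q <;> cases π <;> simp_all
      cases dir
      · by_cases h3 : ph = 3
        · simpa [src, ing, Mach.msg, h3] using t2 h3 b
        · simpa [src, ing, Mach.msg, h3] using e1 b
      · by_cases h3 : ph = 0
        · simpa [src, ing, Mach.msg, h3] using t1 h3 b
        · simpa [src, ing, Mach.msg, h3] using e2 b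
  refine ⟨w, w', ⟨h1.le, he⟩, ?_⟩
  funext x ⟨r, n⟩
  rcases r with ⟨σ, b⟩ | _ | _
  · have h2 : cx.baseT χ Θ (π, ph) σ b = cx.base χ σ b (cx.A.msg ((π, ph), j, w, w') σ) := by
      funext y
      rw [Cx.baseT, funext (key σ), Cx.base]
    rw [← ext_val (Θ x), congrFun (rel_stk_eq h1 σ b n) x, h2]
    rfl
  · exact h1.mu x n
  · exact h1.ctl x n

theorem mid_of_relE (h : cx.Ok χ d) {s : Sta} (hs : cx.A.Val N s)
    (h2 : Cx.RelE s.1 s.2.1 (cx.St χ s)) : (∃ t, cx.A.LNx N t s) ∧ ∃ t, cx.A.LNx N s t := by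
  obtain ⟨⟨π, ph⟩, j, w, w'⟩ := s
  have hl : ∀ dir v, (cx.A.step dir v).length = cx.A.k := fun dir v => by
    rw [Mach.step, List.length_map, (h.start.1.1 dir).1]
  have he : cx.A.Edge π w w' := hs.2
  refine ⟨Mach.has_prev hs ?_, Mach.has_next hs ?_⟩
  · rintro (rfl : ph = 0) (rfl : j = RR N + 1)
    have h3 : Cx.top (cx.St χ ((π, 0), RR N + 1, w, w')) (true, !π) 0 =
        Cx.top (cx.St χ ((π, 0), RR N + 1, w, w')) (false, π) 0 :=
      funext fun y => h2 rfl true 0 rfl _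
    rw [top_full h (by simp [hgt, act]), top_pair h hs false] at h3
    have h4 : cx.A.msg ((π, 0), RR N + 1, w, w') (true, !π) = cx.A.step false w := by
      simp [Mach.msg]
    rw [h4] at h3
    obtain ⟨h5, h6⟩ := ok_of_outF h (hl _ _) he.1.1 h3
    exact ⟨_, h5, by rw [Bool.not_not]; exact he.1, h6, rfl⟩
  · rintro (rfl : ph = 3) (rfl : j = RR N + 1)
    have h3 : Cx.top (cx.St χ ((π, 3), RR N + 1, w, w')) (false, !π) 0 =
        Cx.top (cx.St χ ((π, 3), RR N + 1, w, w')) (true, π) 0 := by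
      funext y
      have h4 : sh N (false, !π) = sh N (true, π) := by simp [sh, ing]
      rw [Cx.top, h4]
      exact h2 rfl false 0 rfl _
    rw [top_full h (by simp [hgt, act]), top_pair h hs true] at h3
    have h4 : cx.A.msg ((π, 3), RR N + 1, w, w') (false, !π) = cx.A.step true w' := by
      simp [Mach.msg]
    have h7 : ing (false, !π) = π := by simp [ing]
    rw [h4, h7] at h3
    obtain ⟨h5, h6⟩ := ok_of_outF h (hl _ _) he.2.1.1 h3
    exact ⟨_, he.2.1, by rw [Bool.not_not]; exact h5, rfl, h6⟩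

end Vale.Agent.P330
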