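import Vale.Agent.P330.YStA

/-! The local update rules compute neighbours. -/

namespace Vale.Agent.P330

variable {M p c N : ℕ} [Fact M.Prime] [Fact p.Prime] [NeZero N] [NeZero c] {J : Type}
  [Fintype J] {χ : AddChar (ZMod M) (ZMod p)} {cx : Cx M p c N J} {d : ℕ}
  {κ κ' : Ctl} {j : ℕ} {w w' : List Bool} {s t : Sta}

omit [NeZero N] in
lemma YUpd_ext (a : CC N → ZMod p) (r : Row) (m : ℕ) (v : ZMod p) :
    ∑ n : Fin (RR N + 2), a (r, n) * (if n.val = m then v else 0) = ext a r m * v := by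
  unfold ext
  split_ifs with hm
  · rw [Finset.sum_eq_single ⟨m, hm⟩ (fun n _ hn => by
      rw [if_neg fun h => hn (Fin.ext h), mul_zero]) (by simp), if_pos rfl]
  · rw [zero_mul]
    exact Finset.sum_eq_zero fun n _ => by rw [if_neg (by omega), mul_zero]

lemma YUpd_stk0 (φ : XX M N → ZMod p) (j : ℕ) (x : XX M N) :
    stk φ (j + 1) 0 x = Aop (stk φ j 0) x + (if j = 0 then 1 else 0) * φ x := by
  rcases j with _ | j
  · simp [stk, Aop_zero]
  · simp [stk, Function.iterate_succ_apply']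

omit [NeZero N] in
lemma YUpd_stk1 (φ : XX M N → ZMod p) (j n : ℕ) : stk φ (j + 1) (n + 1) = stk φ j n := by
  simp only [stk, Nat.add_lt_add_iff_right, show j + 1 - 1 - (n + 1) = j - 1 - n by omega]

omit [NeZero c] [Fintype J] in
lemma YUpd_mov (x : XX M N) {r : Row} (hr : mov (act κ) r = true) (n : ℕ) :
    cx.StR χ (κ, j + 1, w, w') x r (n + 1) = cx.StR χ (κ, j, w, w') x r n := by
  rcases r with ⟨σ, b⟩ | _ | _
  · obtain rfl : σ = act κ := by simpa [mov] using hr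
    simp only [Cx.StR, hgt, if_true, YUpd_stk1]
    rfl
  · simp [Cx.StR]
  · simp [mov] at hr

omit [NeZero c] [Fintype J] in
lemma YUpd_fix (x : XX M N) {r : Row} (hr : ¬mov (act κ) r = true) (j j' n : ℕ) :
    cx.StR χ (κ, j, w, w') x r n = cx.StR χ (κ, j', w, w') x r n := by
  rcases r with ⟨σ, b⟩ | _ | _
  · have h : σ ≠ act κ := by simpa [mov] using hr
    simp only [Cx.StR, hgt, if_neg h]
    rfl
  · simp [mov] at hr
  · rfl

lemma YUpd_gam (h : cx.Ok χ d) (s : Sta) (z : PP M p c N) :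
    gam (cx.rh χ (cx.St χ s) z) = s.1 := gam_rh h.hp rfl

lemma YUpd_mu (hs : s.2.1 ≤ RR N + 1) (z : PP M p c N) (top : Bool) :
    muB (cx.rh χ (cx.St χ s) z) top = 1 ↔ s.2.1 = posB N top := by
  rw [muB_rh hs fun _ => rfl]
  split_ifs with h
  · exact iff_of_true rfl h
  · exact iff_of_false zero_ne_one h

theorem pushv_St (h : cx.Ok χ d) (hs : cx.A.Val N (κ, j, w, w')) (hj : j ≤ RR N)
    (z : PP M p c N) :
    pushv (cx.tab χ z) (cx.rh χ (cx.St χ (κ, j, w, w')) z) κ = cx.wd χ (κ, j + 1, w, w') z := by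
  let E : Fin 5 → ZMod p := fun b => cx.StR χ (κ, j + 1, w, w') z.1 (.inl (act κ, b)) 0
  let δ : Row → ZMod p := fun r => match r with
    | .inl y => if y.1 = act κ then E y.2 else 0
    | .inr _ => 0
  have h1 : ∀ b, Aval (cx.rh χ (cx.St χ (κ, j, w, w')) z) (pd1 (.inl (act κ, b)) (fK 2) (fK 1)) +
      muB (cx.rh χ (cx.St χ (κ, j, w, w')) z) false *
        basev (cx.tab χ z) (cx.rh χ (cx.St χ (κ, j, w, w')) z) κ (act κ) b = E b := fun b => by
    rw [Aval_at0, muB_rh hs.1 fun _ => rfl, basev_rh, baseT_St h hs (Or.inl rfl)]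
    simp only [E, Cx.St, Cx.StR, hgt, if_true, YUpd_stk0]
    rfl
  have h2 : ∑ b, (cx.tab χ z).1 (.inl (act κ, b)) 0 * E b =
      ∑ y : CC N, z.2.1 y * if y.2.val = 0 then δ y.1 else 0 := by
    rw [Fintype.sum_prod_type]
    simp only [YUpd_ext]
    rw [Fintype.sum_sum_type, Fintype.sum_prod_type, Finset.sum_eq_single (act κ)]
    · simp [δ, Cx.tab]
    · intro σ _ hσ
      simp [δ, hσ]
    · simp
  rw [pushv]
  simp only [h1]
  rw [h2, val_push, ← Finset.sum_add_distrib]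
  refine Finset.sum_congr rfl ?_
  rintro ⟨r, n, hn⟩ _
  rw [← mul_add]
  congr 1
  by_cases hr : mov (act κ) r = true
  · rcases n with _ | n
    · rcases r with ⟨σ, b⟩ | _ | _
      · obtain rfl : σ = act κ := by simpa [mov] using hr
        simp [hr, δ, E, Cx.St]
      · simp [hr, δ, Cx.St, Cx.StR]
      · simp [mov] at hr
    · simp only [hr, if_true, Nat.succ_ne_zero, if_false, add_zero, Nat.add_sub_cancel]
      rw [ext_St hs.1]
      exact (YUpd_mov z.1 hr n).symm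
  · have h3 : δ r = 0 := by
      rcases r with ⟨σ, b⟩ | _
      · have h4 : σ ≠ act κ := by simpa [mov] using hr
        simp [δ, h4]
      · rfl
    simp only [if_neg hr, h3, ite_self, add_zero]
    exact YUpd_fix z.1 hr _ _ _

theorem popv_St (hj : j ≤ RR N) (z : PP M p c N) :
    popv (cx.rh χ (cx.St χ (κ, j + 1, w, w')) z) κ = cx.wd χ (κ, j, w, w') z := by
  rw [popv, val_pop]
  refine Finset.sum_congr rfl fun y _ => ?_
  congr 1
  split_ifs with hr
  · rw [ext_St (Nat.succ_le_succ hj)]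
    exact YUpd_mov z.1 hr _
  · exact YUpd_fix z.1 hr _ _ _

theorem chg_St {top top' : Bool} (hs : s.2.1 = posB N top) (ht : t.2.1 = posB N top')
    (e : ∀ x y n, cx.StR χ s x (.inl y) n = cx.StR χ t x (.inl y) n) (z : PP M p c N) :
    chg (cx.tab χ z) (cx.rh χ (cx.St χ s) z) s.1 t.1 top top' = cx.wd χ t z := by
  have h1 : ∀ b : Bool, (cx.tab χ z).1 (.inr false) (if b then 2 else 0) =
      ext z.2.1 (.inr false) (posB N b) := fun b => by cases b <;> rfl
  have h2 : (cx.tab χ z).1 (.inr true) 0 = ext z.2.1 (.inr true) 0 := rfl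
  rw [chg, own_rh, h1, h1, h2, Cx.wd, hw, hw, Fintype.sum_prod_type, Fintype.sum_prod_type,
    Fintype.sum_sum_type, Fintype.sum_sum_type, Fintype.sum_bool, Fintype.sum_bool]
  simp only [Cx.St, e]
  simp only [Cx.StR, YUpd_ext, hs, ht]
  ring

theorem stR_phase (h : cx.A.LNx N s t) (hs : s.2.1 = posB N (up s.1)) (x : XX M N)
    (y : Slot × Fin 5) (n : ℕ) : cx.StR χ s x (.inl y) n = cx.StR χ t x (.inl y) n := by
  obtain ⟨⟨π, ph⟩, j, w, w'⟩ := s
  obtain ⟨κ', j', v, v'⟩ := t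
  obtain ⟨⟨dir, q⟩, b⟩ := y
  obtain ⟨h1, h2, h3⟩ := h
  rw [if_pos hs] at h3
  obtain ⟨h3, h4, h5⟩ := h3
  have e1 := h1.2.2.2.2
  have e2 := h2.2.2.2.1
  dsimp only at hs h3 h4 h5 e1 e2
  subst hs h3 h4
  fin_cases ph <;> simp at h5
  · obtain ⟨rfl, rfl⟩ := h5
    cases π <;> cases dir <;> cases q <;>
      simp [Cx.StR, hgt, act, full, nxC, up, posB, Mach.msg, stk]
  · obtain ⟨rfl, rfl⟩ := h5
    cases π <;> cases dir <;> cases q <;>
      simp [Cx.StR, hgt, act, full, nxC, up, posB, Mach.msg, stk]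
  · obtain ⟨rfl, rfl⟩ := h5
    cases π <;> cases dir <;> cases q <;>
      simp [Cx.StR, hgt, act, full, nxC, up, posB, Mach.msg, stk]
  · subst h5
    cases π <;> cases dir <;> cases q <;>
      simp [Cx.StR, hgt, act, full, nxC, up, posB, Mach.msg, stk, e1, e2]

theorem suc_St (h : cx.Ok χ d) (hst : cx.A.LNx N s t) (z : PP M p c N) :
    sucF (cx.tab χ z) (cx.rh χ (cx.St χ s) z) = cx.wd χ t z := by
  have h1 := hst.2.2
  rw [sucF, YUpd_gam h]
  by_cases hs : s.2.1 = posB N (up s.1)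
  · rw [if_pos hs] at h1
    rw [if_pos ((YUpd_mu hst.1.1 z _).2 hs), ← h1.1]
    exact chg_St hs h1.2.1 (stR_phase hst hs) z
  · rw [if_neg hs] at h1
    rw [if_neg fun h2 => hs ((YUpd_mu hst.1.1 z _).1 h2)]
    obtain ⟨κ, j, w, w'⟩ := s
    obtain ⟨κ', j', v, v'⟩ := t
    have h2 : j' ≤ RR N + 1 := hst.2.1.1
    have h3 : j ≤ RR N + 1 := hst.1.1
    obtain ⟨h4, h5, h6⟩ := h1
    dsimp only at hs h4 h5 h6 ⊢
    obtain ⟨rfl, rfl⟩ := Prod.mk.inj h5
    subst h4
    by_cases hu : up κ' = true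
    · rw [if_pos hu] at h6 ⊢
      subst h6
      exact pushv_St h hst.1 (by omega) z
    · rw [if_neg hu] at h6 ⊢
      have h7 : j ≠ 0 := by simpa [hu, posB] using hs
      obtain rfl : j = j' + 1 := by omega
      exact popv_St (by omega) z

theorem prd_St (h : cx.Ok χ d) (hst : cx.A.LNx N s t) (z : PP M p c N) :
    prdF (cx.tab χ z) (cx.rh χ (cx.St χ t) z) = cx.wd χ s z := by
  have h1 := hst.2.2
  rw [prdF, YUpd_gam h]
  by_cases hs : s.2.1 = posB N (up s.1)
  · rw [if_pos hs] at h1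
    have h2 : ∀ κ, pvC (nxC κ) = κ := by decide
    have h3 : pvC t.1 = s.1 := by rw [h1.1, h2]
    rw [if_pos ((YUpd_mu hst.2.1.1 z _).2 h1.2.1), h3]
    exact chg_St h1.2.1 hs (fun x y n => (stR_phase hst hs x y n).symm) z
  · rw [if_neg hs] at h1
    obtain ⟨κ, j, w, w'⟩ := s
    obtain ⟨κ', j', v, v'⟩ := t
    have h2 : j' ≤ RR N + 1 := hst.2.1.1
    have h3 : j ≤ RR N + 1 := hst.1.1
    obtain ⟨h4, h5, h6⟩ := h1
    rw [if_neg fun h7 => ?_]
    · dsimp only at hs h4 h5 h6 ⊢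
      obtain ⟨rfl, rfl⟩ := Prod.mk.inj h5
      subst h4
      by_cases hu : up κ' = true
      · rw [if_pos hu] at h6 ⊢
        subst h6
        exact popv_St (by omega) z
      · rw [if_neg hu] at h6 ⊢
        have h7 : j ≠ 0 := by simpa [hu, posB] using hs
        obtain rfl : j = j' + 1 := by omega
        exact pushv_St h hst.2.1 (by omega) z
    · have h8 := (YUpd_mu hst.2.1.1 z _).1 h7
      dsimp only at hs h4 h6 h8
      subst h4
      cases hu : up κ' <;> simp [hu, posB] at h6 h8 <;> omega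

theorem tm_St (h : cx.Ok χ d) (hs : cx.A.Val N s) (z : PP M p c N) :
    tmF (cx.rh χ (cx.St χ s) z) = (tv N s.1.2 s.2.1 : ℕ) := by
  exact tmF_rh h.hp rfl hs.1 fun _ => rfl

theorem tv_next {A : Mach} (hst : A.LNx N s t) :
    ((tv N t.1.2 t.2.1 : ℕ) : ZMod 4) = (tv N s.1.2 s.2.1 : ℕ) + 1 := by
  obtain ⟨⟨π, ph⟩, j, w, w'⟩ := s
  obtain ⟨κ', j', v, v'⟩ := t
  obtain ⟨h1, h2, h3⟩ := hst
  have h4 : j ≤ RR N + 1 := h1.1
  rw [← Nat.cast_succ, ZMod.natCast_eq_natCast_iff']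
  dsimp only at h3 ⊢
  split_ifs at h3 with h5 <;> obtain ⟨rfl, h6, h7⟩ := h3 <;> fin_cases ph <;>
    simp [tv, nxC, up, posB] at * <;> omega

end Vale.Agent.P330
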