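import Vale.Agent.P330.YRelA
import Vale.Agent.P330.YRelB
import Vale.Agent.P330.YStB
import Vale.Agent.P330.YUpd
import Vale.Agent.P330.KNear

/-! The system of a machine is a robust line system. -/

namespace Vale.Agent.P330

lemma YGood_pdZ {p N : ℕ} [Fact p.Prime] [NeZero N] (a : CC N → ZMod p) : pdZ.ev a = 0 := by
  funext z
  simp [PD.ev, pdZ, fK, Fac.ev]

theorem ysound (M : ℕ) [Fact M.Prime] (J : Type) [Fintype J] : ∃ κ : ℝ, 0 < κ ∧
    ∀ (p c N d : ℕ) [Fact p.Prime] [NeZero N] [NeZero c] (χ : AddChar (ZMod M) (ZMod p))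
      (cx : Cx M p c N J), cx.Ok χ d → ∀ (τ : Bool) (m : PP M p c N → ZMod p),
      pr (fun z => ¬(rule χ J (11 * d)).tst τ (cx.tab χ z) ((cx.sys χ).rd m z)) ≤ κ →
      ∃ s, ((∃ t, cx.A.LNx N t s) ∧ ∃ t, cx.A.LNx N s t) ∧ par (tv N s.1.2 s.2.1 : ℕ) = τ ∧
        pr (fun z => m z ≠ cx.wd χ s z) ≤ 1 / 10 ^ 6 := by
  letI : DecidableEq Row := inferInstance
  letI : Fintype Row := inferInstance
  letI : Fintype Fac := inferInstance
  letI : Fintype PD := inferInstance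
  letI : Fintype (XD M) := inferInstance
  letI : Fintype (QQ M J) := inferInstance
  obtain ⟨n, hn⟩ : ∃ n : ℕ, n = Fintype.card (QQ M J) := ⟨_, rfl⟩
  obtain ⟨η, hη, hη1, hη2⟩ : ∃ η : ℝ, 0 < η ∧ η ≤ 1 / 10 ^ 6 ∧ n * η ≤ 1 / 200 := by
    refine ⟨min (1 / 10 ^ 6) (1 / (200 * ((n : ℝ) + 1))), lt_min (by norm_num) (by positivity),
      min_le_left _ _, (mul_le_mul_of_nonneg_left (min_le_right _ _) n.cast_nonneg).trans ?_⟩
    rw [mul_one_div, div_le_div_iff₀ (by positivity) (by norm_num)]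
    linarith
  obtain ⟨κ, hκ, H⟩ := near_code M hη
  refine ⟨min κ (1 / 200), lt_min hκ (by norm_num), fun p c N d _ _ _ χ cx h τ m hm => ?_⟩
  have hk := hm.trans (min_le_left _ _)
  have hown : ∀ z, own ((cx.sys χ).rd m z) = m z := fun z => by
    show m (cx.xa xd0 z.1 z.2.2, z.2) = m z
    rw [xa_xd0]
  obtain ⟨Θ, S, hS, hΘ, hd⟩ := H p χ (11 * d) (ZMod N) (II N c) (CC N) J (dirs cx.g) cx.sp m
    h.prim (by have := h.hM; omega) h.expd (h.samp.mono (by norm_num))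
    (by
      refine le_trans (pr_mono ?_) hk
      intro z hz ht
      refine hz fun j => ?_
      have h1 := ht.1.rep j
      rw [hown] at h1
      rw [← h1]
      show _ = m (orbF χ (dirs cx.g) 0 _)
      rw [orbF_zero])
    (by
      refine le_trans (pr_mono ?_) hk
      intro z hz ht
      have h1 := ht.1.blr
      rw [hown] at h1
      refine hz (h1.trans ?_)
      show m z + m (cx.xa xd0 z.1 z.2.2, pdZ.ev z.2.1 + z.2.2.2.1, z.2.2.1, z.2.1, z.2.2.2.2) = _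
      rw [xa_xd0, YGood_pdZ, zero_add])
    (by
      refine le_trans (pr_mono ?_) hk
      intro z hz ht
      have h1 : LD χ (11 * d) fun α => m (cx.xa (0, 0, none, α) z.1 z.2.2, z.2) := ht.1.line
      simp only [xa_line] at h1
      exact hz h1)
  have h1 : pr (fun z => ∃ q, m ((cx.sys χ).ad q z) ≠ hw Θ ((cx.sys χ).ad q z)) ≤ n * η := by
    rw [hn]
    exact pr_exists_le' fun q =>
      (pr_equiv ((cx.sys χ).ad q) fun z => m z ≠ hw Θ z).le.trans hd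
  have h2 : pr (fun z => ¬TstB (cx.tab χ z) (cx.rh χ Θ z) τ) ≤ 1 / 100 := by
    have h3 := pr_le_add (A := fun z => ¬TstB (cx.tab χ z) (cx.rh χ Θ z) τ)
      (B := fun z => ¬(rule χ J (11 * d)).tst τ (cx.tab χ z) ((cx.sys χ).rd m z))
      (C := fun z => ∃ q, m ((cx.sys χ).ad q z) ≠ hw Θ ((cx.sys χ).ad q z)) fun z hz => by
        by_contra hc
        rw [not_or, not_not, not_exists] at hc
        have e : (cx.sys χ).rd m z = cx.rh χ Θ z := funext fun q => not_not.1 (hc.2 q)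
        exact hz (e ▸ hc.1.2)
    have h4 := hm.trans (min_le_right _ _)
    linarith
  obtain ⟨κ', j, r1, r2, r3⟩ := rel_of_tst h (hS.trans (hη1.trans (by norm_num))) hΘ h2
  obtain ⟨w, w', hv, rfl⟩ := St_of_rel h r1
  exact ⟨(κ', j, w, w'), mid_of_relE h hv r2, r3, hd.trans hη1⟩

section Aux

variable {M p c N : ℕ} [Fact M.Prime] [Fact p.Prime] [NeZero N] [NeZero c] {J : Type}
  [Fintype J] {χ : AddChar (ZMod M) (ZMod p)} {cx : Cx M p c N J} {d : ℕ}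

lemma YGood_inj (h : cx.Ok χ d) {s t : Sta} (hs : cx.A.Val N s) (ht : cx.A.Val N t)
    (e : cx.wd χ s = cx.wd χ t) : s = t :=
  St_inj h hs ht (hw_inj e)

omit [Fintype J] in
lemma YGood_onL {u : PP M p c N → ZMod p} (hu : OnL (cx.Nx χ) u) :
    ∃ s, cx.A.Val N s ∧ u = cx.wd χ s := by
  rcases hu with ⟨_, s, t, h, _, e⟩ | ⟨_, s, t, h, e, _⟩
  exacts [⟨t, h.2.1, e⟩, ⟨s, h.1, e⟩]

lemma YGood_time (h : cx.Ok χ d) {s : Sta} (hs : cx.A.Val N s) :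
    cx.time χ (cx.wd χ s) = (tv N s.1.2 s.2.1 : ℕ) := tm_St h hs 0

lemma YGood_s0 (h : cx.Ok χ d) : cx.A.LNx N (cx.A.s0 N false) (cx.A.s0 N true) := by
  refine ⟨⟨le_rfl, h.start.2.1⟩, ⟨Nat.le_succ _, h.start.2.1⟩, ?_⟩
  simp [Mach.s0, posB, up]

/-- a predecessor of a state in the first position of phase zero -/
lemma YGood_prev {A : Mach} {s t : Sta} (h : A.LNx N t s) (h0 : s.1.2 = 0)
    (hj : s.2.1 = RR N + 1) : A.Edge (!s.1.1) t.2.2.1 s.2.2.1 := by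
  obtain ⟨⟨π, ph⟩, j, w, w'⟩ := t
  obtain ⟨⟨π', ph'⟩, j', v, v'⟩ := s
  obtain ⟨⟨h1, h2⟩, _, h3⟩ := h
  simp only at h0 hj h1 h2
  subst h0 hj
  split_ifs at h3 with a b c
  · simp only at b
    subst b
    obtain ⟨e1, -, e2⟩ := h3
    simp only [nxC, if_true, Prod.mk.injEq] at e1 e2
    rw [e1.1, e2, Bool.not_not]
    exact h2
  · exfalso
    have := h3.1
    revert b this
    fin_cases ph <;> simp [nxC]
  · obtain ⟨e1, -, -⟩ := h3
    simp only [Prod.mk.injEq] at e1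
    rw [← e1.2] at c
    simp [up] at c
  · have := h3.2.2
    simp only at this
    omega

/-- a successor of a state in the last position of phase three -/
lemma YGood_next {A : Mach} {s t : Sta} (h : A.LNx N s t) (h0 : s.1.2 = 3)
    (hj : s.2.1 = RR N + 1) : A.Edge (!s.1.1) s.2.2.2 t.2.2.2 := by
  obtain ⟨⟨π, ph⟩, j, w, w'⟩ := s
  obtain ⟨⟨π', ph'⟩, j', v, v'⟩ := t
  obtain ⟨_, ⟨_, h2⟩, h3⟩ := h
  simp only at h0 hj h2
  subst h0 hj
  rw [if_pos (by simp [posB, up]), if_pos rfl] at h3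
  obtain ⟨e1, -, e2⟩ := h3
  simp only [nxC, if_true, Prod.mk.injEq] at e1 e2
  rw [← e1.1, ← e2]
  exact h2

end Aux

theorem ygood (M : ℕ) [Fact M.Prime] (J : Type) [Fintype J] : ∃ κ : ℝ, 0 < κ ∧ κ ≤ 1 / 10 ^ 6 ∧
    ∀ (p c N d : ℕ) [Fact p.Prime] [NeZero N] [NeZero c] (χ : AddChar (ZMod M) (ZMod p))
      (cx : Cx M p c N J), cx.Ok χ d →
      Good (rule χ J (11 * d)) (cx.sys χ) κ (1 / 10 ^ 5) (cx.Nx χ) (cx.time χ) := by
  obtain ⟨κ, hκ, H⟩ := ysound M J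
  refine ⟨min κ (1 / 10 ^ 6), lt_min hκ (by norm_num), min_le_right _ _,
    fun p c N d _ _ _ χ cx h => ?_⟩
  have hM : 10000 * (11 * d + 2) ≤ M := by have := h.hM; omega
  refine ⟨fun u v hu hv hne => ?_, ?_, ?_, fun u hu z => ?_, ?_, ⟨_, _, YGood_s0 h, rfl, rfl⟩,
    ?_, ?_, ?_, fun τ m hm => ?_, fun u hu G hG => ?_⟩
  · obtain ⟨s, -, rfl⟩ := YGood_onL hu
    obtain ⟨t, -, rfl⟩ := YGood_onL hv
    exact hw_far h.prim hM (by rw [ZMod.card]; exact h.hp) h.expd (St_cd h s) (St_cd h t)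
      fun e => hne (congrArg hw e)
  · rintro _ _ ⟨s, t, hst, rfl, rfl⟩ z
    exact suc_St h hst z
  · rintro _ _ ⟨s, t, hst, rfl, rfl⟩ z
    exact prd_St h hst z
  · obtain ⟨s, hs, rfl⟩ := YGood_onL hu
    exact (tm_St h hs z).trans (YGood_time h hs).symm
  · rintro _ _ ⟨s, t, hst, rfl, rfl⟩
    rw [YGood_time h hst.1, YGood_time h hst.2.1]
    exact tv_next hst
  · refine (YGood_time h (YGood_s0 h).1).trans ?_
    simp [Mach.s0, tv]
  · rintro _ ⟨s, t, hst, rfl, e⟩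
    obtain rfl := YGood_inj h (YGood_s0 h).1 hst.2.1 e
    exact h.start.2.2 ⟨_, YGood_prev hst rfl rfl⟩
  · rintro _ ⟨⟨_, s', s, h1, rfl, rfl⟩, _, s2, t, h2, e, rfl⟩ z
    obtain rfl := YGood_inj h h1.2.1 h2.1 e
    rw [YGood_time h h2.1]
    exact ⟨tstA_hw (St_cd h s) z, tstB_rel h (St_rel h h2.1) (St_relE h h1 h2) z⟩
  · obtain ⟨s, ⟨⟨t, h1⟩, t', h2⟩, h3, h4⟩ :=
      H p c N d χ cx h τ m (hm.trans (min_le_left _ _))
    refine ⟨cx.wd χ s, ⟨⟨_, t, s, h1, rfl, rfl⟩, _, s, t', h2, rfl, rfl⟩, ?_,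
      h4.trans (by norm_num)⟩
    rw [YGood_time h h2.1]
    exact h3
  · obtain ⟨s, -, rfl⟩ := YGood_onL hu
    have h1 := cor_half h.prim hM h.expd h.samp (St_cd h s) G hG
    refine le_trans (pr_mono ?_) h1
    intro z hz hc
    refine hz fun ρ hρ => ?_
    exact hc (fun z => ρ (.inr (.inr (.inr z)))) fun j α hg => hρ (.inr (.inr (.inr (j, α)))) hg

variable {M p c N : ℕ} [Fact M.Prime] [Fact p.Prime] [NeZero N] [NeZero c] {J : Type}
  [Fintype J] {χ : AddChar (ZMod M) (ZMod p)} {cx : Cx M p c N J} {d : ℕ}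

theorem yend (h : cx.Ok χ d) {u : PP M p c N → ZMod p}
    (hu : EndL (cx.Nx χ) (zw (rule χ J (11 * d)) (cx.sys χ) false) u) :
    ∃ σ, cx.A.End (cx.extW χ u σ) := by
  rcases hu with ⟨⟨_, s', s, h1, rfl, rfl⟩, hn⟩ | ⟨⟨_, s, t, h1, rfl, rfl⟩, hn, hne⟩
  · refine ⟨(true, s.1.1), ?_⟩
    rw [extW_wd h h1.2.1]
    refine Or.inl ⟨s.1.1, s.2.2.1, h1.2.1.2, fun hw' => hn ?_⟩
    obtain ⟨t, ht⟩ := Mach.has_next h1.2.1 fun _ _ => hw'
    exact ⟨_, s, t, ht, rfl, rfl⟩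
  · refine ⟨(false, s.1.1), ?_⟩
    rw [extW_wd h h1.1]
    have key : ¬(s.1.2 = 0 → s.2.1 = RR N + 1 → ∃ w, cx.A.Edge (!s.1.1) w s.2.2.1) := fun hp => by
      obtain ⟨t', ht⟩ := Mach.has_prev h1.1 hp
      exact hn ⟨_, t', s, ht, rfl, rfl⟩
    refine Or.inr ⟨s.1.1, s.2.2.2, h1.1.2, fun hw' => key fun _ _ => hw', fun e => hne ?_⟩
    push Not at key
    obtain ⟨⟨π, ph⟩, j, w, w'⟩ := s
    obtain ⟨k1, k2, -⟩ := key
    have k3 := h1.1.2.2.2.1
    simp only [Prod.mk.injEq, Bool.false_eq_true, if_false] at e k1 k2 k3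
    obtain ⟨rfl, rfl⟩ := e
    subst k1 k2 k3
    rfl

end Vale.Agent.P330
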