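import Vale.Agent.P330.CNet
import Vale.Agent.P330.CDec
import Vale.Agent.P330.CPar
import Vale.Agent.P330.YGood
import Vale.Agent.P330.EqC
import Vale.Agent.P330.Exist
import Vale.Agent.P330.MachF
import Vale.Agent.Lib.PCP.Base

/-! The reduction and the decoder. -/

namespace Vale.Agent.P330

open Vale.Agent.Lib.TM Vale.Agent.Lib.PCP

instance finPD : Fintype PD := inferInstance

instance finQQ (M : ℕ) [NeZero M] (J : Type) [Fintype J] : Fintype (QQ M J) := inferInstance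

instance finGG (p : ℕ) [NeZero p] : Fintype (GG p) :=
  @instFintypeProd _ _ inferInstance (@instFintypeProd _ _ inferInstance
    (@instFintypeProd _ _ inferInstance inferInstance))

lemma bd_k : Bd 0 fun I : EoL => I.norm.mach.k :=
  (CT.bd_length (e := 0) (l := fun I : EoL => I.norm.mach.2.1) ct_mach.snd.fst).of_le fun I => by
    simp [EoL.mach, Mach.k]

theorem pcp_ppad : ∃ (ε δ : ℝ) (p : Polynomial ℕ) (R : EoL → GCirc) (D : EoL × Asg → List Bool),
    0 < ε ∧ ε < 1 ∧ 0 < δ ∧ δ < 1 ∧ CT 0 R ∧ CT 0 D ∧ ∀ I : EoL, I.Valid →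
      (R I).WF ∧ (∃ x, (R I).Acc ε δ p x) ∧ ∀ x, (R I).Acc ε δ p x → I.Sol (D (I, x)) := by
  classical
  obtain ⟨M, p, c, d, _, _, _, χ, hp⟩ := exists_par
  obtain ⟨h0, hcx⟩ := exists_cx hp
  obtain ⟨N, _, cx, hC, hA, hO⟩ := hcx EoL (fun I => I.norm.mach) ct_mach bd_k
  obtain ⟨κ, hκ, hκ', hgood⟩ := ygood M (Fin h0 → Fin 32)
  obtain ⟨h, K, β, hβ, heq⟩ := equil (rule χ (Fin h0 → Fin 32) (11 * d)) (η := 1 / 10 ^ 5) hκ
    (hκ'.trans (by norm_num)) (by norm_num)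
  obtain ⟨hs, hsp⟩ := exists_sp M p c hβ
  obtain ⟨sp, hsa, hsc⟩ := hsp EoL N hC.hN
  obtain ⟨ε, δ, hε, hε', hδ, heq⟩ := heq hs
  obtain ⟨m, nm, G, hm, -, hG, hE⟩ :=
    exists_gadget slf (nodeE (rule χ (Fin h0 → Fin 32) (11 * d)) h hs K) (nodeE_isGate _ _ _ _)
  obtain ⟨K', hK'⟩ := exists_asg hε hε'
  let ad : EoL → Rd (QQ M (Fin h0 → Fin 32)) hs → ℕ → ℕ := fun I q n =>
    cP (rdP ((cx I).sys χ) (sp I) q (dP M p c (N I) n))
  let tb : EoL → ℕ → GG p := fun I n => (cx I).tab χ (dP M p c (N I) n)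
  let u0 : Ver × Bool → ∀ z : EoL × Asg, PP M p c (N z.1) → ZMod p := fun k z y =>
    dcd fun s => z.2.bit (cP y * m + nm (.z k.1 k.2 s))
  let ws : EoL × Asg → List (List Bool) := fun z =>
    (Finset.univ : Finset ((Ver × Bool) × Slot)).toList.flatMap fun k => z.1.norm.cands
      ((cx z.1).extW χ ((corStep (rule χ (Fin h0 → Fin 32) (11 * d)) ((cx z.1).sys χ))^[
        (nP M p c (N z.1)).size] (u0 k.1 z)) k.2)
  have hP := hC.hN.nP M p c
  have hd : PCT (fun z : EoL × ℕ => N z.1) fun z => dP M p c (N z.1) z.2 :=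
    p_dP (hC.hN.comp CT.id.fst) CT.id.snd
  have hm' : (0 : ℝ) < m := by exact_mod_cast hm
  refine ⟨ε, min (δ / m) (1 / 2), Polynomial.C K' * (Polynomial.C m * Polynomial.X + 1),
    fun I => build m (nP M p c (N I)) slf (ad I) (tb I) G, fun z => z.1.pick (ws z), hε,
    by linarith, lt_min (div_pos hδ hm') (by norm_num), (min_le_right _ _).trans_lt (by norm_num),
    ct_build m slf G hP.1 hP.2 (fun q => ?_) ((hC.comp CT.id.fst).tab χ hp.hMp hd), ?_,
    fun I hI => ?_⟩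
  · rcases q with q | j | _
    · exact ((hC.comp CT.id.fst).adF χ q hd).code (hC.hN.comp CT.id.fst)
    · exact hsc j
    · exact hd.code (hC.hN.comp CT.id.fst)
  · refine ct_pick.comp (g := fun z : EoL × Asg => (z.1, ws z)) (CT.id.fst.mk ?_)
    refine ct_flatMapC _ _ fun k => ct_cands.comp (CT.id.fst.mk ?_)
    have h1 := hC.comp (f := fun z : EoL × Asg => z.1) CT.id.fst
    have h2 := hP.1.comp (g := fun z : EoL × Asg => z.1) CT.id.fst
    refine h1.extW χ (h1.iter χ hp.hMp _ (u := u0 k.1) ?_ h2.natSize h2.bd_size) k.2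
    have h3 := (p_dP (M := M) (p := p) (c := c) (h1.hN.comp (f := fun z : (EoL × Asg) × ℕ => z.1)
      CT.id.fst) CT.id.snd).code (h1.hN.comp CT.id.fst)
    refine (FinCT.pi fun s => FinCT.bool ?_).comp dcd
    unfold Asg.bit
    fun_prop
  have hO := hO I (hI.norm_eq.symm ▸ EoL.mach_start hI)
  have hw : (build m (nP M p c (N I)) slf (ad I) (tb I) G).WF :=
    build_wf ((Nat.zero_le _).trans_lt (cP_lt (0 : PP M p c (N I)))) hG (fun _ hn => cP_dP hn)
      fun _ _ _ => cP_lt _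
  refine ⟨hw, ?_, fun x hx => EoL.pick_sol ?_⟩
  · obtain ⟨x, h1, h2, h3⟩ := hK' _ hw
    refine ⟨x, h1, h2.trans ?_, ?_⟩
    · simpa using Nat.mul_le_mul_left K' (Nat.add_le_add_right (build_nodes hG) 1)
    · rw [List.countP_eq_length.2 fun g hg => decide_eq_true (h3 g hg)]
      exact mul_le_of_le_one_left (Nat.cast_nonneg _)
        (sub_le_self _ (lt_min (div_pos hδ hm') (by norm_num)).le)
  have hg := hgood p c (N I) d χ (cx I) hO
  obtain ⟨Gd, h1, h2⟩ := net_cfg _ ((cx I).sys χ) (sp I) (eP M p c (N I)) hG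
    (lt_min (div_pos hδ hm') (by norm_num : (0 : ℝ) < 1 / 2)).le (hE ε) (ad := ad I)
    (fun q z => congrArg (fun y => cP (rdP ((cx I).sys χ) (sp I) q y)) (dP_cP z)) (tb := tb I)
    (fun z => congrArg ((cx I).tab χ) (dP_cP z)) hx.1.in01 hx.2.2
  obtain ⟨ν, τ, u, h3, h4⟩ := heq _ _ _ _ _ _ _ hg (hsa I) h1 (h2.trans (by
    rw [← le_div_iff₀ hm']
    exact min_le_left _ _))
  obtain ⟨σ, h5⟩ := yend hO h3
  rw [hA, hI.norm_eq] at h5
  obtain ⟨v, h6, h7⟩ := EoL.mach_end hI h5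
  refine ⟨v, List.mem_flatMap.2 ⟨((ν, τ), σ), by simp, ?_⟩, h7⟩
  rw [hg.cor_iter (u := u) (by norm_num) (h3.elim (fun a => .inl a.1) fun a => .inr a.1) ?_ ?_,
    hI.norm_eq]
  · exact h6
  · refine le_of_eq_of_le (pr_congr fun z => ?_) h4
    simp only [u0, rnd, hx.1.bit_eq]
    rfl
  · rw [Fintype.card_congr (eP M p c (N I)), Fintype.card_fin]
    exact (Nat.lt_size_self _).le

end Vale.Agent.P330
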