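import Vale.Agent.P330.RLS

/-! The population game on the edges of a line graph. -/

namespace Vale.Agent.P330

/-- The later register among those where `b` holds. -/
def pick (b : Bool → Bool) (ord : Bool) : Option Bool :=
  if b false && b true then some ord else if b true then some true
  else if b false then some false else none

/-- The chosen register, and whether the successor (`true`) or the predecessor edge is output. -/
def choice (I M : Bool → Bool) (ord : Bool) : Option (Bool × Bool) :=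
  match pick I ord with
  | some τ => some (τ, true)
  | none => (pick M ord).map fun τ => (τ, false)

/-- The content of the register `τ` for a choice. -/
def outv {U : Type} (c : Option (Bool × Bool)) (u su pd z : Bool → U) (τ : Bool) : U :=
  match c with
  | none => z τ
  | some (σ, f) => if τ = σ then u σ else if f then su σ else pd σ

lemma Game_pick {b : Bool → Bool} {ord t : Bool} (h1 : b t = true)
    (h2 : b (!t) = true → ord = t) : pick b ord = some t := by
  cases t <;> cases h : b false <;> cases h' : b true <;> simp_all [pick]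

lemma Game_none {b : Bool → Bool} {ord t : Bool} (h1 : b t = false) (h2 : b (!t) = false) :
    pick b ord = none := by
  cases t <;> simp_all [pick]

lemma Game_A {U : Type} {I M : Bool → Bool} {ord t : Bool} (u b a z : Bool → U) (h1 : I t = true)
    (h2 : I (!t) = true → ord = t) : outv (choice I M ord) u b a z t = u t ∧
      outv (choice I M ord) u b a z (!t) = b t := by
  rw [choice, Game_pick h1 h2]
  simp [outv]

lemma Game_B {U : Type} {I M : Bool → Bool} {ord t : Bool} (u b a z : Bool → U)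
    (i1 : I t = false) (i2 : I (!t) = false) (h1 : M t = true) (h2 : M (!t) = true → ord = t) :
    outv (choice I M ord) u b a z t = u t ∧ outv (choice I M ord) u b a z (!t) = a t := by
  rw [choice, Game_none i1 i2, Game_pick h1 h2]
  simp [outv]

lemma Game_C {U : Type} {I M : Bool → Bool} {ord t : Bool} (u b a z : Bool → U)
    (i1 : I t = false) (i2 : I (!t) = false) (h1 : M t = false) (h2 : M (!t) = false) :
    outv (choice I M ord) u b a z = z := by
  rw [choice, Game_none i1 i2, Game_none h1 h2]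
  rfl

lemma Game_par (x : ZMod 4) : par (x + 1) = !par x := by
  revert x
  decide

lemma Game_two (x : ZMod 4) : x ≠ x + 1 + 1 := by
  revert x
  decide

/-- The list of the possible outputs seen from the register `t`. -/
lemma Game_out {U : Type} (I M : Bool → Bool) (ord t : Bool) (u b a z : Bool → U)
    {L : Bool → U} (hL : L = outv (choice I M ord) u b a z) :
    (I t = true ∧ (I (!t) = true → ord = t) ∧ L t = u t ∧ L (!t) = b t) ∨
    (I (!t) = true ∧ (I t = true → ord = !t) ∧ L (!t) = u (!t) ∧ L t = b (!t)) ∨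
    (I t = false ∧ I (!t) = false ∧
      ((M t = true ∧ (M (!t) = true → ord = t) ∧ L t = u t ∧ L (!t) = a t) ∨
      (M (!t) = true ∧ (M t = true → ord = !t) ∧ L (!t) = u (!t) ∧ L t = a (!t)) ∨
      (M t = false ∧ M (!t) = false ∧ L = z))) := by
  subst hL
  have e : (!!t) = t := Bool.not_not t
  have two : ∀ B : Bool → Bool, (B t = true ∧ (B (!t) = true → ord = t)) ∨
      (B (!t) = true ∧ (B t = true → ord = !t)) ∨ (B t = false ∧ B (!t) = false) := by
    intro B
    cases t <;> cases ord <;> cases B false <;> cases B true <;> simp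
  rcases two I with h | h | h
  · exact Or.inl ⟨h.1, h.2, Game_A u b a z h.1 h.2⟩
  · have := Game_A (M := M) u b a z h.1 (by rw [e]; exact h.2)
    rw [e] at this
    exact Or.inr (Or.inl ⟨h.1, h.2, this⟩)
  · refine Or.inr (Or.inr ⟨h.1, h.2, ?_⟩)
    rcases two M with g | g | g
    · exact Or.inl ⟨g.1, g.2, Game_B u b a z h.1 h.2 g.1 g.2⟩
    · have := Game_B u b a z h.2 (by rw [e]; exact h.1) g.1 (by rw [e]; exact g.2)
      rw [e] at this
      exact Or.inr (Or.inl ⟨g.1, g.2, this⟩)
    · exact Or.inr (Or.inr ⟨g.1, g.2, Game_C u b a z h.1 h.2 g.1 g.2⟩)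

lemma Game_edge {U : Type} {Nx : U → U → Prop} {time : U → ZMod 4} {z : Bool → U}
    (ht : ∀ u v, Nx u v → time v = time u + 1) (hz : Nx (z false) (z true))
    (hz0 : time (z false) = 0) {Live : Bool → Prop} {u a b : Bool → U}
    (hL : ∀ τ, Live τ → Nx (a τ) (u τ) ∧ Nx (u τ) (b τ) ∧ par (time (u τ)) = τ)
    {I M : Bool → Bool} (hI : ∀ τ, I τ = true → Live τ) (hM : ∀ τ, M τ = true → Live τ)
    (ord : Bool) {L : Bool → U} (e : L = outv (choice I M ord) u b a z) :
    (Nx (L false) (L true) ∨ Nx (L true) (L false)) ∧ ∀ τ, par (time (L τ)) = τ := by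
  have p1 : ∀ x y, Nx x y → par (time y) = !par (time x) := fun x y h => by
    rw [ht x y h, Game_par]
  have fin : (Nx (L false) (L true) ∨ Nx (L true) (L false)) →
      (par (time (L false)) = false ∨ par (time (L true)) = true) →
      (Nx (L false) (L true) ∨ Nx (L true) (L false)) ∧ ∀ τ, par (time (L τ)) = τ := by
    intro h1 h2
    refine ⟨h1, ?_⟩
    have h3 : par (time (L true)) = !par (time (L false)) := by
      rcases h1 with h | h
      · exact p1 _ _ h
      · rw [p1 _ _ h, Bool.not_not]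
    intro τ
    cases τ <;> rcases h2 with h | h
    · exact h
    · rw [h] at h3
      simpa using h3
    · rw [h3, h]
      rfl
    · exact h
  rcases Game_out I M ord false u b a z e with h | h | ⟨-, -, h | h | h⟩
  · have g := hL _ (hI _ h.1)
    rw [← h.2.2.2, ← h.2.2.1] at g
    exact fin (Or.inl g.2.1) (Or.inl g.2.2)
  · have g := hL _ (hI _ h.1)
    rw [← h.2.2.2, ← h.2.2.1] at g
    exact fin (Or.inr g.2.1) (Or.inr g.2.2)
  · have g := hL _ (hM _ h.1)
    rw [← h.2.2.2, ← h.2.2.1] at g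
    exact fin (Or.inr g.1) (Or.inl g.2.2)
  · have g := hL _ (hM _ h.1)
    rw [← h.2.2.2, ← h.2.2.1] at g
    exact fin (Or.inl g.1) (Or.inr g.2.2)
  · rw [h.2.2] at fin ⊢
    exact fin (Or.inl hz) (Or.inl (by rw [hz0]; rfl))

/-- An equilibrium of the game contains an end of a line. -/
theorem game {U Ver : Type} [Fintype Ver] [Nonempty Ver] {Nx : U → U → Prop} {time : U → ZMod 4}
    {z : Bool → U} (hf : ∀ u v v', Nx u v → Nx u v' → v = v')
    (hi : ∀ u u' v, Nx u v → Nx u' v → u = u') (ht : ∀ u v, Nx u v → time v = time u + 1)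
    (hz : Nx (z false) (z true)) (hz0 : time (z false) = 0) (hzs : ∀ v, ¬Nx v (z false))
    {Live : Bool → Prop} {u a b : Bool → U}
    (hL : ∀ τ, Live τ → Nx (a τ) (u τ) ∧ Nx (u τ) (b τ) ∧ par (time (u τ)) = τ)
    {ord : Bool} (hord : ord = decide (time (u true) = time (u false) + 1))
    {Rb Wb : Bool → ℝ} {N : Ver → Prop} (hN : pr (fun ν => ¬N ν) ≤ 1 / 200)
    {vv ii mm ww : Ver → Bool → Bool} {lab : Ver → Bool → U}
    (hlab : ∀ ν, lab ν = outv (choice (fun τ => vv ν τ && ii ν τ)
      (fun τ => vv ν τ && mm ν τ && ww ν τ) ord) u b a z)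
    (hv : ∀ ν τ, N ν → vv ν τ = true → Live τ)
    (hi1 : ∀ ν τ, N ν → ii ν τ = true → 79 / 100 < Rb τ)
    (hi2 : ∀ ν τ, N ν → 80 / 100 < Rb τ → ii ν τ = true)
    (hm1 : ∀ ν τ, N ν → mm ν τ = true → 60 / 100 < Rb τ)
    (hm2 : ∀ ν τ, N ν → 61 / 100 < Rb τ → mm ν τ = true)
    (hw1 : ∀ ν τ, N ν → ww ν τ = true → 10 / 100 < Wb τ)
    (hw2 : ∀ ν τ, N ν → 11 / 100 < Wb τ → ww ν τ = true)
    (hR1 : ∀ τ, Live τ → pr (fun ν => N ν ∧ lab ν τ = u τ) - 1 / 100 ≤ Rb τ)
    (hR2 : ∀ τ, Live τ → Rb τ ≤ pr (fun ν => N ν ∧ lab ν τ = u τ) + 3 / 100)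
    (hW1 : ∀ τ, Live τ → pr (fun ν => N ν ∧ lab ν τ = u τ ∧ lab ν (!τ) = b τ) - 1 / 100 ≤ Wb τ)
    (hW2 : ∀ τ, Live τ → Wb τ ≤ pr (fun ν => N ν ∧ lab ν τ = u τ ∧ lab ν (!τ) = b τ) + 3 / 100)
    (hC : ∀ τ x, Mid Nx x → par (time x) = τ → 1 / 2 < pr (fun ν => N ν ∧ lab ν τ = x) →
      Live τ ∧ u τ = x ∧ ∀ ν, N ν → vv ν τ = true) :
    ∃ ν τ, N ν ∧ EndL Nx (z false) (lab ν τ) := by
  by_contra hno
  have hvI : ∀ ν τ, N ν → (vv ν τ && ii ν τ) = true → Live τ ∧ 79 / 100 < Rb τ := by
    intro ν τ hν h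
    rw [Bool.and_eq_true] at h
    exact ⟨hv ν τ hν h.1, hi1 ν τ hν h.2⟩
  have hvM : ∀ ν τ, N ν → (vv ν τ && mm ν τ && ww ν τ) = true →
      Live τ ∧ 60 / 100 < Rb τ ∧ 10 / 100 < Wb τ := by
    intro ν τ hν h
    rw [Bool.and_eq_true, Bool.and_eq_true] at h
    exact ⟨hv ν τ hν h.1.1, hm1 ν τ hν h.1.2, hw1 ν τ hν h.2⟩
  have hed : ∀ ν, N ν → (Nx (lab ν false) (lab ν true) ∨ Nx (lab ν true) (lab ν false)) ∧
      ∀ τ, par (time (lab ν τ)) = τ := fun ν hν =>
    Game_edge ht hz hz0 hL (fun τ h => (hvI ν τ hν h).1) (fun τ h => (hvM ν τ hν h).1) ord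
      (hlab ν)
  have hed' : ∀ ν t, N ν → Nx (lab ν t) (lab ν (!t)) ∨ Nx (lab ν (!t)) (lab ν t) := by
    intro ν t hν
    cases t
    · exact (hed ν hν).1
    · exact (hed ν hν).1.symm
  have hmid : ∀ ν τ, N ν → Mid Nx (lab ν τ) ∨ lab ν τ = z false := by
    intro ν τ hν
    by_contra hc
    rw [not_or] at hc
    refine hno ⟨ν, τ, hν, ?_⟩
    by_cases hp : ∃ x, Nx x (lab ν τ)
    · exact Or.inl ⟨hp, fun hs => hc.1 ⟨hp, hs⟩⟩
    · refine Or.inr ⟨?_, hp, hc.2⟩
      rcases hed' ν τ hν with h | h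
      · exact ⟨_, h⟩
      · exact absurd ⟨_, h⟩ hp
  have h2 : ∀ x y, Nx x y → ¬Nx y x := fun x y h1 h2 =>
    Game_two (time x) (by rw [← ht x y h1, ← ht y x h2])
  have hN' : 199 / 200 ≤ pr N := by
    have := pr_not N
    linarith
  have hall : ∀ A : Ver → Prop, (∀ ν, N ν → A ν) → 199 / 200 ≤ pr fun ν => N ν ∧ A ν :=
    fun A h => hN'.trans (pr_mono fun ν hν => ⟨hν, h ν hν⟩)
  obtain ⟨ν0, hν0⟩ : ∃ ν, N ν := exists_of_pr_pos (by linarith)
  have adj : ∀ t, Live t → Live (!t) → 60 / 100 < Rb t → 60 / 100 < Rb (!t) →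
      Nx (u (!ord)) (u ord) := by
    intro t l1 l2 r1 r2
    have l : ∀ τ, 57 / 100 < pr fun ν => N ν ∧ lab ν τ = u τ := by
      intro τ
      have g1 := hR2 t l1
      have g2 := hR2 _ l2
      cases t <;> cases τ <;> simp only [Bool.not_true, Bool.not_false] at * <;> linarith
    have g3 := pr_le_add (A := fun ν => N ν ∧ lab ν true = u true)
      (B := fun ν => N ν ∧ lab ν true = u true ∧ lab ν false = u false)
      (C := fun ν => ¬(N ν ∧ lab ν false = u false)) (by tauto)
    rw [pr_not] at g3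
    obtain ⟨ν, hν, e1, e2⟩ := exists_of_pr_pos
      (A := fun ν => N ν ∧ lab ν true = u true ∧ lab ν false = u false)
      (by linarith [l true, l false])
    have g4 := (hed ν hν).1
    rw [e1, e2] at g4
    rcases g4 with g | g
    · have : ord = true := by rw [hord, ht _ _ g]; simp
      rw [this]
      exact g
    · have : ord = false := by
        rw [hord, ht _ _ g]
        exact decide_eq_false (Game_two _)
      rw [this]
      exact g
  have case1 : ∀ t, Live t → 79 / 100 < Rb t → (Live (!t) → 79 / 100 < Rb (!t) → ord = t) →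
      False := by
    intro t lt rt hlate
    obtain ⟨na, nb, hp⟩ := hL t lt
    have R1 : 76 / 100 < pr fun ν => N ν ∧ lab ν t = u t := by linarith [hR2 t lt]
    have vt := (hC t (u t) ⟨⟨_, na⟩, _, nb⟩ hp (by linarith)).2.2
    have ad1 : Live (!t) → 60 / 100 < Rb (!t) → ord = t → u (!t) = a t := by
      intro l r e
      have g := adj t lt l (by linarith) r
      rw [e] at g
      exact hi _ _ _ g na
    have ad2 : Live (!t) → 60 / 100 < Rb (!t) → ord = (!t) → a (!t) = u t := by
      intro l r e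
      have g := adj t lt l (by linarith) r
      rw [e, Bool.not_not] at g
      exact hi _ _ _ (hL _ l).1 g
    have su : Live (!t) → u (!t) = a t → b (!t) = u t := fun l e =>
      hf _ _ _ (hL _ l).2.1 (e ▸ na)
    have oI : ∀ ν, N ν → (vv ν (!t) && ii ν (!t)) = true → ord = t ∧ u (!t) = a t ∧
        b (!t) = u t := by
      intro ν hν h
      obtain ⟨l, r⟩ := hvI ν _ hν h
      have e := hlate l r
      have e2 := ad1 l (by linarith) e
      exact ⟨e, e2, su l e2⟩
    have allb : (∀ ν, N ν → lab ν t = u t) → ∀ ν, N ν → lab ν t = u t ∧ lab ν (!t) = b t := by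
      intro h ν hν
      have g1 := hall _ h
      have g2 := hi2 ν t hν (by linarith [hR1 t lt])
      rw [hlab ν]
      exact Game_A u b a z (by rw [vt ν hν, g2]; rfl) fun g => (oI ν hν g).1
    by_cases hW : 11 / 100 < Wb t
    · have g1 := allb fun ν hν => by
        rcases Game_out _ _ ord t u b a z (hlab ν) with h | h | ⟨-, -, h | h | h⟩
        · exact h.2.2.1
        · exact h.2.2.2.trans (oI ν hν h.1).2.2
        · exact h.2.2.1
        · obtain ⟨l, r, -⟩ := hvM ν _ hν h.1
          refine h.2.2.2.trans (ad2 l r (h.2.1 ?_))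
          rw [vt ν hν, hm2 ν t hν (by linarith), hw2 ν t hν hW]
          rfl
        · have := h.1
          rw [vt ν hν, hm2 ν t hν (by linarith), hw2 ν t hν hW] at this
          exact absurd this (by decide)
      have g2 := hall _ fun ν hν => (g1 ν hν).2
      have g3 : Mid Nx (b t) := by
        rw [← (g1 ν0 hν0).2]
        refine (hmid ν0 _ hν0).resolve_right fun e => hzs (u t) ?_
        rw [← e, (g1 ν0 hν0).2]
        exact nb
      obtain ⟨l, e, -⟩ := hC (!t) (b t) g3 (by rw [← (g1 ν0 hν0).2]; exact (hed ν0 hν0).2 _)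
        (by linarith)
      have g4 := hR1 _ l
      rw [e] at g4
      have g5 := ad1 l (by linarith) (hlate l (by linarith))
      rw [e] at g5
      exact h2 _ _ na (g5 ▸ nb)
    · have w1 : pr (fun ν => N ν ∧ lab ν t = u t ∧ lab ν (!t) = b t) ≤ 12 / 100 := by
        linarith [hW1 t lt, not_lt.1 hW]
      have fin : ¬∀ ν, N ν → lab ν t = u t := fun h => by
        linarith [hall _ (allb h)]
      have g1 := pr_le_add (A := fun ν => N ν ∧ lab ν t = u t)
        (B := fun ν => N ν ∧ lab ν t = u t ∧ lab ν (!t) = b t)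
        (C := fun ν => N ν ∧ lab ν (!t) = a t ∧ lab ν t = u t) (by
          rintro ν ⟨hν, e⟩
          rcases hed' ν t hν with g | g
          · exact Or.inl ⟨hν, e, hf _ _ _ (e ▸ g) nb⟩
          · exact Or.inr ⟨hν, hi _ _ _ (e ▸ g) na, e⟩)
      have w2 : 64 / 100 < pr fun ν => N ν ∧ lab ν (!t) = a t ∧ lab ν t = u t := by linarith
      obtain ⟨ν1, hν1, e1, e2⟩ := exists_of_pr_pos
        (A := fun ν => N ν ∧ lab ν (!t) = a t ∧ lab ν t = u t) (by linarith)
      have ordc : ord = t ∨ ord = !t := by cases ord <;> cases t <;> simp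
      rcases hmid ν1 (!t) hν1 with hm | hm
      · have w3 : 64 / 100 < pr fun ν => N ν ∧ lab ν (!t) = a t :=
          w2.trans_le (pr_mono fun ν h => ⟨h.1, h.2.1⟩)
        rw [e1] at hm
        obtain ⟨l, e, vt'⟩ := hC (!t) (a t) hm (by rw [← e1]; exact (hed ν1 hν1).2 _)
          (by linarith)
        have g2 := hR1 _ l
        have g3 := hW1 _ l
        rw [Bool.not_not, su l e, e] at g3
        rw [e] at g2
        have g4 := pr_le_add (A := N) (B := fun ν => N ν ∧ lab ν t = u t ∧ lab ν (!t) = b t)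
          (C := fun ν => N ν ∧ lab ν (!t) = a t) (by
            intro ν hν
            rcases Game_out _ _ ord t u b a z (hlab ν) with h | h | ⟨-, -, h | h | h⟩
            · exact Or.inl ⟨hν, h.2.2⟩
            · exact Or.inr ⟨hν, h.2.2.1.trans e⟩
            · exact Or.inr ⟨hν, h.2.2.2⟩
            · exact Or.inr ⟨hν, h.2.2.1.trans e⟩
            · have := h.2.1
              rw [vt' ν hν, hm2 ν _ hν (by linarith), hw2 ν _ hν (by linarith)] at this
              exact absurd this (by decide))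
        refine fin fun ν hν => ?_
        have g5 : (vv ν (!t) && ii ν (!t)) = true := by
          rw [vt' ν hν, hi2 ν _ hν (by linarith)]
          rfl
        rcases Game_out _ _ ord t u b a z (hlab ν) with h | h | ⟨-, h, -⟩
        · exact h.2.2.1
        · exact h.2.2.2.trans (su l e)
        · rw [g5] at h
          exact absurd h (by decide)
      · rw [e1] at hm
        have e3 : u t = z true := hf _ _ _ (hm ▸ na) hz
        have e4 : t = true := by
          rw [← hp, e3, ht _ _ hz, hz0]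
          rfl
        refine fin fun ν hν => ?_
        rcases Game_out _ _ ord t u b a z (hlab ν) with h | h | ⟨-, -, h | h | h⟩
        · exact h.2.2.1
        · exact h.2.2.2.trans (oI ν hν h.1).2.2
        · exact h.2.2.1
        · obtain ⟨l, r, -⟩ := hvM ν _ hν h.1
          rcases ordc with o | o
          · exact absurd ((ad1 l r o).trans hm ▸ (hL _ l).1) (hzs _)
          · exact h.2.2.2.trans (ad2 l r o)
        · rw [h.2.2, e3, e4]
  have later : ∀ A : Bool → Prop, (∃ t, A t) → ∃ t, A t ∧ (A (!t) → ord = t) := by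
    rintro A ⟨t, h⟩
    by_cases h' : A ord
    · exact ⟨ord, h', fun _ => rfl⟩
    · refine ⟨t, h, fun g => absurd ?_ h'⟩
      cases t <;> cases ord <;> assumption
  by_cases c1 : ∃ t, Live t ∧ 79 / 100 < Rb t
  · obtain ⟨t, h, g⟩ := later _ c1
    exact case1 t h.1 h.2 fun l r => g ⟨l, r⟩
  have noI : ∀ ν τ, N ν → (vv ν τ && ii ν τ) ≠ true := fun ν τ hν h => c1 ⟨τ, hvI ν τ hν h⟩
  by_cases c2 : ∃ t, Live t ∧ 60 / 100 < Rb t ∧ 10 / 100 < Wb t
  · obtain ⟨t, ⟨lt, rt, wt⟩, g⟩ := later _ c2
    obtain ⟨na, nb, -⟩ := hL t lt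
    obtain ⟨ν, hν, e1, e2⟩ := exists_of_pr_pos
      (A := fun ν => N ν ∧ lab ν t = u t ∧ lab ν (!t) = b t) (by linarith [hW2 t lt])
    rcases Game_out _ _ ord t u b a z (hlab ν) with h | h | ⟨-, -, h | h | h⟩
    · exact noI ν _ hν h.1
    · exact noI ν _ hν h.1
    · exact h2 _ _ na ((e2.symm.trans h.2.2.2) ▸ nb)
    · have g1 := hvM ν _ hν h.1
      have g2 := adj t lt g1.1 rt g1.2.1
      rw [g g1, ← h.2.2.1, e2] at g2
      exact h2 _ _ nb g2
    · rw [h.2.2] at e1 e2
      cases t
      · exact hzs _ (e1 ▸ na)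
      · exact hzs (u true) (by rw [show z false = b true from e2]; exact nb)
  · have g1 : ∀ ν, N ν → lab ν true = z true := by
      intro ν hν
      rcases Game_out _ _ ord true u b a z (hlab ν) with h | h | ⟨-, -, h | h | h⟩
      · exact absurd h.1 (noI ν _ hν)
      · exact absurd h.1 (noI ν _ hν)
      · exact absurd ⟨_, hvM ν _ hν h.1⟩ c2
      · exact absurd ⟨_, hvM ν _ hν h.1⟩ c2
      · rw [h.2.2]
    have g2 := hall _ g1
    have g3 : Mid Nx (z true) := by
      rw [← g1 ν0 hν0]
      refine (hmid ν0 _ hν0).resolve_right fun e => hzs (z false) ?_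
      rw [g1 ν0 hν0] at e
      exact e ▸ hz
    obtain ⟨l, e, -⟩ := hC true (z true) g3 (by rw [← g1 ν0 hν0]; exact (hed ν0 hν0).2 _)
      (by linarith)
    have g4 := hR1 _ l
    rw [e] at g4
    exact c1 ⟨true, l, by linarith⟩

/-- The output of a version whose decisions are backed by live registers is an edge. -/
theorem outv_edge {U : Type} {Nx : U → U → Prop} {time : U → ZMod 4} {z : Bool → U}
    (ht : ∀ u v, Nx u v → time v = time u + 1) (hz : Nx (z false) (z true))
    (hz0 : time (z false) = 0) {Live : Bool → Prop} {u a b : Bool → U}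
    (hL : ∀ τ, Live τ → Nx (a τ) (u τ) ∧ Nx (u τ) (b τ) ∧ par (time (u τ)) = τ)
    {I M : Bool → Bool} (hI : ∀ τ, I τ = true → Live τ) (hM : ∀ τ, M τ = true → Live τ)
    (ord : Bool) :
    (Nx (outv (choice I M ord) u b a z false) (outv (choice I M ord) u b a z true) ∨
      Nx (outv (choice I M ord) u b a z true) (outv (choice I M ord) u b a z false)) ∧
    ∀ τ, par (time (outv (choice I M ord) u b a z τ)) = τ :=
  Game_edge ht hz hz0 hL hI hM ord rfl

end Vale.Agent.P330
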