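import Vale.Agent.P330.KMix
import Vale.Agent.P330.KBlr

/-! Error reduction and distance for Hadamard codewords. -/

namespace Vale.Agent.P330

open scoped BigOperators

variable {M : ℕ} [Fact M.Prime] {F ι I C J : Type} [Field F] [Fintype F] [Fintype ι]
  [DecidableEq ι] [Fintype I] [Nonempty I] [Fintype C] [DecidableEq C] [Fintype J]
  {χ : AddChar (ZMod M) F} {D : ℕ} {s : I → ι → ZMod M}

lemma orbF_add (α β : ZMod M) (p : Pos M F ι I C) :
    orbF χ s α (orbF χ s β p) = orbF χ s (α + β) p := by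
  simp only [orbF, AddChar.map_add_eq_mul, Prod.mk.injEq, true_and, and_true]
  refine ⟨by module, by module, by module⟩

lemma orbF_zero (p : Pos M F ι I C) : orbF χ s 0 p = p := by
  simp [orbF]

lemma KCor_ex_orb (α : ZMod M) (f : Pos M F ι I C → ℝ) : 𝔼 z, f (orbF χ s α z) = 𝔼 z, f z :=
  ex_equiv ⟨orbF χ s α, orbF χ s (-α), fun z => by rw [orbF_add, neg_add_cancel, orbF_zero],
    fun z => by rw [orbF_add, add_neg_cancel, orbF_zero]⟩ f

lemma KCor_avg_inv (f : Pos M F ι I C → ℝ) (β : ZMod M) (z : Pos M F ι I C) :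
    𝔼 α, f (orbF χ s α (orbF χ s β z)) = 𝔼 α, f (orbF χ s α z) := by
  simp only [orbF_add]
  exact ex_equiv (Equiv.addRight β) fun α => f (orbF χ s α z)

lemma KCor_ex_avg (f φ : Pos M F ι I C → ℝ) (hφ : ∀ α z, φ (orbF χ s α z) = φ z) :
    𝔼 z, (𝔼 α, f (orbF χ s α z)) * φ z = 𝔼 z, f z * φ z := by
  have e : ∀ z, (𝔼 α, f (orbF χ s α z)) * φ z = 𝔼 α, f (orbF χ s α z) * φ (orbF χ s α z) := by
    intro z
    simp only [hφ]
    exact Finset.expect_mul _ _ _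
  simp only [e]
  rw [ex_comm]
  simp only [fun α => KCor_ex_orb (χ := χ) (s := s) α fun z => f z * φ z]
  exact ex_const _

lemma KCor_ex2 (f : (ι → ZMod M) → (C → F) → ℝ) :
    𝔼 z : Pos M F ι I C, f z.1 z.2.1 = 𝔼 x, 𝔼 a, f x a := by
  rw [ex_prod]
  refine Finset.expect_congr rfl fun x _ => ?_
  rw [ex_prod]
  exact Finset.expect_congr rfl fun a _ => ex_const (f x a)

lemma KCor_ex3 (f : Pos M F ι I C → ℝ) : 𝔼 z, f z = 𝔼 x, 𝔼 a, 𝔼 w, f (x, a, w) := by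
  rw [ex_prod]
  exact Finset.expect_congr rfl fun x _ => ex_prod _

lemma KCor_term (u : (ι → ZMod M) → (C → F) → ℝ) {c : F} (hc : c ≠ 0) (t : I → ι → ZMod M) :
    𝔼 z : Pos M F ι I C, u (z.1 + t z.2.2.1) (z.2.1 + c • z.2.2.2.1) * u z.1 z.2.1 =
      𝔼 i, 𝔼 x, (𝔼 a, u x a) * 𝔼 a, u (x + t i) a := by
  rw [KCor_ex3, ex_comm (fun i x => (𝔼 a, u x a) * 𝔼 a, u (x + t i) a)]
  refine Finset.expect_congr rfl fun x _ => ?_
  have e : ∀ a : C → F, 𝔼 w : I × (C → F) × (ι → ZMod M), u (x + t w.1) (a + c • w.2.1) * u x a =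
      𝔼 i, u x a * 𝔼 r, u (x + t i) r := by
    intro a
    rw [ex_prod]
    refine Finset.expect_congr rfl fun i _ => ?_
    rw [ex_prod, ← ex_equiv ((MulAction.toPerm (Units.mk0 c hc)).trans (Equiv.addLeft a))
      (u (x + t i)), ← ex_mul]
    refine Finset.expect_congr rfl fun r _ => (ex_const (u (x + t i) (a + c • r) * u x a)).trans ?_
    rw [mul_comm]
    rfl
  simp only [e]
  rw [ex_comm]
  exact Finset.expect_congr rfl fun i _ => (Finset.expect_mul _ _ _).symm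

lemma KCor_corr (hχ : χ.IsPrimitive) (hE : Expd s lam0) (Z : (ι → ZMod M) → (C → F) → Prop)
    {μ : ℝ} (hμ : μ = 𝔼 x, 𝔼 a, ind (Z x a)) :
    𝔼 z : Pos M F ι I C, (𝔼 α, ind (Z (orbF χ s α z).1 (orbF χ s α z).2.1)) ^ 2 ≤
      μ / M + μ ^ 2 + lam0 * μ := by
  have hl : 0 ≤ lam0 := by unfold lam0; positivity
  have h1 := KCor_ex_avg (χ := χ) (s := s) (fun z : Pos M F ι I C => ind (Z z.1 z.2.1))
    (fun z => 𝔼 α, ind (Z (orbF χ s α z).1 (orbF χ s α z).2.1))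
    fun β z => KCor_avg_inv (fun z : Pos M F ι I C => ind (Z z.1 z.2.1)) β z
  simp only [sq]
  rw [h1]
  simp only [← ex_mul]
  rw [ex_comm]
  have h2 : ∀ α : ZMod M, 𝔼 z : Pos M F ι I C, ind (Z z.1 z.2.1) *
      ind (Z (orbF χ s α z).1 (orbF χ s α z).2.1) ≤
      μ * ind (α = 0) + 𝔼 i, 𝔼 x, (𝔼 a, ind (Z x a)) * 𝔼 a, ind (Z (x + α • s i) a) := by
    intro α
    have h3 : 0 ≤ 𝔼 i, 𝔼 x, (𝔼 a, ind (Z x a)) * 𝔼 a, ind (Z (x + α • s i) a) :=
      ex_nonneg fun i => ex_nonneg fun x => mul_nonneg (pr_nonneg _) (pr_nonneg _)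
    by_cases hα : α = 0
    · rw [ind_pos hα, mul_one, hμ, ← KCor_ex2 (I := I)]
      refine le_add_of_le_of_nonneg (ex_mono fun z => ?_) h3
      exact mul_le_of_le_one_right (ind_nonneg _) (ind_le_one _)
    · have hc : χ α - 1 ≠ 0 := sub_ne_zero.2 fun h =>
        hα (chi_inj hχ (h.trans (AddChar.map_zero_eq_one χ).symm))
      rw [ind_neg hα, mul_zero, zero_add,
        ← KCor_term (fun x a => ind (Z x a)) hc fun i => α • s i]
      exact (Finset.expect_congr rfl fun z _ => mul_comm _ _).le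
  refine (ex_mono h2).trans ?_
  have h4 : 𝔼 α : ZMod M, ind (α = 0) = 1 / M := by
    refine (pr_eq_card fun α : ZMod M => α = 0).trans ?_
    rw [ZMod.card, Finset.card_eq_one.2 ⟨0, by ext; simp⟩, Nat.cast_one]
  have h5 := mix_corr hE hl fun x => 𝔼 a, ind (Z x a)
  have h6 : 𝔼 x, (𝔼 a, ind (Z x a)) ^ 2 ≤ μ := by
    rw [hμ]
    refine ex_mono fun x => ?_
    have h7 : 0 ≤ 𝔼 a, ind (Z x a) := pr_nonneg _
    have h8 : 𝔼 a, ind (Z x a) ≤ 1 := pr_le_one _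
    nlinarith
  have h7 : 𝔼 α : ZMod M, 𝔼 i, 𝔼 x, (𝔼 a, ind (Z x a)) * 𝔼 a, ind (Z (x + α • s i) a) =
      𝔼 i, 𝔼 x, (𝔼 a, ind (Z x a)) * 𝔼 α : ZMod M, 𝔼 a, ind (Z (x + α • s i) a) := by
    rw [ex_comm]
    refine Finset.expect_congr rfl fun i _ => ?_
    rw [ex_comm]
    exact Finset.expect_congr rfl fun x _ => ex_mul _ _
  rw [ex_add, ex_mul, h4, h7]
  rw [← hμ] at h5
  have h8 := mul_le_mul_of_nonneg_left h6 hl
  rw [mul_one_div, ← sq]
  linarith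

lemma KCor_LD {Θ : (ι → ZMod M) → C → F} (hΘ : Cd χ D s (fun _ => True) Θ) (z : Pos M F ι I C) :
    LD χ (D + 1) fun α => hw Θ (orbF χ s α z) := by
  refine LD.sum Finset.univ fun c _ => ?_
  have h1 : LD χ 1 fun α : ZMod M => χ (0 + α * 1) := LD.chi ⟨1, by simp, by simp⟩ 0
  have h2 := ((LD.const (z.2.1 c - z.2.2.2.1 c)).add (h1.smul (z.2.2.2.1 c))).mul
    (LD.pi_iff.1 (hΘ z.2.2.1 trivial z.1) c)
  rw [add_comm 1 D] at h2
  have e : (fun α => (orbF χ s α z).2.1 c * Θ (orbF χ s α z).1 c) = fun α : ZMod M =>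
      (z.2.1 c - z.2.2.2.1 c + z.2.2.2.1 c • χ (0 + α * 1)) • Θ (z.1 + α • s z.2.2.1) c := by
    funext α
    simp only [orbF, Pi.add_apply, Pi.smul_apply, smul_eq_mul, zero_add, mul_one]
    ring
  rw [e]
  exact h2

theorem cor_half (hχ : χ.IsPrimitive) (hM : 10000 * (D + 2) ≤ M) (hE : Expd s lam0)
    {π : J → Equiv.Perm (I × (C → F) × (ι → ZMod M))} (hπ : Samp (1 / 256) π)
    {Θ : (ι → ZMod M) → C → F} (hΘ : Cd χ D s (fun _ => True) Θ) (G : Pos M F ι I C → Prop)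
    (hG : pr (fun z => ¬G z) ≤ 1 / 10 ^ 5) :
    pr (fun z : Pos M F ι I C => ¬∀ ρ : J × ZMod M → F,
      (∀ j α, G (orbF χ s α (z.1, z.2.1, π j z.2.2)) →
        ρ (j, α) = hw Θ (orbF χ s α (z.1, z.2.1, π j z.2.2))) → corF χ D ρ = hw Θ z) ≤
      pr (fun z => ¬G z) / 2 := by
  have hJ : Nonempty J := by
    by_contra h
    have : IsEmpty J := not_nonempty_iff.1 h
    have h1 := hπ fun _ => 1
    simp only [Finset.univ_eq_empty, Finset.expect_empty, ex_const] at h1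
    norm_num at h1
  obtain ⟨e, he⟩ : ∃ e, e = pr fun z => ¬G z := ⟨_, rfl⟩
  rw [← he] at hG ⊢
  have he0 : 0 ≤ e := he ▸ pr_nonneg _
  obtain ⟨Bad, hBad⟩ : ∃ Bad : Pos M F ι I C → Prop,
      ∀ z, Bad z ↔ 1 / 4 ≤ 𝔼 α, ind (¬G (orbF χ s α z)) := ⟨_, fun _ => Iff.rfl⟩
  have hinv : ∀ β z, ind (Bad (orbF χ s β z)) = ind (Bad z) := fun β z => ind_congr (by
    rw [hBad, hBad, KCor_avg_inv fun z => ind (¬G z)])
  have a1 : pr Bad ≤ 4 * e := by
    have h1 := markov (f := fun z : Pos M F ι I C => 𝔼 α, ind (¬G (orbF χ s α z)))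
      (fun z => pr_nonneg _) (t := 1 / 4) (by norm_num)
    have h2 := KCor_ex_avg (χ := χ) (s := s) (fun z : Pos M F ι I C => ind (¬G z)) (fun _ => 1)
      fun _ _ => rfl
    simp only [mul_one] at h2
    rw [h2] at h1
    rw [pr_congr hBad, he]
    unfold pr at h1 ⊢
    linarith
  obtain ⟨Z, hZ⟩ : ∃ Z : (ι → ZMod M) → (C → F) → Prop,
      ∀ x a, Z x a ↔ 1 / 4 ≤ 𝔼 w, ind (Bad (x, a, w)) := ⟨_, fun _ _ => Iff.rfl⟩
  obtain ⟨μ, hμ⟩ : ∃ μ, μ = 𝔼 x, 𝔼 a, ind (Z x a) := ⟨_, rfl⟩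
  have hμ0 : 0 ≤ μ := hμ ▸ ex_nonneg fun _ => pr_nonneg _
  have a2 : μ / 4 ≤ 𝔼 z : Pos M F ι I C, ind (Z z.1 z.2.1) * ind (Bad z) := by
    rw [KCor_ex3, hμ, div_eq_inv_mul, ← ex_mul]
    refine ex_mono fun x => ?_
    rw [← ex_mul]
    refine ex_mono fun a => ?_
    refine le_trans ?_ (ex_mul (ind (Z x a)) fun w => ind (Bad (x, a, w))).ge
    by_cases h : Z x a
    · have := (hZ x a).1 h
      rw [ind_pos h]
      linarith
    · rw [ind_neg h]
      simp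
  have a3 : μ ≤ 16 * e := by
    have h1 : 𝔼 z : Pos M F ι I C, ind (Z z.1 z.2.1) * ind (Bad z) ≤ pr Bad :=
      ex_mono fun z => mul_le_of_le_one_left (ind_nonneg _) (ind_le_one _)
    linarith
  have a4 : μ ≤ e / 4 := by
    have h1 := KCor_corr (I := I) hχ hE Z hμ
    rw [← KCor_ex_avg (χ := χ) (s := s) (fun z : Pos M F ι I C => ind (Z z.1 z.2.1))
      (fun z => ind (Bad z)) hinv] at a2
    have h2 : 𝔼 z : Pos M F ι I C, (𝔼 α, ind (Z (orbF χ s α z).1 (orbF χ s α z).2.1)) *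
        ind (Bad z) ≤ 𝔼 z : Pos M F ι I C, (64 * (𝔼 α, ind (Z (orbF χ s α z).1
          (orbF χ s α z).2.1)) ^ 2 + 1 / 256 * ind (Bad z)) := ex_mono fun z => by
      have h3 := ind_sq (Bad z)
      nlinarith [sq_nonneg (8 * (𝔼 α, ind (Z (orbF χ s α z).1 (orbF χ s α z).2.1)) -
        ind (Bad z) / 16)]
    rw [ex_add, ex_mul, ex_mul] at h2
    have h3 : (20000 : ℝ) ≤ M := by exact_mod_cast le_trans (by omega) hM
    have h4 : μ / M ≤ μ / 20000 := div_le_div_of_nonneg_left hμ0 (by norm_num) h3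
    have h5 : μ ^ 2 ≤ 16 / 10 ^ 5 * μ := by nlinarith
    unfold lam0 at h1
    unfold pr at a1
    linarith
  have a5 : pr (fun z : Pos M F ι I C => ¬Z z.1 z.2.1 ∧
      1 / 2 ≤ 𝔼 j, ind (Bad (z.1, z.2.1, π j z.2.2))) ≤ e / 4 := by
    have h1 : ∀ x a, 𝔼 w, ind (¬Z x a ∧ 1 / 2 ≤ 𝔼 j, ind (Bad (x, a, π j w))) ≤
        1 / 16 * 𝔼 w, ind (Bad (x, a, w)) := by
      intro x a
      have h2 := hπ.cheb (by norm_num) (h := fun w => ind (Bad (x, a, w)))
        (fun _ => ind_nonneg _) (fun _ => ind_le_one _) (t := 1 / 4) (by norm_num)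
      refine le_trans (pr_mono fun w hw => ?_) (h2.trans (le_of_eq (by ring)))
      have h3 := not_le.1 fun h => hw.1 ((hZ x a).2 h)
      exact le_trans (by linarith [hw.2]) (le_abs_self _)
    unfold pr at a1 ⊢
    rw [KCor_ex3] at a1 ⊢
    refine (ex_mono fun x => ex_mono fun a => h1 x a).trans ?_
    simp only [ex_mul]
    linarith
  have a6 : pr (fun z : Pos M F ι I C => Z z.1 z.2.1) = μ := by
    rw [hμ]
    exact KCor_ex2 fun x a => ind (Z x a)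
  refine (pr_le_add fun z hz => ?_).trans ((add_le_add a6.le a5).trans (by linarith))
  by_contra hn
  push Not at hn
  refine hz fun ρ hρ => plu_eq ?_
  have h1 : pr (fun j => Bad (z.1, z.2.1, π j z.2.2)) < 1 / 2 := hn.2 hn.1
  refine lt_of_lt_of_le ?_ (pr_mono (A := fun j => ¬Bad (z.1, z.2.1, π j z.2.2)) fun j hj => ?_)
  · rw [pr_not]
    linarith
  · have h2 : Near χ (D + 1) (fun α => ρ (j, α))
        fun α => hw Θ (orbF χ s α (z.1, z.2.1, π j z.2.2)) :=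
      ⟨KCor_LD hΘ _, le_trans (pr_mono fun α hα h => hα (hρ j α h))
        (not_le.1 fun h => hj ((hBad _).2 h)).le⟩
    rw [h2.dec_eq hχ (by omega)]
    exact (congrArg (hw Θ) (orbF_zero (z.1, z.2.1, π j z.2.2))).trans rfl

theorem hw_far (hχ : χ.IsPrimitive) (hM : 10000 * (D + 2) ≤ M) (hF : 1000 ≤ Fintype.card F)
    (hE : Expd s lam0) {Θ Θ' : (ι → ZMod M) → C → F} (hΘ : Cd χ D s (fun _ => True) Θ)
    (hΘ' : Cd χ D s (fun _ => True) Θ') (hne : Θ ≠ Θ') :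
    pr (fun z : Pos M F ι I C => hw Θ z = hw Θ' z) ≤ 1 / 100 := by
  have hl : 0 ≤ lam0 := by unfold lam0; positivity
  have h1 := Cd.zeros hχ hE hl (S := fun _ => True) (by rw [pr_true fun _ => trivial]; norm_num)
    (g := Θ - Θ') (fun i hi x => (hΘ i hi x).sub (hΘ' i hi x)) (sub_ne_zero.2 hne)
  have h2 : (10000 * (D + 2) : ℝ) ≤ M := by exact_mod_cast hM
  have h3 : (2 * D / M : ℝ) ≤ 2 / 10000 := by
    have hD : (0 : ℝ) ≤ D := Nat.cast_nonneg D
    rw [div_le_iff₀ (by linarith)]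
    linarith
  have h4 : (1 / Fintype.card F : ℝ) ≤ 1 / 1000 :=
    one_div_le_one_div_of_le (by norm_num) (by exact_mod_cast hF)
  have h5 : ∀ x, 𝔼 a : C → F, ind (∑ c, a c * Θ x c = ∑ c, a c * Θ' x c) ≤
      ind ((Θ - Θ') x = 0) + 1 / 1000 := by
    intro x
    by_cases h : (Θ - Θ') x = 0
    · rw [ind_pos h]
      exact le_add_of_le_of_nonneg (pr_le_one _) (by norm_num)
    · rw [ind_neg h, zero_add]
      refine le_trans (pr_mono fun a ha => ?_) ((lin_zero h).trans h4)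
      simp only [Pi.sub_apply, mul_sub, Finset.sum_sub_distrib]
      exact sub_eq_zero.2 ha
  refine (KCor_ex2 fun x a => ind (∑ c, a c * Θ x c = ∑ c, a c * Θ' x c)).trans_le
    ((ex_mono h5).trans ?_)
  rw [ex_add, ex_const]
  unfold lam0 pr at h1
  linarith

lemma hw_inj : Function.Injective fun Θ : (ι → ZMod M) → C → F => hw (I := I) Θ := by
  intro Θ Θ' h
  funext x c
  simpa [hw, Pi.single_apply] using congrFun h (x, Pi.single c 1, Classical.arbitrary I, 0, 0)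

end Vale.Agent.P330
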