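import Vale.Agent.P330.Av

/-! Low degree functions on lines and the abelian code. -/

namespace Vale.Agent.P330

open Finset
open scoped BigOperators

variable {M : ℕ} [Fact M.Prime] {F : Type} [Field F]

/-- A Laurent polynomial with exponents in `[-D, D]` in the character `χ`. -/
def LD (χ : AddChar (ZMod M) F) {V : Type} [AddCommGroup V] [Module F V] (D : ℕ)
    (g : ZMod M → V) : Prop :=
  ∃ c : ℤ → V, ∀ α, g α = ∑ m ∈ Icc (-(D : ℤ)) D, χ ((m : ZMod M) * α) • c m

/-- The standard pairing. -/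
def ip {ι : Type} [Fintype ι] (y x : ι → ZMod M) : ZMod M := ∑ l, y l * x l

/-- Every nonzero frequency vanishes on few directions. -/
def Expd {ι I : Type} [Fintype ι] [Fintype I] (s : I → ι → ZMod M) (lam : ℝ) : Prop :=
  ∀ y : ι → ZMod M, y ≠ 0 → pr (fun i => ip y (s i) = 0) ≤ lam

/-- Low degree on all lines with directions in `S`. -/
def Cd (χ : AddChar (ZMod M) F) {V ι I : Type} [AddCommGroup V] [Module F V] (D : ℕ)
    (s : I → ι → ZMod M) (S : I → Prop) (g : (ι → ZMod M) → V) : Prop :=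
  ∀ i, S i → ∀ x, LD χ D fun α => g (x + α • s i)

/-- `h` is a low degree function close to `g`. -/
def Near (χ : AddChar (ZMod M) F) {V : Type} [AddCommGroup V] [Module F V] (D : ℕ)
    (g h : ZMod M → V) : Prop :=
  LD χ D h ∧ pr (fun α => g α ≠ h α) ≤ 1 / 4

open Classical in
/-- Unique decoding on a line. -/
noncomputable def dec (χ : AddChar (ZMod M) F) {V : Type} [AddCommGroup V] [Module F V] (D : ℕ)
    (g : ZMod M → V) : ZMod M → V :=
  if h : ∃ h, Near χ D g h then h.choose else 0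

/-- The expansion parameter. -/
noncomputable def lam0 : ℝ := 1 / 10 ^ 30

/-- A residue with a representative of absolute value at most `d`. -/
def Small (d : ℕ) (z : ZMod M) : Prop := ∃ m : ℤ, |m| ≤ d ∧ z = m

/-- The cyclic shift of coordinates. -/
def tw {N : ℕ} (m : ZMod N) (x : ZMod N → ZMod M) : ZMod N → ZMod M := fun l => x (l - m)

/-- All shifts of the generators. -/
def dirs {N c : ℕ} (g : Fin c → ZMod N → ZMod M) (i : ZMod N × Fin c) : ZMod N → ZMod M :=
  tw i.1 (g i.2)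

open Classical in
/-- The strict majority value. -/
noncomputable def plu {J : Type} [Fintype J] (r : J → F) : F :=
  if h : ∃ c, 1 / 2 < pr fun j => r j = c then h.choose else 0

/-- The positions of a Hadamard word with replicas. -/
abbrev Pos (M : ℕ) (F ι I C : Type) :=
  (ι → ZMod M) × (C → F) × (I × (C → F) × (ι → ZMod M))

/-- The Hadamard word of a vector valued function. -/
def hw {ι I C : Type} [Fintype C] (Θ : (ι → ZMod M) → C → F) (p : Pos M F ι I C) : F :=
  ∑ c, p.2.1 c * Θ p.1 c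

/-- The curves used for error reduction. -/
def orbF (χ : AddChar (ZMod M) F) {ι I C : Type} (s : I → ι → ZMod M) (α : ZMod M)
    (p : Pos M F ι I C) : Pos M F ι I C :=
  (p.1 + α • s p.2.2.1, p.2.1 + (χ α - 1) • p.2.2.2.1, p.2.2.1, χ α • p.2.2.2.1, p.2.2.2.2)

/-- The error reduction rule: decode curves and take the majority. -/
noncomputable def corF (χ : AddChar (ZMod M) F) {J : Type} [Fintype J] (D : ℕ)
    (ρ : J × ZMod M → F) : F :=
  plu fun j => dec χ (D + 1) (fun α => ρ (j, α)) 0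

lemma Samp.mono {J Q : Type} [Fintype J] [Fintype Q] {β β' : ℝ} {π : J → Equiv.Perm Q}
    (h : Samp β π) (hβ : β ≤ β') : Samp β' π := fun f =>
  (h f).trans (mul_le_mul_of_nonneg_right hβ (ex_nonneg fun _ => sq_nonneg _))

variable {χ : AddChar (ZMod M) F} {V : Type} [AddCommGroup V] [Module F V] {D D' : ℕ}
  {g h : ZMod M → V}

lemma KDefs_single {m : ℤ} (hm : |m| ≤ D) (v : V) :
    LD χ D fun α => χ ((m : ZMod M) * α) • v :=
  ⟨Pi.single m v, fun α => by
    rw [sum_eq_single_of_mem m (mem_Icc.2 (abs_le.1 hm)) fun b _ hb => by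
      rw [Pi.single_eq_of_ne hb, smul_zero], Pi.single_eq_same]⟩

lemma KDefs_congr (hg : LD χ D g) (e : ∀ α, h α = g α) : LD χ D h := funext e ▸ hg

lemma KDefs_ne (χ : AddChar (ZMod M) F) (a : ZMod M) : χ a ≠ 0 := (χ.val_isUnit a).ne_zero

lemma LD.zero : LD χ D (fun _ => (0 : V)) := by
  exact ⟨0, fun _ => by simp⟩

lemma LD.const (v : V) : LD χ D fun _ => v := by
  simpa using KDefs_single (χ := χ) (D := D) (m := 0) (by simp) v

lemma LD.add (hg : LD χ D g) (hh : LD χ D h) : LD χ D fun α => g α + h α := by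
  obtain ⟨c, hc⟩ := hg
  obtain ⟨c', hc'⟩ := hh
  exact ⟨c + c', fun α => by simp only [hc, hc', Pi.add_apply, smul_add, sum_add_distrib]⟩

lemma LD.sub (hg : LD χ D g) (hh : LD χ D h) : LD χ D fun α => g α - h α := by
  obtain ⟨c, hc⟩ := hg
  obtain ⟨c', hc'⟩ := hh
  exact ⟨c - c', fun α => by simp only [hc, hc', Pi.sub_apply, smul_sub, sum_sub_distrib]⟩

lemma LD.smul (a : F) (hg : LD χ D g) : LD χ D fun α => a • g α := by
  obtain ⟨c, hc⟩ := hg
  exact ⟨a • c, fun α => by simp only [hc, Pi.smul_apply, smul_sum, smul_comm a]⟩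

lemma LD.sum {J : Type} (t : Finset J) {f : J → ZMod M → V} (hf : ∀ j ∈ t, LD χ D (f j)) :
    LD χ D fun α => ∑ j ∈ t, f j α := by
  classical
  induction t using Finset.induction_on with
  | empty => exact LD.zero
  | insert j t hj ih =>
    simp only [sum_insert hj]
    exact (hf j (mem_insert_self _ _)).add (ih fun i hi => hf i (mem_insert_of_mem hi))

lemma LD.mono (hg : LD χ D g) (hD : D ≤ D') : LD χ D' g := by
  obtain ⟨c, hc⟩ := hg
  exact KDefs_congr (LD.sum _ fun m hm => KDefs_single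
    ((abs_le.2 (mem_Icc.1 hm)).trans (Nat.cast_le.2 hD)) (c m)) hc

lemma LD.shift (hg : LD χ D g) (β : ZMod M) : LD χ D fun α => g (α + β) := by
  obtain ⟨c, hc⟩ := hg
  exact ⟨fun m => χ ((m : ZMod M) * β) • c m, fun α => by
    simp only [hc, mul_add, AddChar.map_add_eq_mul, mul_smul]⟩

lemma LD.map {W : Type} [AddCommGroup W] [Module F W] (L : V →ₗ[F] W) (hg : LD χ D g) :
    LD χ D fun α => L (g α) := by
  obtain ⟨c, hc⟩ := hg
  exact ⟨fun m => L (c m), fun α => by simp only [hc, map_sum, map_smul]⟩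

lemma LD.pi_iff {C : Type} {g : ZMod M → C → F} :
    LD χ D g ↔ ∀ c, LD χ D fun α => g α c := by
  refine ⟨fun h c => h.map (LinearMap.proj c), fun h => ?_⟩
  choose c hc using h
  exact ⟨fun m i => c i m, fun α => funext fun i => by
    simp only [hc, Finset.sum_apply, Pi.smul_apply]⟩

lemma LD.mul {a : ZMod M → F} (ha : LD χ D a) (hg : LD χ D' g) :
    LD χ (D + D') fun α => a α • g α := by
  obtain ⟨c, hc⟩ := ha
  obtain ⟨c', hc'⟩ := hg
  refine KDefs_congr (LD.sum (Icc (-(D : ℤ)) D) fun m hm => LD.sum (Icc (-(D' : ℤ)) D')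
    fun n hn => KDefs_single (m := m + n) ?_ (c m • c' n)) fun α => ?_
  · rw [mem_Icc] at hm hn
    rw [abs_le]
    omega
  · rw [hc, hc', sum_smul]
    refine sum_congr rfl fun m _ => ?_
    rw [smul_sum]
    refine sum_congr rfl fun n _ => ?_
    rw [Int.cast_add, add_mul, AddChar.map_add_eq_mul, smul_smul, smul_smul, smul_eq_mul,
      mul_right_comm]

lemma LD.prod {J : Type} (t : Finset J) {f : J → ZMod M → F} (hf : ∀ j ∈ t, LD χ D (f j)) :
    LD χ (t.card * D) fun α => ∏ j ∈ t, f j α := by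
  classical
  induction t using Finset.induction_on with
  | empty => exact LD.const 1
  | insert j t hj ih =>
    simp only [prod_insert hj, card_insert_of_notMem hj, add_mul, one_mul, add_comm (_ * D)]
    exact (hf j (mem_insert_self _ _)).mul (ih fun i hi => hf i (mem_insert_of_mem hi))

lemma LD.chi {z : ZMod M} (hz : Small D z) (w : ZMod M) : LD χ D fun α => χ (w + α * z) := by
  obtain ⟨m, hm, rfl⟩ := hz
  exact KDefs_congr (KDefs_single hm (χ w)) fun α => by
    rw [AddChar.map_add_eq_mul, smul_eq_mul, mul_comm α, mul_comm]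

lemma Small.mono {z : ZMod M} (h : Small D z) (hD : D ≤ D') : Small D' z := by
  obtain ⟨m, hm, rfl⟩ := h
  exact ⟨m, hm.trans (Nat.cast_le.2 hD), rfl⟩

lemma Small.sub {z w : ZMod M} (hz : Small D z) (hw : Small D' w) : Small (D + D') (z - w) := by
  obtain ⟨m, hm, rfl⟩ := hz
  obtain ⟨n, hn, rfl⟩ := hw
  exact ⟨m - n, (abs_sub _ _).trans (by push_cast; linarith), by simp⟩

lemma Small.sum {J : Type} (t : Finset J) {f : J → ZMod M} (hf : ∀ j ∈ t, Small D (f j)) :
    Small (t.card * D) (∑ j ∈ t, f j) := by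
  choose! m h1 h2 using hf
  refine ⟨∑ j ∈ t, m j, (abs_sum_le_sum_abs _ _).trans ((sum_le_sum h1).trans (by simp)), ?_⟩
  rw [Int.cast_sum]
  exact sum_congr rfl h2

lemma chi_inj (hχ : χ.IsPrimitive) : Function.Injective χ := by
  intro a b h
  refine sub_eq_zero.1 ((hχ.zmod_char_eq_one_iff M _).1 (mul_right_cancel₀ (KDefs_ne χ b) ?_))
  rw [← AddChar.map_add_eq_mul, sub_add_cancel, one_mul, h]

/-- Scalar low degree functions are polynomials in the character. -/
lemma LD.poly_iff {g : ZMod M → F} : LD χ D g ↔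
    ∃ q : Polynomial F, q.natDegree ≤ 2 * D ∧ ∀ α, g α * χ α ^ D = q.eval (χ α) := by
  refine ⟨fun ⟨c, hc⟩ => ⟨∑ m ∈ Icc (-(D : ℤ)) D, Polynomial.C (c m) * Polynomial.X ^ (m + D).toNat,
    Polynomial.natDegree_sum_le_of_forall_le _ _ fun m hm =>
      (Polynomial.natDegree_C_mul_X_pow_le _ _).trans (by rw [mem_Icc] at hm; omega),
    fun α => ?_⟩, fun ⟨q, h1, h2⟩ => ?_⟩
  · rw [hc, sum_mul, Polynomial.eval_finsetSum]
    refine sum_congr rfl fun m hm => ?_
    have h1 : (((m + D).toNat : ℕ) : ZMod M) = m + D := by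
      rw [← Int.cast_natCast, Int.toNat_of_nonneg (by rw [mem_Icc] at hm; omega), Int.cast_add,
        Int.cast_natCast]
    rw [Polynomial.eval_mul, Polynomial.eval_C, Polynomial.eval_pow, Polynomial.eval_X,
      ← AddChar.map_nsmul_eq_pow, ← AddChar.map_nsmul_eq_pow, nsmul_eq_mul, nsmul_eq_mul, h1,
      add_mul, AddChar.map_add_eq_mul, smul_eq_mul]
    ring
  · refine KDefs_congr (LD.sum (range (2 * D + 1)) fun i hi =>
      KDefs_single (m := (i : ℤ) - D) ?_ (q.coeff i)) fun α => ?_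
    · rw [mem_range] at hi
      rw [abs_le]
      omega
    · refine mul_right_cancel₀ (pow_ne_zero D (KDefs_ne χ α)) ?_
      rw [h2, Polynomial.eval_eq_sum_range' (Nat.lt_succ_of_le h1), sum_mul]
      refine sum_congr rfl fun i _ => ?_
      rw [← AddChar.map_nsmul_eq_pow, ← AddChar.map_nsmul_eq_pow, smul_eq_mul, mul_right_comm,
        ← AddChar.map_add_eq_mul, mul_comm]
      simp [sub_mul]

lemma LD.zeros (hχ : χ.IsPrimitive) (hg : LD χ D g) (h0 : g ≠ 0) :
    pr (fun α => g α = 0) ≤ 2 * D / M := by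
  classical
  obtain ⟨a, ha⟩ := Function.ne_iff.1 h0
  obtain ⟨φ, hφ⟩ := not_forall.1 fun h => ha ((Module.forall_dual_apply_eq_zero_iff F _).1 h)
  obtain ⟨q, h1, h2⟩ := LD.poly_iff.1 (hg.map φ)
  have h3 : q ≠ 0 := fun h => mul_ne_zero hφ (pow_ne_zero D (KDefs_ne χ a))
    (by rw [h2, h, Polynomial.eval_zero])
  rw [pr_eq_card, ZMod.card]
  refine div_le_div_of_nonneg_right ?_ (Nat.cast_nonneg _)
  refine mod_cast (card_le_card_of_injOn χ (t := q.roots.toFinset) (fun α hα => ?_)
    (chi_inj hχ).injOn).trans ((Multiset.toFinset_card_le _).trans (q.card_roots'.trans h1))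
  rw [mem_coe, Multiset.mem_toFinset, Polynomial.mem_roots h3, Polynomial.IsRoot, ← h2,
    (mem_filter.1 hα).2, map_zero, zero_mul]

lemma Near.unique (hχ : χ.IsPrimitive) (hM : 4 * D < M) {h' : ZMod M → V} (h1 : Near χ D g h)
    (h2 : Near χ D g h') : h = h' := by
  by_contra h3
  have h4 := (h1.1.sub h2.1).zeros hχ fun h4 => h3 (funext fun α => sub_eq_zero.1 (congrFun h4 α))
  have h5 := pr_le_add (A := fun α => ¬h α - h' α = 0) (B := fun α => g α ≠ h α)
    (C := fun α => g α ≠ h' α) fun α h5 => not_and_or.1 fun h6 => h5 (by rw [← h6.1, h6.2, sub_self])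
  have h6 : (4 * D : ℝ) < M := mod_cast hM
  have h7 : (2 * D / M : ℝ) < 1 / 2 := by
    rw [div_lt_iff₀ (by linarith [(Nat.cast_nonneg D : (0 : ℝ) ≤ D)])]
    linarith
  rw [pr_not] at h5
  linarith [h1.2, h2.2]

lemma Near.dec_eq (hχ : χ.IsPrimitive) (hM : 4 * D < M) (h1 : Near χ D g h) : dec χ D g = h := by
  have h2 : ∃ h, Near χ D g h := ⟨h, h1⟩
  rw [dec, dif_pos h2]
  exact h2.choose_spec.unique hχ hM h1

lemma dec_LD : LD χ D (dec χ D g) := by
  unfold dec
  split_ifs with h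
  · exact h.choose_spec.1
  · exact LD.zero

lemma plu_eq {J : Type} [Fintype J] {r : J → F} {c : F} (h : 1 / 2 < pr fun j => r j = c) :
    plu r = c := by
  have h2 : ∃ c, 1 / 2 < pr fun j => r j = c := ⟨c, h⟩
  rw [plu, dif_pos h2]
  by_contra h3
  obtain ⟨j, -⟩ := exists_of_pr_pos (lt_trans (by norm_num) h)
  have : Nonempty J := ⟨j⟩
  have h4 := pr_mono (A := fun j => r j = h2.choose) (B := fun j => ¬r j = c)
    fun j h4 h5 => h3 (h4.symm.trans h5)
  rw [pr_not] at h4
  linarith [h2.choose_spec]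

lemma ip_add_right {ι : Type} [Fintype ι] (y x x' : ι → ZMod M) :
    ip y (x + x') = ip y x + ip y x' := by
  simp [ip, mul_add, sum_add_distrib]

lemma ip_smul_right {ι : Type} [Fintype ι] (y x : ι → ZMod M) (a : ZMod M) :
    ip y (a • x) = a * ip y x := by
  simp [ip, mul_sum, mul_left_comm]

lemma ip_sub_left {ι : Type} [Fintype ι] (y y' x : ι → ZMod M) :
    ip (y - y') x = ip y x - ip y' x := by
  simp [ip, sub_mul, sum_sub_distrib]

lemma ip_sum_left {ι J : Type} [Fintype ι] (t : Finset J) (y : J → ι → ZMod M) (x : ι → ZMod M) :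
    ip (∑ j ∈ t, y j) x = ∑ j ∈ t, ip (y j) x := by
  simp only [ip, Finset.sum_apply, sum_mul]
  exact sum_comm

lemma tw_add {N : ℕ} (m : ZMod N) (x x' : ZMod N → ZMod M) : tw m (x + x') = tw m x + tw m x' := rfl

lemma tw_smul {N : ℕ} (m : ZMod N) (a : ZMod M) (x : ZMod N → ZMod M) :
    tw m (a • x) = a • tw m x := rfl

lemma tw_tw {N : ℕ} (m m' : ZMod N) (x : ZMod N → ZMod M) : tw m (tw m' x) = tw (m + m') x := by
  funext l
  simp [tw, sub_sub]

lemma tw_zero {N : ℕ} (x : ZMod N → ZMod M) : tw 0 x = x := by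
  funext l
  simp [tw]

end Vale.Agent.P330
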