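import Vale.Agent.P330.KDefs

/-! Mixing along random lines and the distance of the code. -/

namespace Vale.Agent.P330

open scoped BigOperators

variable {M : ℕ} [Fact M.Prime] {ι I : Type} [Fintype ι] [DecidableEq ι] [Fintype I]
  {s : I → ι → ZMod M} {lam : ℝ}

lemma ex_shift (h : (ι → ZMod M) → ℝ) (v : ι → ZMod M) : 𝔼 x, h (x + v) = 𝔼 x, h x :=
  ex_equiv (Equiv.addRight v) h

/-- The Fourier transform. -/
noncomputable def kmixFt (g : (ι → ZMod M) → ℝ) (y : ι → ZMod M) : ℂ :=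
  ∑ x, (g x : ℂ) * ZMod.stdAddChar (ip y x)

lemma kmix_orth (v : ι → ZMod M) : ∑ y, (ZMod.stdAddChar (ip y v) : ℂ) =
    if v = 0 then (Fintype.card (ι → ZMod M) : ℂ) else 0 := by
  split_ifs with hv
  · simp [hv, ip]
  obtain ⟨l, hl⟩ := Function.ne_iff.1 hv
  let f : (ι → ZMod M) →+ ZMod M := AddMonoidHom.mk' (fun y => ip y v) fun a b => by
    simp [ip, add_mul, Finset.sum_add_distrib]
  refine AddChar.sum_eq_zero_of_ne_one (ψ := ZMod.stdAddChar.compAddMonoidHom f) fun h => hl ?_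
  have h1 : ZMod.stdAddChar (ip (Pi.single l 1) v) = 1 := DFunLike.congr_fun h (Pi.single l 1)
  have h2 : ip (Pi.single l 1) v = v l := by
    simp [ip, Pi.single_apply]
  rw [h2] at h1
  exact ((ZMod.isPrimitive_stdAddChar M).zmod_char_eq_one_iff M _).1 h1

omit [DecidableEq ι] in
lemma kmix_ip_sub (y x x' : ι → ZMod M) : ip y (x - x') = ip y x + -ip y x' := by
  simp [ip, sub_eq_add_neg, mul_add, Finset.sum_add_distrib]

lemma kmix_parseval (g : (ι → ZMod M) → ℝ) :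
    ∑ y, ‖kmixFt g y‖ ^ 2 = (Fintype.card (ι → ZMod M) : ℝ) ^ 2 * 𝔼 x, g x ^ 2 := by
  have h : ∀ y, kmixFt g y * (starRingEnd ℂ) (kmixFt g y) =
      ∑ x, ∑ x', (g x : ℂ) * g x' * ZMod.stdAddChar (ip y (x - x')) := by
    intro y
    simp only [kmixFt, map_sum, map_mul, ← AddChar.map_neg_eq_conj, Complex.conj_ofReal]
    rw [Finset.sum_mul_sum]
    refine Finset.sum_congr rfl fun x _ => Finset.sum_congr rfl fun x' _ => ?_
    rw [kmix_ip_sub, AddChar.map_add_eq_mul]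
    exact mul_mul_mul_comm _ _ _ _
  have h2 : ∑ y, kmixFt g y * (starRingEnd ℂ) (kmixFt g y) =
      (Fintype.card (ι → ZMod M) : ℂ) * ∑ x, (g x : ℂ) ^ 2 := by
    simp only [h]
    rw [Finset.sum_comm, Finset.mul_sum]
    refine Finset.sum_congr rfl fun x _ => ?_
    rw [Finset.sum_comm]
    simp only [← Finset.mul_sum, kmix_orth, sub_eq_zero]
    rw [Finset.sum_eq_single x (fun b _ hb => by rw [if_neg hb.symm, mul_zero])
      (fun h => (h (Finset.mem_univ _)).elim), if_pos rfl]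
    ring
  simp only [Complex.mul_conj, Complex.normSq_eq_norm_sq] at h2
  have h3 : (Fintype.card (ι → ZMod M) : ℝ) ≠ 0 := Nat.cast_ne_zero.2 Fintype.card_ne_zero
  rw [ex_eq, sq, mul_assoc, mul_div_cancel₀ _ h3]
  exact_mod_cast h2

lemma kmix_line (g : (ι → ZMod M) → ℝ) (v y : ι → ZMod M) :
    kmixFt (fun x => 𝔼 α : ZMod M, g (x + α • v)) y = ind (ip y v = 0) * kmixFt g y := by
  have h1 : ∀ α : ZMod M, ∑ x, (g (x + α • v) : ℂ) * ZMod.stdAddChar (ip y x) =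
      ZMod.stdAddChar (α * -ip y v) * kmixFt g y := by
    intro α
    rw [kmixFt, Finset.mul_sum]
    refine Fintype.sum_equiv (Equiv.addRight (α • v)) _ _ fun x => ?_
    rw [Equiv.coe_addRight, ip_add_right, ip_smul_right, mul_left_comm, ← AddChar.map_add_eq_mul]
    congr 2
    ring
  have h2 : (Fintype.card (ZMod M) : ℂ) ≠ 0 := Nat.cast_ne_zero.2 Fintype.card_ne_zero
  have h3 : kmixFt (fun x => 𝔼 α : ZMod M, g (x + α • v)) y =
      (∑ α : ZMod M, ∑ x, (g (x + α • v) : ℂ) * ZMod.stdAddChar (ip y x)) /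
        Fintype.card (ZMod M) := by
    rw [kmixFt, Finset.sum_comm, Finset.sum_div]
    refine Finset.sum_congr rfl fun x _ => ?_
    rw [ex_eq, ← Finset.sum_mul]
    push_cast
    ring
  rw [h3]
  simp only [h1]
  rw [← Finset.sum_mul, AddChar.sum_mulShift _ (ZMod.isPrimitive_stdAddChar M)]
  by_cases h : ip y v = 0
  · rw [ind_pos h, if_pos (neg_eq_zero.2 h), mul_div_cancel_left₀ _ h2, Complex.ofReal_one, one_mul]
  · rw [ind_neg h, if_neg (neg_ne_zero.2 h)]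
    simp

lemma kmix_zero (hE : Expd s lam) (h : (ι → ZMod M) → ℝ) (h0 : 𝔼 y, h y = 0) :
    𝔼 i, 𝔼 x, (𝔼 α : ZMod M, h (x + α • s i)) ^ 2 ≤ lam * 𝔼 y, h y ^ 2 := by
  have h3 : (0 : ℝ) < Fintype.card (ι → ZMod M) := Nat.cast_pos.2 Fintype.card_pos
  refine le_of_mul_le_mul_left ?_ (pow_pos h3 2)
  rw [← ex_mul, mul_left_comm, ← kmix_parseval, Finset.mul_sum]
  simp only [← kmix_parseval, kmix_line]
  rw [ex_sum]
  refine Finset.sum_le_sum fun y _ => ?_
  by_cases hy : y = 0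
  · have h4 : kmixFt h y = 0 := by
      rw [ex_eq, div_eq_zero_iff, or_iff_left h3.ne'] at h0
      simp only [kmixFt, hy, ip, Pi.zero_apply, zero_mul, Finset.sum_const_zero,
        AddChar.map_zero_eq_one, mul_one]
      exact_mod_cast h0
    simp [h4]
  · simp only [norm_mul, mul_pow, Complex.norm_real, Real.norm_eq_abs, sq_abs, ind_sq,
      mul_comm _ (‖kmixFt h y‖ ^ 2)]
    rw [ex_mul]
    exact mul_le_mul_of_nonneg_left (hE y hy) (sq_nonneg _)

lemma kmix_var {P : Type} [Fintype P] [Nonempty P] (f : P → ℝ) :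
    𝔼 x, f x ^ 2 = 𝔼 x, (f x - 𝔼 y, f y) ^ 2 + (𝔼 y, f y) ^ 2 := by
  have e : 𝔼 x, (f x - 𝔼 y, f y) ^ 2 =
      𝔼 x, ((f x ^ 2 - 2 * (𝔼 y, f y) * f x) + (𝔼 y, f y) ^ 2) :=
    Finset.expect_congr rfl fun x _ => by ring
  rw [e, ex_add, ex_sub, ex_mul, ex_const]
  ring

lemma kmix_proj (h : (ι → ZMod M) → ℝ) (v : ι → ZMod M) :
    𝔼 x, h x * 𝔼 α : ZMod M, h (x + α • v) =
      𝔼 x, ((𝔼 α : ZMod M, h (x + α • v)) - 𝔼 y, h y) ^ 2 + (𝔼 y, h y) ^ 2 := by
  have h1 : 𝔼 x, 𝔼 α : ZMod M, h (x + α • v) = 𝔼 y, h y := by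
    rw [ex_comm]
    simp only [ex_shift]
    exact ex_const _
  have h2 : ∀ (x : ι → ZMod M) (β : ZMod M),
      𝔼 α : ZMod M, h (x + β • v + α • v) = 𝔼 α : ZMod M, h (x + α • v) := fun x β => by
    rw [← ex_equiv (Equiv.addLeft β) fun α => h (x + α • v)]
    simp only [Equiv.coe_addLeft, add_smul, add_assoc]
  have h3 : ∀ x : ι → ZMod M, (𝔼 α : ZMod M, h (x + α • v)) ^ 2 =
      𝔼 β : ZMod M, h (x + β • v) * 𝔼 α : ZMod M, h (x + β • v + α • v) := fun x => by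
    simp only [h2]
    rw [sq, Finset.expect_mul]
  rw [← h1, ← kmix_var]
  simp only [h3]
  rw [ex_comm]
  simp only [fun β : ZMod M => ex_shift (fun x => h x * 𝔼 α : ZMod M, h (x + α • v)) (β • v)]
  exact (ex_const _).symm

open Classical in
lemma kmix_sub {S : I → Prop} (hS : 0 < pr S) (A : I → Prop) :
    pr (fun i : {i // S i} => A i) * pr S ≤ pr A := by
  have h1 : ((Finset.univ.filter S).card : ℝ) ≠ 0 := fun h => by
    rw [pr_eq_card, h, zero_div] at hS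
    exact lt_irrefl _ hS
  rw [pr_eq_card, pr_eq_card, pr_eq_card, Fintype.card_subtype, div_mul_div_cancel₀ h1]
  refine div_le_div_of_nonneg_right (Nat.cast_le.2 ?_) (Nat.cast_nonneg _)
  exact Finset.card_le_card_of_injOn Subtype.val (fun i hi => by simpa using hi)
    Subtype.val_injective.injOn

theorem mix (hE : Expd s lam) (hl : 0 ≤ lam) (h : (ι → ZMod M) → ℝ) :
    𝔼 i, 𝔼 x, ((𝔼 α : ZMod M, h (x + α • s i)) - 𝔼 y, h y) ^ 2 ≤ lam * 𝔼 y, h y ^ 2 := by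
  have h1 := kmix_zero hE (fun x => h x - 𝔼 y, h y) (by rw [ex_sub, ex_const, sub_self])
  simp only [ex_sub, ex_const] at h1
  refine h1.trans (mul_le_mul_of_nonneg_left ?_ hl)
  rw [kmix_var h]
  exact le_add_of_nonneg_right (sq_nonneg _)

theorem mix_corr (hE : Expd s lam) (hl : 0 ≤ lam) (h : (ι → ZMod M) → ℝ) :
    𝔼 i, 𝔼 x, h x * 𝔼 α : ZMod M, h (x + α • s i) ≤ (𝔼 y, h y) ^ 2 + lam * 𝔼 y, h y ^ 2 := by
  simp only [kmix_proj]
  rw [ex_add, add_comm]
  exact add_le_add (ex_le_const (sq_nonneg _) fun _ => le_rfl) (mix hE hl h)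

theorem mix_cheb (hE : Expd s lam) (hl : 0 ≤ lam) {h : (ι → ZMod M) → ℝ} (h0 : ∀ x, 0 ≤ h x)
    (h1 : ∀ x, h x ≤ 1) {a t : ℝ} (ha : 𝔼 y, h y ≤ a) (ht : 0 < t) (hat : a ≤ t / 2) :
    pr (fun z : (ι → ZMod M) × I => t ≤ 𝔼 α : ZMod M, h (z.1 + α • s z.2)) ≤
      4 * lam * a / t ^ 2 := by
  have h2 := markov (f := fun z : (ι → ZMod M) × I =>
    ((𝔼 α : ZMod M, h (z.1 + α • s z.2)) - 𝔼 y, h y) ^ 2) (fun _ => sq_nonneg _)
    (pow_pos (half_pos ht) 2)
  refine (pr_mono fun z hz => ?_).trans (h2.trans ?_)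
  · exact pow_le_pow_left₀ (half_pos ht).le (by linarith) 2
  · have h3 : 𝔼 y, h y ^ 2 ≤ a := (ex_mono fun x => by nlinarith [h0 x, h1 x]).trans ha
    have h4 := (mix hE hl h).trans (mul_le_mul_of_nonneg_left h3 hl)
    rw [ex_prod, ex_comm]
    refine (div_le_div_of_nonneg_right h4 (sq_nonneg _)).trans (le_of_eq ?_)
    field_simp
    norm_num

open Classical in
theorem Expd.sub (hE : Expd s lam) {S : I → Prop} (hS : 1 / 2 ≤ pr S) :
    Expd (fun i : {i // S i} => s i) (2 * lam) := by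
  intro y hy
  have h1 := (kmix_sub (by linarith) fun i => ip y (s i) = 0).trans (hE y hy)
  have h2 := mul_le_mul_of_nonneg_left hS (pr_nonneg fun i : {i // S i} => ip y (s i) = 0)
  linarith

/-- Nonzero codewords have few zeros. -/
theorem Cd.zeros {F V : Type} [Field F] [AddCommGroup V] [Module F V] {χ : AddChar (ZMod M) F}
    (hχ : χ.IsPrimitive) (hE : Expd s lam) (hl : 0 ≤ lam) {S : I → Prop} (hS : 1 / 2 ≤ pr S)
    {D : ℕ} {g : (ι → ZMod M) → V} (hg : Cd χ D s S g) (h0 : g ≠ 0) :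
    pr (fun x => g x = 0) ≤ 2 * D / M + 2 * lam := by
  classical
  obtain ⟨i₀, hi₀⟩ := exists_of_pr_pos (A := S) (by linarith)
  have : Nonempty {i // S i} := ⟨⟨i₀, hi₀⟩⟩
  have h1 := mix_corr (hE.sub hS) (by linarith) fun x => ind (g x ≠ 0)
  have h2 : 0 < pr fun x => g x ≠ 0 := by
    obtain ⟨x, hx⟩ := Function.ne_iff.1 h0
    refine (pr_nonneg _).lt_of_ne fun h => not_of_pr_lt (A := fun x => g x ≠ 0) ?_ x hx
    rw [← h, zero_mul]
    exact one_pos
  have h3 : ∀ (i : {i // S i}) (x : ι → ZMod M), (1 - 2 * D / M) * ind (g x ≠ 0) ≤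
      ind (g x ≠ 0) * 𝔼 α : ZMod M, ind (g (x + α • s i) ≠ 0) := fun i x => by
    by_cases hx : g x ≠ 0
    · have h4 := (hg i i.2 x).zeros hχ fun h => hx (by simpa using congrFun h 0)
      have h5 := pr_not fun α : ZMod M => g (x + α • s i) = 0
      rw [ind_pos hx, mul_one, one_mul]
      exact le_of_le_of_eq (by linarith) h5.symm
    · rw [ind_neg hx, mul_zero, zero_mul]
  have h6 := (ex_mono fun i => ex_mono (h3 i)).trans h1
  simp only [ind_sq, ex_mul, ex_const] at h6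
  have h7 := pr_not fun x => g x = 0
  change (1 - 2 * D / M) * pr (fun x => g x ≠ 0) ≤
    pr (fun x => g x ≠ 0) ^ 2 + 2 * lam * pr (fun x => g x ≠ 0) at h6
  rw [sq, ← add_mul] at h6
  have h8 := le_of_mul_le_mul_right h6 h2
  linarith

end Vale.Agent.P330
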