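import Vale.Agent.P330.KPS
import Vale.Agent.P330.KMix

/-! The low degree test: local decoding and planes. -/

namespace Vale.Agent.P330

open scoped BigOperators

variable {M : ℕ} [Fact M.Prime] {F C ι I : Type} [Field F] [Fintype ι] [DecidableEq ι] [Fintype I]

/-- The restriction to a line. -/
def lineF (s : I → ι → ZMod M) (g : (ι → ZMod M) → C → F) (x : ι → ZMod M) (i : I) :
    ZMod M → C → F := fun α => g (x + α • s i)

/-- The point disagrees with the decoding of its line in direction `i`. -/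
def InA (χ : AddChar (ZMod M) F) (D : ℕ) (s : I → ι → ZMod M) (g : (ι → ZMod M) → C → F) (i : I)
    (x : ι → ZMod M) : Prop :=
  ¬∃ h, Near χ D (lineF s g x i) h ∧ h 0 = g x

open Classical in
/-- The corrected function. -/
noncomputable def nxtF (χ : AddChar (ZMod M) F) (D : ℕ) (s : I → ι → ZMod M)
    (g : (ι → ZMod M) → C → F) (x : ι → ZMod M) : C → F :=
  if h : ∃ v, 1 / 2 < pr fun i => ∃ h, Near χ D (lineF s g x i) h ∧ h 0 = v then h.choose else g x

variable {χ : AddChar (ZMod M) F} {D : ℕ} {s : I → ι → ZMod M} {g : (ι → ZMod M) → C → F}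

lemma KLdtA_shift {V : Type} [AddCommGroup V] [Module F V] {f h : ZMod M → V}
    (hn : Near χ D f h) (α : ZMod M) : Near χ D (fun β => f (β + α)) fun β => h (β + α) :=
  ⟨hn.1.shift α, (pr_equiv (Equiv.addRight α) fun β => f β ≠ h β).trans_le hn.2⟩

omit [Field F] [Fintype ι] [DecidableEq ι] [Fintype I] in
lemma KLdtA_line (x : ι → ZMod M) (i : I) (α : ZMod M) :
    lineF s g (x + α • s i) i = fun β => lineF s g x i (β + α) := by
  funext β
  simp only [lineF]
  rw [add_smul, add_assoc, add_comm (α • s i)]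

lemma KLdtA_inter {P : Type} [Fintype P] {A B : P → Prop} (hA : 1 / 2 < pr A)
    (hB : 1 / 2 < pr B) : ∃ x, A x ∧ B x := by
  obtain ⟨x₀, -⟩ := exists_of_pr_pos (A := A) (by linarith)
  have : Nonempty P := ⟨x₀⟩
  by_contra h
  have h1 : pr A ≤ pr fun x => ¬B x := pr_mono fun x hx hx' => h ⟨x, hx, hx'⟩
  rw [pr_not] at h1
  linarith

lemma dec_of_not_InA (hχ : χ.IsPrimitive) (hM : 100 * (D + 1) ≤ M) {x : ι → ZMod M} {i : I}
    {α : ZMod M} (h : ¬InA χ D s g i (x + α • s i)) :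
    Near χ D (lineF s g x i) (dec χ D (lineF s g x i)) ∧
      dec χ D (lineF s g x i) α = g (x + α • s i) := by
  obtain ⟨k, hk, h0⟩ := not_not.1 h
  have h1 := KLdtA_shift hk (-α)
  simp only [KLdtA_line, neg_add_cancel_right] at h1
  rw [Near.dec_eq hχ (by omega) h1]
  exact ⟨h1, by simp only [add_neg_cancel, h0]⟩

lemma not_InA_of_near {x : ι → ZMod M} {i : I} {h : ZMod M → C → F}
    (hn : Near χ D (lineF s g x i) h) {α : ZMod M} (hα : h α = g (x + α • s i)) :
    ¬InA χ D s g i (x + α • s i) :=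
  not_not.2 ⟨fun β => h (β + α), KLdtA_line (s := s) (g := g) x i α ▸ KLdtA_shift hn α, by
    simp only [zero_add, hα]⟩

lemma nxtF_eq (hχ : χ.IsPrimitive) (hM : 100 * (D + 1) ≤ M) {x : ι → ZMod M} {v : C → F}
    (h : 1 / 2 < pr fun i => ∃ h, Near χ D (lineF s g x i) h ∧ h 0 = v) :
    nxtF χ D s g x = v := by
  have h1 : ∃ v, 1 / 2 < pr fun i => ∃ h, Near χ D (lineF s g x i) h ∧ h 0 = v := ⟨v, h⟩
  obtain ⟨i, ⟨k, hk, e⟩, k', hk', e'⟩ := KLdtA_inter h1.choose_spec h
  rw [nxtF, dif_pos h1, ← e, ← e', Near.unique hχ (by omega) hk hk']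

lemma nxtF_close [Nonempty I] (hχ : χ.IsPrimitive) (hM : 100 * (D + 1) ≤ M) {a : ℝ}
    (ha : ∀ i, pr (InA χ D s g i) ≤ a) : pr (fun x => nxtF χ D s g x ≠ g x) ≤ 2 * a := by
  have h1 := markov (f := fun x => pr fun i => InA χ D s g i x) (fun _ => pr_nonneg _)
    (t := 1 / 2) (by norm_num)
  have h2 : 𝔼 x, (pr fun i => InA χ D s g i x) ≤ a :=
    (ex_comm fun x i => ind (InA χ D s g i x)).trans_le ((ex_mono ha).trans (ex_const a).le)
  refine (pr_mono fun x hx => ?_).trans (h1.trans (by linarith))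
  by_contra h3
  refine hx (nxtF_eq hχ hM ?_)
  have h4 := pr_not fun i => InA χ D s g i x
  rw [pr_congr (B := fun i => ¬InA χ D s g i x) fun i => not_not.symm]
  linarith [not_le.1 h3]

lemma cd_of_not_InA (hχ : χ.IsPrimitive) (hM : 100 * (D + 1) ≤ M)
    (h : ∀ i x, ¬InA χ D s g i x) : Cd χ D s (fun _ => True) g := by
  intro i _ x
  rw [← funext fun α => (dec_of_not_InA hχ hM (h i (x + α • s i))).2]
  exact dec_LD

/-- A plane with few disagreements carries a bivariate low degree function. -/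
theorem plane (hχ : χ.IsPrimitive) (hM : 100 * (D + 1) ≤ M) {γ : ℝ} (h0 : 0 ≤ γ) (h1 : γ ≤ 1 / 16)
    {x : ι → ZMod M} {i j : I}
    (hi : 𝔼 α : ZMod M, 𝔼 β : ZMod M, ind (InA χ D s g i (x + α • s i + β • s j)) ≤ γ ^ 2 / 2)
    (hj : 𝔼 α : ZMod M, 𝔼 β : ZMod M, ind (InA χ D s g j (x + α • s i + β • s j)) ≤ γ ^ 2 / 2) :
    ∃ Q : ZMod M → ZMod M → C → F, (∀ β, LD χ D fun α => Q α β) ∧ (∀ α, LD χ D (Q α)) ∧
      pr (fun β => ¬∀ α, Q α β = dec χ D (lineF s g (x + β • s j) i) α) ≤ γ ∧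
      pr (fun α => ¬∀ β, Q α β = dec χ D (lineF s g (x + α • s i) j) β) ≤ γ ∧
      (pr (fun α : ZMod M => InA χ D s g j (x + α • s i)) ≤ γ →
        pr (fun α => lineF s g x i α ≠ Q α 0) ≤ 2 * γ) ∧
      (pr (fun β : ZMod M => InA χ D s g i (x + β • s j)) ≤ γ →
        pr (fun β => lineF s g x j β ≠ Q 0 β) ≤ 2 * γ) := by
  have h2 : pr (fun z : ZMod M × ZMod M => dec χ D (lineF s g (x + z.2 • s j) i) z.1 ≠
      dec χ D (lineF s g (x + z.1 • s i) j) z.2) ≤ γ ^ 2 := by
    refine (pr_le_add (B := fun z => InA χ D s g i (x + z.1 • s i + z.2 • s j))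
      (C := fun z => InA χ D s g j (x + z.1 • s i + z.2 • s j)) fun z hz => ?_).trans ?_
    · by_contra h
      rw [not_or] at h
      have h3 := (dec_of_not_InA hχ hM h.2).2
      rw [add_right_comm] at h h3
      exact hz ((dec_of_not_InA hχ hM h.1).2.trans h3.symm)
    · rw [pr_prod, pr_prod]
      exact (add_le_add hi hj).trans (by linarith)
  obtain ⟨Q, q1, q2, q3, q4⟩ := ps_plane hχ hM h0 h1
    (r := fun β => dec χ D (lineF s g (x + β • s j) i))
    (c := fun α => dec χ D (lineF s g (x + α • s i) j)) (fun _ => dec_LD) (fun _ => dec_LD) h2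
  refine ⟨Q, q1, q2, q3, q4, fun h => ?_, fun h => ?_⟩
  · refine (pr_le_add fun α hα => ?_).trans ((add_le_add q4 h).trans (by linarith))
    by_contra h3
    rw [not_or, not_not] at h3
    have h4 := (dec_of_not_InA hχ hM (x := x + α • s i) (i := j) (α := 0)
      (by rw [zero_smul, add_zero]; exact h3.2)).2
    rw [zero_smul, add_zero] at h4
    exact hα ((h3.1 0).trans h4).symm
  · refine (pr_le_add fun β hβ => ?_).trans ((add_le_add q3 h).trans (by linarith))
    by_contra h3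
    rw [not_or, not_not] at h3
    have h4 := (dec_of_not_InA hχ hM (x := x + β • s j) (i := i) (α := 0)
      (by rw [zero_smul, add_zero]; exact h3.2)).2
    rw [zero_smul, add_zero] at h4
    exact hβ ((h3.1 0).trans h4).symm

end Vale.Agent.P330
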