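import Vale.Agent.P330.KLdtA

/-! The low degree test: stable points. -/

namespace Vale.Agent.P330

open scoped BigOperators

variable {M : ℕ} [Fact M.Prime] {F C ι I : Type} [Field F] [Fintype ι] [DecidableEq ι] [Fintype I]

/-- The line in direction `j` through `y` decodes to the corrected value and has few
disagreements. -/
def OkB (χ : AddChar (ZMod M) F) (D : ℕ) (s : I → ι → ZMod M) (g : (ι → ZMod M) → C → F) (j : I)
    (y : ι → ZMod M) : Prop :=
  (∃ h, Near χ D (lineF s g y j) h ∧ h 0 = nxtF χ D s g y) ∧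
    pr (fun β : ZMod M => InA χ D s g j (y + β • s j)) ≤ 1 / 1024

variable {χ : AddChar (ZMod M) F} {D : ℕ} {s : I → ι → ZMod M} {g : (ι → ZMod M) → C → F}

/-- Many disagreements in direction `i` on the plane or on the other axis. -/
def kldtbE (χ : AddChar (ZMod M) F) (D : ℕ) (s : I → ι → ZMod M) (g : (ι → ZMod M) → C → F)
    (y : ι → ZMod M) (i j : I) : Prop :=
  (1 / 2048) ^ 2 / 2 ≤ 𝔼 β : ZMod M, 𝔼 α : ZMod M, ind (InA χ D s g i (y + β • s j + α • s i)) ∨
    1 / 2048 ≤ 𝔼 β : ZMod M, ind (InA χ D s g i (y + β • s j))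

lemma kldtb_pr {lam a : ℝ} (hE : Expd s lam) (hl : 0 ≤ lam) (ha0 : a ≤ 1 / 10 ^ 8) {i : I}
    (ha : pr (InA χ D s g i) ≤ a) :
    pr (fun z : (ι → ZMod M) × I => kldtbE χ D s g z.1 i z.2) ≤ 10 ^ 15 * (lam * a) := by
  have h0 : 0 ≤ a := (pr_nonneg _).trans ha
  have h1 := mix_cheb hE hl (h := fun x => 𝔼 α : ZMod M, ind (InA χ D s g i (x + α • s i)))
    (fun _ => ex_nonneg fun _ => ind_nonneg _)
    (fun _ => ex_le_const zero_le_one fun _ => ind_le_one _) (a := a) (t := (1 / 2048) ^ 2 / 2)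
    (by
      rw [ex_comm]
      exact ex_le_const h0 fun α => (ex_shift (fun x => ind (InA χ D s g i x)) _).trans_le ha)
    (by norm_num) (ha0.trans (by norm_num))
  have h2 := mix_cheb hE hl (h := fun x => ind (InA χ D s g i x)) (fun _ => ind_nonneg _)
    (fun _ => ind_le_one _) (t := 1 / 2048) ha (by norm_num) (ha0.trans (by norm_num))
  refine (pr_or_le _ _).trans ((add_le_add h1 h2).trans ?_)
  have h3 := mul_nonneg hl h0
  rw [mul_assoc]
  norm_num
  linarith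

lemma kldtb_good (hχ : χ.IsPrimitive) (hM : 100 * (D + 1) ≤ M) {y : ι → ZMod M} {i j : I}
    (h1 : ¬kldtbE χ D s g y i j) (h2 : ¬kldtbE χ D s g y j i) :
    (∃ h, Near χ D (lineF s g y j) h ∧ h 0 = dec χ D (lineF s g y i) 0) ∧
      pr (fun β : ZMod M => InA χ D s g j (y + β • s j)) ≤ 1 / 1024 := by
  simp only [kldtbE, not_or, not_le] at h1 h2
  obtain ⟨Q, q1, q2, -, -, q3, q4⟩ := plane hχ hM (γ := 1 / 2048) (by norm_num) (by norm_num)
    (s := s) (g := g) (x := y) (i := i) (j := j) (by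
      rw [ex_comm]
      simp only [add_right_comm y _ (_ • s j)]
      exact h1.1.le) h2.1.le
  have k1 := q3 h2.2.le
  have k2 := q4 h1.2.le
  have n1 : Near χ D (lineF s g y i) fun α => Q α 0 := ⟨q1 0, k1.trans (by norm_num)⟩
  have n2 : Near χ D (lineF s g y j) (Q 0) := ⟨q2 0, k2.trans (by norm_num)⟩
  refine ⟨⟨_, n2, ?_⟩, (pr_mono (B := fun β => lineF s g y j β ≠ Q 0 β) fun β hβ e =>
    not_InA_of_near n2 (Eq.symm e) hβ).trans (k2.trans (by norm_num))⟩
  rw [n1.dec_eq hχ (by omega)]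

lemma kldtb_pt [Nonempty I] (hχ : χ.IsPrimitive) (hM : 100 * (D + 1) ≤ M) {y : ι → ZMod M}
    (h : 𝔼 i, 𝔼 j, ind (kldtbE χ D s g y i j) < 1 / 40960) :
    pr (fun j => ¬OkB χ D s g j y) ≤ 1 / 20480 := by
  have h1 : ∃ i, pr (fun j => kldtbE χ D s g y i j ∨ kldtbE χ D s g y j i) < 1 / 20480 := by
    by_contra hc
    have h2 := ex_mono fun i => (not_lt.1 (not_exists.1 hc i)).trans (pr_or_le _ _)
    rw [ex_const, ex_add] at h2
    have h3 := ex_comm fun i j => ind (kldtbE χ D s g y i j)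
    simp only [pr] at h2
    linarith
  obtain ⟨i, hi⟩ := h1
  have h2 : nxtF χ D s g y = dec χ D (lineF s g y i) 0 := by
    refine nxtF_eq hχ hM ?_
    have h3 := pr_not fun j => kldtbE χ D s g y i j ∨ kldtbE χ D s g y j i
    refine lt_of_lt_of_le (by linarith) (pr_mono (A := fun j =>
      ¬(kldtbE χ D s g y i j ∨ kldtbE χ D s g y j i)) fun j hj => ?_)
    exact (kldtb_good hχ hM (not_or.1 hj).1 (not_or.1 hj).2).1
  refine (pr_mono fun j hj => ?_).trans hi.le
  by_contra hc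
  exact hj (by
    rw [OkB, h2]
    exact kldtb_good hχ hM (not_or.1 hc).1 (not_or.1 hc).2)

/-- Most points are stable. -/
theorem stable [Nonempty I] (hχ : χ.IsPrimitive) (hM : 100 * (D + 1) ≤ M) {lam a : ℝ}
    (hE : Expd s lam) (hl : 0 ≤ lam) (ha0 : a ≤ 1 / 10 ^ 8) (ha : ∀ i, pr (InA χ D s g i) ≤ a) :
    pr (fun y => 1 / 20480 < pr fun j => ¬OkB χ D s g j y) ≤ 10 ^ 20 * lam * a := by
  have h0 : 0 ≤ lam * a := mul_nonneg hl ((pr_nonneg _).trans (ha (Classical.arbitrary I)))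
  have h1 := markov (f := fun y => 𝔼 i, 𝔼 j, ind (kldtbE χ D s g y i j))
    (fun _ => ex_nonneg fun _ => ex_nonneg fun _ => ind_nonneg _) (t := 1 / 40960) (by norm_num)
  have h2 : 𝔼 y, 𝔼 i, 𝔼 j, ind (kldtbE χ D s g y i j) ≤ 10 ^ 15 * (lam * a) := by
    rw [ex_comm]
    exact ex_le_const (by positivity) fun i =>
      (ex_prod fun z : (ι → ZMod M) × I => ind (kldtbE χ D s g z.1 i z.2)).symm.trans_le
        (kldtb_pr hE hl ha0 (ha i))
  refine (pr_mono fun y hy => not_lt.1 fun hc => (kldtb_pt hχ hM hc).not_gt hy).trans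
    (h1.trans ?_)
  rw [div_le_iff₀ (by norm_num), mul_assoc (10 ^ 20)]
  linarith

end Vale.Agent.P330
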