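import Vale.Agent.P330.KLdtB

/-! The low degree test: contraction and convergence. -/

namespace Vale.Agent.P330

open scoped BigOperators

variable {M : ℕ} [Fact M.Prime] {F C ι I : Type} [Field F] [Fintype ι] [DecidableEq ι] [Fintype I]
  {χ : AddChar (ZMod M) F} {D : ℕ} {s : I → ι → ZMod M} {g : (ι → ZMod M) → C → F}

theorem KLdtC_line (A : (ι → ZMod M) → Prop) (v : ι → ZMod M) :
    𝔼 x, pr (fun α : ZMod M => A (x + α • v)) = pr A := by
  unfold pr
  rw [ex_comm]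
  simp only [ex_shift fun x => ind (A x)]
  exact ex_const _

theorem KLdtC_mk {P P' : Type} [Fintype P] [Fintype P'] {A : P × P' → Prop} {c : ℝ}
    (h : pr A ≤ c) : pr (fun x => 1 / 10 ≤ pr fun y => A (x, y)) ≤ 10 * c := by
  have h1 := markov (f := fun x => pr fun y => A (x, y)) (fun _ => pr_nonneg _)
    (t := 1 / 10) (by norm_num)
  rw [← pr_prod] at h1
  linarith

theorem KLdtC_pt (hχ : χ.IsPrimitive) (hM : 100 * (D + 1) ≤ M) {x : ι → ZMod M} {j k : I}
    (h1 : 𝔼 β : ZMod M, pr (fun α : ZMod M => InA χ D s g k (x + β • s j + α • s k)) ≤ 1 / 512)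
    (h2 : pr (fun β : ZMod M => InA χ D s g k (x + β • s j)) ≤ 1 / 16) (h3 : OkB χ D s g j x)
    (h4 : pr (fun α : ZMod M => ¬OkB χ D s g j (x + α • s k)) ≤ 1 / 1024) :
    ¬InA χ D s (nxtF χ D s g) k x := by
  have hD : 4 * D < M := by omega
  have hi : 𝔼 α : ZMod M, 𝔼 β : ZMod M, ind (InA χ D s g k (x + α • s k + β • s j))
      ≤ (1 / 16 : ℝ) ^ 2 / 2 := by
    rw [ex_comm]
    simp only [add_right_comm x _ (_ • s j)]
    exact h1.trans (by norm_num)
  have hj : 𝔼 α : ZMod M, 𝔼 β : ZMod M, ind (InA χ D s g j (x + α • s k + β • s j))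
      ≤ (1 / 16 : ℝ) ^ 2 / 2 := by
    refine (ex_mono (g := fun α : ZMod M => ind (¬OkB χ D s g j (x + α • s k)) + 1 / 1024)
      fun α => ?_).trans ?_
    · by_cases h : OkB χ D s g j (x + α • s k)
      · rw [ind_neg (not_not.2 h), zero_add]
        exact h.2
      · rw [ind_pos h]
        exact (pr_le_one _).trans (by norm_num)
    · rw [ex_add, ex_const]
      have h5 : 𝔼 α : ZMod M, ind (¬OkB χ D s g j (x + α • s k)) ≤ 1 / 1024 := h4
      linarith
  obtain ⟨Q, q1, q2, -, q4, -, q6⟩ := plane hχ hM (by norm_num) le_rfl hi hj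
  obtain ⟨h, h5, h6⟩ := h3.1
  have h7 : h = Q 0 := h5.unique hχ hD ⟨q2 0, (q6 h2).trans (by norm_num)⟩
  refine fun hn => hn ⟨fun α => Q α 0, ⟨q1 0, ?_⟩, by rw [← h6, h7]⟩
  refine (pr_le_add fun α hα => ?_).trans ((add_le_add q4 h4).trans (by norm_num))
  by_contra hc
  rw [not_or, not_not, not_not] at hc
  obtain ⟨h', h8, h9⟩ := hc.2.1
  exact hα (h9.symm.trans ((congrFun (h8.dec_eq hχ hD) 0).symm.trans (hc.1 0).symm))

theorem ldt_step [Nonempty I] (hχ : χ.IsPrimitive) (hM : 100 * (D + 1) ≤ M) {lam a : ℝ}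
    (hE : Expd s lam) (hl : 0 ≤ lam) (hl1 : lam ≤ 1 / 10 ^ 27) (ha0 : a ≤ 1 / 10 ^ 8)
    (ha : ∀ i, pr (InA χ D s g i) ≤ a) (k : I) : pr (InA χ D s (nxtF χ D s g) k) ≤ a / 2 := by
  have a0 : 0 ≤ a := (pr_nonneg _).trans (ha k)
  have b1 := KLdtC_mk (mix_cheb hE hl
    (h := fun y => pr fun α : ZMod M => InA χ D s g k (y + α • s k)) (fun _ => pr_nonneg _)
    (fun _ => pr_le_one _) ((KLdtC_line _ _).le.trans (ha k)) (t := 1 / 512) (by norm_num)
    (ha0.trans (by norm_num)))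
  have b2 := KLdtC_mk (mix_cheb hE hl (h := fun y => ind (InA χ D s g k y))
    (fun _ => ind_nonneg _) (fun _ => ind_le_one _) (ha k) (t := 1 / 16) (by norm_num)
    (ha0.trans (by norm_num)))
  have b3 := stable hχ hM hE hl ha0 ha
  have b4 := markov (f := fun x => pr fun α : ZMod M =>
    1 / 20480 < pr fun j => ¬OkB χ D s g j (x + α • s k)) (fun _ => pr_nonneg _)
    (t := 1 / 20480) (by norm_num)
  rw [KLdtC_line fun y => 1 / 20480 < pr fun j => ¬OkB χ D s g j y] at b4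
  replace b4 := b4.trans (div_le_div_of_nonneg_right b3 (by norm_num))
  refine ((pr_le_add fun x hx => ?_).trans (add_le_add ((pr_or_le _ _).trans (add_le_add b1 b2))
    ((pr_or_le _ _).trans (add_le_add b3 b4)))).trans ?_
  · by_contra hc
    simp only [not_or, not_le, not_lt] at hc
    obtain ⟨⟨c1, c2⟩, c3, c4⟩ := hc
    have c5 := markov (f := fun j => pr fun α : ZMod M => ¬OkB χ D s g j (x + α • s k))
      (fun _ => pr_nonneg _) (t := 1 / 1024) (by norm_num)
    have c6 : 𝔼 j, pr (fun α : ZMod M => ¬OkB χ D s g j (x + α • s k)) ≤ 2 / 20480 := by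
      refine (ex_comm _).le.trans ((ex_mono (g := fun α : ZMod M =>
        ind (1 / 20480 < pr fun j => ¬OkB χ D s g j (x + α • s k)) + 1 / 20480)
        fun α => ?_).trans ?_)
      · by_cases h : 1 / 20480 < pr fun j => ¬OkB χ D s g j (x + α • s k)
        · rw [ind_pos h]
          exact (pr_le_one _).trans (by norm_num)
        · rw [ind_neg h, zero_add]
          exact not_lt.1 h
      · rw [ex_add, ex_const]
        have c7 : 𝔼 α : ZMod M, ind (1 / 20480 < pr fun j => ¬OkB χ D s g j (x + α • s k))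
          < 1 / 20480 := c4
        linarith
    obtain ⟨j, hj⟩ := exists_not_of_pr_lt (lt_of_le_of_lt ((pr_or_le _ _).trans (add_le_add
      ((pr_or_le _ _).trans (add_le_add c1.le c2.le))
      ((pr_or_le _ _).trans (add_le_add c3 c5)))) (by linarith))
    simp only [not_or, not_le, not_not] at hj
    exact KLdtC_pt hχ hM hj.1.1.le hj.1.2.le hj.2.1 hj.2.2.le hx
  · have h1 : lam * a ≤ 1 / 10 ^ 27 * a := mul_le_mul_of_nonneg_right hl1 a0
    have h2 : 0 ≤ lam * a := mul_nonneg hl a0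
    simp only [mul_assoc]
    norm_num at h1 ⊢
    linarith

theorem ldt_max [Nonempty I] (hχ : χ.IsPrimitive) (hM : 100 * (D + 1) ≤ M) {lam a : ℝ}
    (hE : Expd s lam) (hl : 0 ≤ lam) (hl1 : lam ≤ 1 / 10 ^ 27) (ha0 : a ≤ 1 / 10 ^ 8)
    (ha : ∀ i, pr (InA χ D s g i) ≤ a) :
    ∃ g', Cd χ D s (fun _ => True) g' ∧ pr (fun x => g x ≠ g' x) ≤ 4 * a := by
  obtain ⟨n, hn⟩ := pow_unbounded_of_one_lt (a * Fintype.card (ι → ZMod M)) one_lt_two
  induction n generalizing a g with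
  | zero =>
    have a0 : 0 ≤ a := (pr_nonneg _).trans (ha (Classical.arbitrary I))
    refine ⟨g, cd_of_not_InA hχ hM fun i => not_of_pr_lt (lt_of_le_of_lt
      (mul_le_mul_of_nonneg_right (ha i) (Nat.cast_nonneg _)) (hn.trans_eq (pow_zero _))), ?_⟩
    rw [pr_false fun x h => h rfl]
    linarith
  | succ n ih =>
    have a0 : 0 ≤ a := (pr_nonneg _).trans (ha (Classical.arbitrary I))
    obtain ⟨g', h1, h2⟩ := ih (a := a / 2) (by linarith) (ldt_step hχ hM hE hl hl1 ha0 ha)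
      (by rw [pow_succ] at hn; linarith)
    refine ⟨g', h1, ((pr_le_add fun x hx => ?_).trans
      (add_le_add (nxtF_close hχ hM ha) h2)).trans (by linarith)⟩
    by_contra hc
    rw [not_or, not_not, not_not] at hc
    exact hx (hc.1.symm.trans hc.2)

theorem ldt_avg [Nonempty I] (hχ : χ.IsPrimitive) (hM : 100 * (D + 1) ≤ M) (hE : Expd s lam0)
    {η : ℝ} (h0 : 0 < η) (h1 : η ≤ 1 / 10 ^ 8)
    (h : pr (fun z : (ι → ZMod M) × I => ¬LD χ D fun α => g (z.1 + α • s z.2)) ≤ η ^ 2) :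
    ∃ (S : I → Prop) (g' : (ι → ZMod M) → C → F), pr (fun i => ¬S i) ≤ η ∧ Cd χ D s S g' ∧
      pr (fun x => g x ≠ g' x) ≤ 4 * η := by
  classical
  have h2 := markov (f := fun i => pr fun x => ¬LD χ D fun α => g (x + α • s i))
    (fun _ => pr_nonneg _) h0
  obtain ⟨S, hS⟩ : ∃ S : I → Prop,
      ∀ i, S i ↔ (pr fun x => ¬LD χ D fun α => g (x + α • s i)) < η := ⟨_, fun _ => Iff.rfl⟩
  have h3 : pr (fun i => ¬S i) ≤ η := by
    refine (pr_mono fun i hi => not_lt.1 fun h' => hi ((hS i).2 h')).trans (h2.trans ?_)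
    rw [div_le_iff₀ h0, ← sq]
    rw [pr_prod'] at h
    exact h
  have h4 : 1 / 2 ≤ pr S := by
    have h4 := (pr_not S).symm.le.trans h3
    linarith
  obtain ⟨i₀, hi₀⟩ := exists_of_pr_pos (lt_of_lt_of_le (by norm_num) h4)
  have : Nonempty {i // S i} := ⟨⟨i₀, hi₀⟩⟩
  obtain ⟨g', h5, h6⟩ := ldt_max (g := g) hχ hM (hE.sub h4) (by norm_num [lam0])
    (by norm_num [lam0]) h1 fun i => (pr_mono fun x hx hL => hx ⟨_, ⟨hL, by
      rw [pr_false fun α h => h rfl]
      norm_num⟩, by simp⟩).trans ((hS i).1 i.2).le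
  exact ⟨S, g', h3, fun i hi x => h5 ⟨i, hi⟩ trivial x, h6⟩

end Vale.Agent.P330
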