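import Mathlib

/-! The divisibility step of the Polishchuk-Spielman lemma. -/

namespace Vale.Agent.P330

open Polynomial Polynomial.Bivariate

section

variable {F : Type} [Field F]

theorem kps0_coeff (p : F[X][Y]) (i j : ℕ) : ((swap p).coeff i).coeff j = (p.coeff j).coeff i := by
  induction p using Polynomial.induction_on' with
  | add p q hp hq => simp [hp, hq]
  | monomial n a =>
    induction a using Polynomial.induction_on' with
    | add p q hp hq => simp only [map_add, coeff_add, hp, hq]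
    | monomial m r =>
      rw [swap_monomial_monomial]
      by_cases h1 : m = i <;> by_cases h2 : n = j <;> simp [coeff_monomial, h1, h2]

theorem kps0_deg {p : F[X][Y]} {k : ℕ} :
    (swap p).natDegree ≤ k ↔ ∀ m, (p.coeff m).natDegree ≤ k := by
  simp only [natDegree_le_iff_coeff_eq_zero]
  refine ⟨fun h m N hN => ?_, fun h N hN => ?_⟩
  · rw [← kps0_coeff, h N hN, coeff_zero]
  · ext m
    rw [kps0_coeff, h m N hN, coeff_zero]

theorem kps0_map (p : F[X][Y]) (b : F) : (swap p).map (evalRingHom b) = p.eval (C b) := by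
  induction p using Polynomial.induction_on' with
  | add p q hp hq => simp [hp, hq]
  | monomial n a =>
    rw [swap_monomial, Polynomial.map_mul, map_map, map_C, eval_monomial]
    have : (evalRingHom b).comp C = RingHom.id F := by
      ext x
      simp
    rw [this, map_id]
    simp

theorem kps0_ne {R : Type} [CommRing R] [IsDomain R] [DecompositionMonoid R[X]] {f g : R[X]}
    (h : IsRelPrime f g) (hf : f ≠ 0) {n : ℕ} (hg : g.natDegree ≤ n) :
    resultant f g f.natDegree n ≠ 0 := by
  intro h0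
  obtain ⟨v, hv, h1⟩ := Matrix.exists_mulVec_eq_zero_iff.2 h0
  rw [← toMatrix_sylvesterMap' f g le_rfl hg] at h1
  set B := ((degreeLT.basis R f.natDegree).prod (degreeLT.basis R n)).reindex finSumFinEquiv
  have h2 : v = B.repr (B.equivFun.symm v) := by
    rw [← Module.Basis.equivFun_apply, LinearEquiv.apply_symm_apply]
  rw [h2, LinearMap.toMatrix_mulVec_repr] at h1
  have h3 : sylvesterMap f g le_rfl hg (B.equivFun.symm v) = 0 :=
    (degreeLT.basis R _).repr.injective (by rw [map_zero]; exact DFunLike.coe_injective h1)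
  refine hv ?_
  generalize B.equivFun.symm v = x at h2 h3
  obtain ⟨⟨p, hp⟩, ⟨q, hq⟩⟩ := x
  have h4 : f * q + g * p = 0 := congrArg Subtype.val h3
  have h5 : f ∣ p := h.dvd_of_dvd_mul_left ⟨-q, by linear_combination h4⟩
  have h6 : p = 0 := eq_zero_of_dvd_of_degree_lt h5 (by
    rw [degree_eq_natDegree hf]; exact mem_degreeLT.1 hp)
  have h7 : q = 0 := by simpa [h6, hf] using h4
  subst h6 h7
  rw [h2]
  exact congrArg DFunLike.coe (map_zero B.repr)

theorem kps0_det {f g : F[X][Y]} {m n u v : ℕ} (hf : ∀ i, (f.coeff i).natDegree ≤ u)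
    (hg : ∀ i, (g.coeff i).natDegree ≤ v) : (resultant f g m n).natDegree ≤ m * v + n * u := by
  rw [resultant, Matrix.det_apply]
  refine natDegree_sum_le_of_forall_le _ _ fun σ _ => ?_
  have h1 : (Equiv.Perm.sign σ • ∏ j, sylvester f g m n (σ j) j).natDegree ≤
      (∏ j, sylvester f g m n (σ j) j).natDegree := by
    rcases Int.units_eq_one_or (Equiv.Perm.sign σ) with h | h <;> simp [h]
  refine h1.trans ((natDegree_prod_le _ _).trans ?_)
  rw [Fin.sum_univ_add]
  refine add_le_add ((Finset.sum_le_card_nsmul _ _ v fun j _ => ?_).trans (by simp))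
    ((Finset.sum_le_card_nsmul _ _ u fun j _ => ?_).trans (by simp))
  · simp only [sylvester, Matrix.of_apply, Fin.addCases_left]
    split_ifs
    · exact hg _
    · simp
  · simp only [sylvester, Matrix.of_apply, Fin.addCases_right]
    split_ifs
    · exact hf _
    · simp

theorem kps0_core {E P : F[X][Y]} (h : IsRelPrime E P) {k d : ℕ} (hn : 0 < E.natDegree)
    (hk : k ≤ E.natDegree) (hE : (swap E).natDegree ≤ k) (hP : P.natDegree ≤ E.natDegree + d)
    (hP2 : (swap P).natDegree ≤ k + d) (S : Finset F) {γ : F → F[X]}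
    (hγ : ∀ t ∈ S, (γ t).natDegree ≤ d)
    (hc : ∀ t ∈ S, P.map (evalRingHom t) = E.map (evalRingHom t) * γ t) :
    S.card ≤ 2 * E.natDegree + 2 * d := by
  have hE0 : E ≠ 0 := by
    rintro rfl
    simp at hn
  have h1 := kps0_ne h hE0 hP
  have h2 := kps0_det (m := E.natDegree) (n := E.natDegree + d) (kps0_deg.1 hE) (kps0_deg.1 hP2)
  have h3 : ∀ t ∈ S, (X - C t) ^ E.natDegree ∣ resultant E P E.natDegree (E.natDegree + d) := by
    intro t ht
    have h4 : C (X - C t) ∣ P - E * (γ t).map C := by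
      rw [C_dvd_iff_dvd_coeff]
      intro i
      rw [dvd_iff_isRoot]
      have h5 : (P - E * (γ t).map C).map (evalRingHom t) = 0 := by
        have : (evalRingHom t).comp C = RingHom.id F := by
          ext x
          simp
        rw [Polynomial.map_sub, Polynomial.map_mul, map_map, this, map_id, hc t ht, sub_self]
      have h6 := congrArg (fun p => coeff p i) h5
      simp only [coeff_map, coeff_zero] at h6
      exact h6
    obtain ⟨W, hW⟩ := h4
    rw [sub_eq_iff_eq_add.1 hW, resultant_add_mul_right _ _ _ _ _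
      (by have := (natDegree_map_le (f := C) (p := γ t)).trans (hγ t ht); omega) le_rfl,
      resultant_C_mul_right]
    exact dvd_mul_right _ _
  have h4 := Finset.prod_dvd_of_coprime (t := S) (s := fun t => (X - C t) ^ E.natDegree)
    (fun a _ b _ hab => (pairwise_coprime_X_sub_C (s := id) Function.injective_id hab).pow) h3
  have h5 := natDegree_le_of_dvd h4 h1
  rw [natDegree_prod_of_monic _ _ fun t _ => (monic_X_sub_C t).pow _] at h5
  simp only [natDegree_pow, natDegree_X_sub_C, mul_one, Finset.sum_const, smul_eq_mul] at h5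
  refine Nat.le_of_mul_le_mul_right ((h5.trans h2).trans ?_) hn
  nlinarith [Nat.mul_le_mul_left E.natDegree hk, Nat.mul_le_mul_left d hk]

theorem kps0_fac {g p : F[X][Y]} (hg : g ≠ 0) : p.natDegree ≤ (g * p).natDegree := by
  by_cases hp : p = 0
  · simp [hp]
  · rw [natDegree_mul hg hp]
    omega

theorem kps0_side (T : Finset F) {a d : ℕ} (hT : 3 * a + 2 * d < T.card) {g E P : F[X][Y]}
    (hE : g * E ≠ 0) (hE2 : (swap (g * E)).natDegree ≤ a)
    (hP2 : (swap (g * P)).natDegree ≤ a + d) {γ : F → F[X]} (hγ : ∀ t ∈ T, (γ t).natDegree ≤ d)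
    (hc : ∀ t ∈ T, (g * P).map (evalRingHom t) = (g * E).map (evalRingHom t) * γ t) :
    ∃ S : Finset F, 2 * a + 2 * d < S.card ∧ (∀ t ∈ S, (γ t).natDegree ≤ d) ∧
      (∀ t ∈ S, P.map (evalRingHom t) = E.map (evalRingHom t) * γ t) ∧
      P.natDegree ≤ E.natDegree + d := by
  classical
  have hg : g ≠ 0 := left_ne_zero_of_mul hE
  have h1 : (T.filter fun t => (g * E).map (evalRingHom t) = 0).card ≤ a := by
    refine (card_le_degree_of_subset_roots (p := (g * E).leadingCoeff) fun t ht => ?_).trans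
      (kps0_deg.1 hE2 _)
    rw [mem_roots (leadingCoeff_ne_zero.2 hE)]
    have h2 := congrArg (fun p => coeff p (g * E).natDegree) (Finset.mem_filter.1 ht).2
    simp only [coeff_map, coeff_zero] at h2
    exact h2
  have h2 := Finset.card_filter_add_card_filter_not (s := T)
    fun t => (g * E).map (evalRingHom t) = 0
  set S := T.filter fun t => ¬ (g * E).map (evalRingHom t) = 0
  have h3 : ∀ t ∈ S, P.map (evalRingHom t) = E.map (evalRingHom t) * γ t := by
    intro t ht
    obtain ⟨h4, h5⟩ := Finset.mem_filter.1 ht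
    have h6 := hc t h4
    rw [Polynomial.map_mul] at h5
    rw [Polynomial.map_mul, Polynomial.map_mul, mul_assoc] at h6
    exact mul_left_cancel₀ (left_ne_zero_of_mul h5) h6
  have h4 : ∀ t ∈ S, (γ t).natDegree ≤ d := fun t ht => hγ t (Finset.mem_filter.1 ht).1
  refine ⟨S, by omega, h4, h3, natDegree_le_iff_coeff_eq_zero.2 fun m hm => ?_⟩
  have h5 : (swap P).natDegree ≤ a + d := by
    rw [map_mul] at hP2
    exact (kps0_fac ((map_ne_zero_iff _ swap.injective).2 hg)).trans hP2
  refine eq_zero_of_natDegree_lt_card_of_eval_eq_zero' _ S (fun t ht => ?_)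
    (by have := kps0_deg.1 h5 m; omega)
  have h6 : (P.map (evalRingHom t)).natDegree ≤ E.natDegree + d := by
    rw [h3 t ht]
    exact natDegree_mul_le.trans (add_le_add natDegree_map_le (h4 t ht))
  have h7 := natDegree_le_iff_coeff_eq_zero.1 h6 m hm
  rwa [coeff_map] at h7

end

theorem ps_div {F : Type} [Field F] (T : Finset F) {a d : ℕ} (hT : 3 * a + 2 * d < T.card)
    {E P : Polynomial (Polynomial F)} (hE : E ≠ 0) (hE1 : E.natDegree ≤ a)
    (hE2 : ∀ m, (E.coeff m).natDegree ≤ a) (hP1 : P.natDegree ≤ a + d)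
    (hP2 : ∀ m, (P.coeff m).natDegree ≤ a + d) {ρ γ : F → Polynomial F}
    (hρ : ∀ b ∈ T, (ρ b).natDegree ≤ d) (hγ : ∀ t ∈ T, (γ t).natDegree ≤ d)
    (hrow : ∀ b ∈ T, P.eval (C b) = E.eval (C b) * ρ b)
    (hcol : ∀ t ∈ T, P.map (evalRingHom t) = E.map (evalRingHom t) * γ t) :
    ∃ Q : Polynomial (Polynomial F), P = E * Q ∧ Q.natDegree ≤ d ∧
      ∀ m, (Q.coeff m).natDegree ≤ d := by
  obtain ⟨E, P, g, hc, rfl, rfl⟩ := UniqueFactorizationMonoid.exists_reduced_factors E hE P
  have hg : g ≠ 0 := left_ne_zero_of_mul hE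
  have hE' : swap g * swap E ≠ 0 := by
    rw [← map_mul]
    exact (map_ne_zero_iff _ swap.injective).2 hE
  obtain ⟨S, a1, a2, a3, a4⟩ := kps0_side T hT hE (kps0_deg.2 hE2) (kps0_deg.2 hP2) hγ hcol
  obtain ⟨S', b1, b2, b3, b4⟩ := kps0_side T hT (P := swap P) hE'
    (by rwa [← map_mul, swap_swap_apply]) (by rwa [← map_mul, swap_swap_apply]) hρ
    (by simpa only [← map_mul, kps0_map] using hrow)
  have hc' : IsRelPrime (swap E) (swap P) := fun z h1 h2 => by
    have h3 := map_dvd swap h1
    have h4 := map_dvd swap h2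
    rw [swap_swap_apply] at h3 h4
    have h5 := (hc h3 h4).map swap
    rwa [swap_swap_apply] at h5
  have c1 : E.natDegree ≤ a := (kps0_fac hg).trans hE1
  have c2 : (swap E).natDegree ≤ a := by
    have h1 := kps0_deg.2 hE2
    rw [map_mul] at h1
    exact (kps0_fac (left_ne_zero_of_mul hE')).trans h1
  have c3 : E.natDegree = 0 ∧ (swap E).natDegree = 0 := by
    by_contra hn
    rcases le_total (swap E).natDegree E.natDegree with h | h
    · have := kps0_core hc (by omega) h le_rfl a4 b4 S a2 a3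
      omega
    · have := kps0_core hc' (k := E.natDegree) (by omega) h (by rw [swap_swap_apply]) b4
        (by rwa [swap_swap_apply]) S' b2 b3
      omega
  obtain ⟨e, rfl⟩ := natDegree_eq_zero.1 c3.1
  have c4 := kps0_deg.1 c3.2.le 0
  rw [coeff_C_zero] at c4
  obtain ⟨c, rfl⟩ := natDegree_eq_zero.1 (Nat.le_zero.1 c4)
  have c5 : c ≠ 0 := by
    rintro rfl
    simp at hE
  rw [c3.1, zero_add] at a4
  rw [c3.2, zero_add] at b4
  refine ⟨C (C c⁻¹) * P, ?_, (natDegree_C_mul_le _ _).trans a4, fun m => ?_⟩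
  · rw [mul_assoc, ← mul_assoc (C (C c)), ← C_mul, ← C_mul, mul_inv_cancel₀ c5]
    simp
  · rw [coeff_C_mul]
    exact (natDegree_C_mul_le _ _).trans (kps0_deg.1 b4 m)

end Vale.Agent.P330
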