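import Vale.Agent.P330.KDefs
import Vale.Agent.P330.KPS0

/-! The Polishchuk-Spielman lemma for vector valued functions. -/

namespace Vale.Agent.P330

open Polynomial Finset

/-- a nonzero polynomial in two variables that vanishes at given points -/
theorem KPS_E {F Z : Type} [Field F] [Fintype Z] (x y : Z → F) {a : ℕ}
    (h : Fintype.card Z < (a + 1) * (a + 1)) :
    ∃ E : Polynomial (Polynomial F), E ≠ 0 ∧ E.natDegree ≤ a ∧ (∀ m, (E.coeff m).natDegree ≤ a) ∧
      ∀ z, E.evalEval (x z) (y z) = 0 := by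
  let L : (Fin (a + 1) × Fin (a + 1) → F) →ₗ[F] Z → F :=
    Matrix.mulVecLin (Matrix.of fun z ij => x z ^ (ij.1 : ℕ) * y z ^ (ij.2 : ℕ))
  obtain ⟨v, hv, hv0⟩ := (Submodule.ne_bot_iff _).1
    (L.ker_ne_bot_of_finrank_lt (by simpa using h))
  have hco : ∀ m, (∑ j : Fin (a + 1), monomial (j : ℕ) (∑ i : Fin (a + 1),
      monomial (i : ℕ) (v (i, j)))).coeff m = ∑ j : Fin (a + 1), if (j : ℕ) = m then
        ∑ i : Fin (a + 1), monomial (i : ℕ) (v (i, j)) else 0 := fun m => by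
    simp only [finsetSum_coeff, coeff_monomial]
  refine ⟨∑ j : Fin (a + 1), monomial (j : ℕ) (∑ i : Fin (a + 1), monomial (i : ℕ) (v (i, j))),
    fun h0 => hv0 (funext fun ij => ?_), ?_, fun m => ?_, fun z => ?_⟩
  · have h1 := congrArg (fun p => coeff p ij.1) (hco ij.2)
    rw [h0] at h1
    simpa [Fin.val_inj, coeff_monomial] using h1.symm
  · exact natDegree_sum_le_of_forall_le _ _ fun j _ =>
      (natDegree_monomial_le _).trans (Nat.lt_succ_iff.1 j.2)
  · rw [hco]
    refine natDegree_sum_le_of_forall_le _ _ fun j _ => ?_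
    split_ifs
    · exact natDegree_sum_le_of_forall_le _ _ fun i _ =>
        (natDegree_monomial_le _).trans (Nat.lt_succ_iff.1 i.2)
    · exact Nat.zero_le _
  · have h1 : ∑ ij : Fin (a + 1) × Fin (a + 1), x z ^ (ij.1 : ℕ) * y z ^ (ij.2 : ℕ) * v ij = 0 :=
      congrFun (LinearMap.mem_ker.1 hv) z
    rw [← h1, Fintype.sum_prod_type_right]
    simp only [evalEval, eval_finsetSum, eval_monomial, eval_mul, eval_pow, eval_C, sum_mul]
    exact sum_congr rfl fun j _ => sum_congr rfl fun i _ => by ring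

theorem KPS_row {F : Type} [Field F] {E : Polynomial (Polynomial F)} {a : ℕ}
    (h : ∀ m, (E.coeff m).natDegree ≤ a) (t : F) : (E.eval (C t)).natDegree ≤ a := by
  rw [eval_eq_sum_range]
  refine natDegree_sum_le_of_forall_le _ _ fun m _ => ?_
  rw [← C_pow]
  exact (natDegree_mul_C_le _ _).trans (h m)

/-- the scalar case -/
theorem KPS_P {F ι : Type} [Field F] [Fintype ι] {x : ι → F} (hx : Function.Injective x) {a d : ℕ}
    (hT : 3 * a + 2 * d < Fintype.card ι) {E : Polynomial (Polynomial F)} (hE : E ≠ 0)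
    (hE1 : E.natDegree ≤ a) (hE2 : ∀ m, (E.coeff m).natDegree ≤ a) {ρ γ : ι → Polynomial F}
    (hρ : ∀ j, (ρ j).natDegree ≤ d) (hγ : ∀ i, (γ i).natDegree ≤ d)
    (h : ∀ i j, E.evalEval (x i) (x j) = 0 ∨ (ρ j).eval (x i) = (γ i).eval (x j)) :
    ∃ Q : Polynomial (Polynomial F), Q.natDegree ≤ d ∧ (∀ m, (Q.coeff m).natDegree ≤ d) ∧
      (∀ j, E.eval (C (x j)) ≠ 0 → Q.eval (C (x j)) = ρ j) ∧
      ∀ i, E.map (evalRingHom (x i)) ≠ 0 → Q.map (evalRingHom (x i)) = γ i := by
  classical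
  obtain ⟨P, hP⟩ : ∃ P : Polynomial (Polynomial F), P =
    ∑ j, C (E.eval (C (x j)) * ρ j) * (Lagrange.basis univ x j).map C := ⟨_, rfl⟩
  have hrow : ∀ j, P.eval (C (x j)) = E.eval (C (x j)) * ρ j := fun j => by
    rw [hP, eval_finsetSum, sum_eq_single j (fun i _ hi => ?_) fun hj => (hj (mem_univ _)).elim]
    · rw [eval_mul, eval_C, eval_map_apply, Lagrange.eval_basis_self hx.injOn (mem_univ _), C_1,
        mul_one]
    · rw [eval_mul, eval_map_apply, Lagrange.eval_basis_of_ne hi (mem_univ _), C_0, mul_zero]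
  have hdeg : ∀ i, (E.map (evalRingHom (x i)) * γ i).natDegree ≤ a + d := fun i =>
    natDegree_mul_le.trans (add_le_add (natDegree_map_le.trans hE1) (hγ i))
  have hcol : ∀ i, P.map (evalRingHom (x i)) = E.map (evalRingHom (x i)) * γ i := fun i => by
    rw [Lagrange.eq_interpolate (s := univ) (f := E.map (evalRingHom (x i)) * γ i) hx.injOn
      (degree_le_natDegree.trans_lt (by
        rw [card_univ]
        exact_mod_cast (hdeg i).trans_lt (by omega))), Lagrange.interpolate_apply, hP,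
      Polynomial.map_sum]
    refine sum_congr rfl fun j _ => ?_
    have h1 : (evalRingHom (x i)).comp C = RingHom.id F := RingHom.ext fun _ => eval_C
    rw [Polynomial.map_mul, map_C, Polynomial.map_map, h1, Polynomial.map_id, eval_mul,
      map_evalRingHom_eval, coe_evalRingHom, eval_mul]
    rcases h i j with h2 | h2
    · rw [h2, show eval (x i) (eval (C (x j)) E) = 0 from h2, zero_mul, zero_mul]
    · rw [h2]
  have hP2 : ∀ m, (P.coeff m).natDegree ≤ a + d := fun m => by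
    rw [hP, finsetSum_coeff]
    refine natDegree_sum_le_of_forall_le _ _ fun j _ => ?_
    rw [coeff_C_mul, coeff_map]
    exact (natDegree_mul_C_le _ _).trans
      (natDegree_mul_le.trans (add_le_add (KPS_row hE2 _) (hρ j)))
  have hP1 : P.natDegree ≤ a + d := natDegree_le_iff_coeff_eq_zero.2 fun m hm =>
    eq_zero_of_natDegree_lt_card_of_eval_eq_zero _ hx (fun i => by
      have h1 := congrArg (fun p => coeff p m) (hcol i)
      simp only [coeff_map, coe_evalRingHom] at h1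
      rw [h1, coeff_eq_zero_of_natDegree_lt ((hdeg i).trans_lt hm)])
      ((hP2 m).trans_lt (by omega))
  obtain ⟨Q, hQ, hQ1, hQ2⟩ := ps_div (univ.image x) (a := a) (d := d)
    (by rwa [card_image_of_injective _ hx, card_univ]) hE hE1 hE2 hP1 hP2
    (ρ := Function.extend x ρ 0) (γ := Function.extend x γ 0)
    (by simpa [hx.extend_apply] using hρ) (by simpa [hx.extend_apply] using hγ)
    (by simpa [hx.extend_apply] using hrow) (by simpa [hx.extend_apply] using hcol)
  refine ⟨Q, hQ1, hQ2, fun j hj => mul_left_cancel₀ hj ?_, fun i hi => mul_left_cancel₀ hi ?_⟩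
  · rw [← hrow, hQ, eval_mul]
  · rw [← hcol, hQ, Polynomial.map_mul]

theorem KPS_cnt {R ι : Type} [CommRing R] [IsDomain R] [Fintype ι] {p : Polynomial R} (hp : p ≠ 0)
    {f : ι → R} (hf : Function.Injective f) :
    pr (fun i => p.eval (f i) = 0) ≤ p.natDegree / Fintype.card ι := by
  classical
  rw [pr_eq_card]
  refine div_le_div_of_nonneg_right (Nat.cast_le.2 ?_) (Nat.cast_nonneg _)
  rw [← card_image_of_injective _ hf]
  refine card_le_degree_of_subset_roots fun t ht => ?_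
  obtain ⟨i, hi, rfl⟩ := mem_image.1 ht
  exact (mem_roots hp).2 (mem_filter.1 hi).2

theorem KPS_ne {M : ℕ} {F : Type} [Field F] (χ : AddChar (ZMod M) F) (α : ZMod M) (D : ℕ) :
    χ α ^ D ≠ 0 := pow_ne_zero _ (χ.val_isUnit α).ne_zero

theorem ps_plane {M : ℕ} [Fact M.Prime] {F C : Type} [Field F] {χ : AddChar (ZMod M) F}
    (hχ : χ.IsPrimitive) {D : ℕ} (hM : 100 * (D + 1) ≤ M) {γ : ℝ} (h0 : 0 ≤ γ) (h1 : γ ≤ 1 / 16)
    {r c : ZMod M → ZMod M → C → F} (hr : ∀ β, LD χ D (r β)) (hc : ∀ α, LD χ D (c α))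
    (h : pr (fun z : ZMod M × ZMod M => r z.2 z.1 ≠ c z.1 z.2) ≤ γ ^ 2) :
    ∃ Q : ZMod M → ZMod M → C → F, (∀ β, LD χ D fun α => Q α β) ∧ (∀ α, LD χ D (Q α)) ∧
      pr (fun β => ¬∀ α, Q α β = r β α) ≤ γ ∧ pr (fun α => ¬∀ β, Q α β = c α β) ≤ γ := by
  classical
  have hinj := chi_inj hχ
  have hM0 : (0 : ℝ) < M := Nat.cast_pos.2 (by omega)
  obtain ⟨a, ha1, ha2⟩ : ∃ a : ℕ, (a : ℝ) ≤ γ * M ∧ γ * M < a + 1 :=
    ⟨_, Nat.floor_le (mul_nonneg h0 hM0.le), Nat.lt_floor_add_one _⟩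
  have ha3 : 3 * a + 2 * (2 * D) < Fintype.card (ZMod M) := by
    have : 16 * a ≤ M := by exact_mod_cast (by nlinarith : (16 : ℝ) * a ≤ M)
    rw [ZMod.card]
    omega
  have ha4 : (a : ℝ) / Fintype.card (ZMod M) ≤ γ := by
    rw [ZMod.card, div_le_iff₀ hM0]
    exact ha1
  obtain ⟨E, hE, hE1, hE2, hE3⟩ := KPS_E (Z := {z : ZMod M × ZMod M // r z.2 z.1 ≠ c z.1 z.2})
    (fun z => χ z.1.1) (fun z => χ z.1.2) (a := a) (by
      rw [pr_eq_card, Fintype.card_prod, ZMod.card, Nat.cast_mul,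
        div_le_iff₀ (mul_pos hM0 hM0)] at h
      rw [Fintype.card_subtype]
      have h2 := mul_self_lt_mul_self (mul_nonneg h0 hM0.le) ha2
      exact_mod_cast h.trans_lt (by nlinarith : _ < ((a : ℝ) + 1) * (a + 1)))
  choose q hq hq' using fun k β => LD.poly_iff.1 (LD.pi_iff.1 (hr β) k)
  choose q' hp hp' using fun k α => LD.poly_iff.1 (LD.pi_iff.1 (hc α) k)
  choose Q hQ1 hQ2 hQ3 hQ4 using fun k => KPS_P hinj ha3 hE hE1 hE2
    (ρ := fun β => Polynomial.C (χ β ^ D) * q k β) (γ := fun α => Polynomial.C (χ α ^ D) * q' k α)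
    (fun β => (natDegree_C_mul_le _ _).trans (hq k β))
    (fun α => (natDegree_C_mul_le _ _).trans (hp k α)) fun α β => by
      by_cases h2 : r β α = c α β
      · right
        rw [eval_C_mul, eval_C_mul, ← hq', ← hp', h2]
        ring
      · exact Or.inl (hE3 ⟨(α, β), h2⟩)
  refine ⟨fun α β k => (Q k).evalEval (χ α) (χ β) / (χ α ^ D * χ β ^ D),
    fun β => LD.pi_iff.2 fun k => LD.poly_iff.2
      ⟨Polynomial.C (χ β ^ D)⁻¹ * (Q k).eval (Polynomial.C (χ β)),
        (natDegree_C_mul_le _ _).trans (KPS_row (hQ2 k) _), fun α => ?_⟩,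
    fun α => LD.pi_iff.2 fun k => LD.poly_iff.2
      ⟨Polynomial.C (χ α ^ D)⁻¹ * (Q k).map (evalRingHom (χ α)),
        (natDegree_C_mul_le _ _).trans (natDegree_map_le.trans (hQ1 k)), fun β => ?_⟩, ?_, ?_⟩
  · have h2 := KPS_ne χ α D
    rw [eval_C_mul]
    field_simp
  · have h2 := KPS_ne χ β D
    rw [eval_C_mul, map_evalRingHom_eval]
    field_simp
  · refine le_trans (pr_mono fun β hβ => ?_) ((KPS_cnt hE (C_injective.comp hinj)).trans
      ((div_le_div_of_nonneg_right (Nat.cast_le.2 hE1) (Nat.cast_nonneg _)).trans ha4))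
    by_contra h2
    refine hβ fun α => funext fun k => ?_
    have h3 := KPS_ne χ α D
    have h4 := KPS_ne χ β D
    beta_reduce
    rw [evalEval, hQ3 k β h2, eval_C_mul, ← hq']
    field_simp
  · obtain ⟨m, hm⟩ : ∃ m, E.coeff m ≠ 0 := ⟨_, leadingCoeff_ne_zero.2 hE⟩
    refine le_trans (pr_mono fun α hα => ?_) ((KPS_cnt hm hinj).trans
      ((div_le_div_of_nonneg_right (Nat.cast_le.2 (hE2 m)) (Nat.cast_nonneg _)).trans ha4))
    by_contra h2
    refine hα fun β => funext fun k => ?_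
    have h3 := KPS_ne χ α D
    have h4 := KPS_ne χ β D
    have h5 : E.map (evalRingHom (χ α)) ≠ 0 := fun h5 => h2 (by
      have h6 := congrArg (fun p => coeff p m) h5
      simpa only [coeff_map, coe_evalRingHom, coeff_zero] using h6)
    beta_reduce
    rw [← map_evalRingHom_eval, hQ4 k α h5, eval_C_mul, ← hp']
    field_simp

end Vale.Agent.P330
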