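import Vale.Agent.P330.Defs

/-! Reversible local machines with local checks. -/

namespace Vale.Agent.P330

/-- A local Boolean function: a truth table and five cell indices. -/
abbrev Desc := List Bool × List ℕ

/-- The number with the given five bits. -/
def bnum (β : Fin 5 → Bool) : ℕ :=
  (β 0).toNat + 2 * (β 1).toNat + 4 * (β 2).toNat + 8 * (β 3).toNat + 16 * (β 4).toNat

/-- The truth table entry. -/
def Desc.tt (D : Desc) (β : Fin 5 → Bool) : Bool := D.1.getD (bnum β) false

/-- The cell index. -/
def Desc.ix (D : Desc) (b : Fin 5) : ℕ := D.2.getD b 0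

/-- The value on a word. -/
def Desc.ev (D : Desc) (w : List Bool) : Bool := D.tt fun b => w.getD (D.ix b) false

/-- The truth table of a function. -/
def mkT (f : (Fin 5 → Bool) → Bool) : List Bool :=
  (List.range 32).map fun n => f fun b => n.testBit b

lemma mkT_tt (f : (Fin 5 → Bool) → Bool) (l : List ℕ) (β : Fin 5 → Bool) :
    Desc.tt (mkT f, l) β = f β := by
  have h : ∀ β : Fin 5 → Bool, bnum β < 32 ∧ (fun b : Fin 5 => (bnum β).testBit b) = β := by
    decide
  simp [Desc.tt, mkT, List.getD_eq_getElem?_getD, (h β).1, (h β).2]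

/-- A machine: word length, forward rule, backward rule, checks for the two parities, first word
and its parity. -/
abbrev Mach := ℕ × List Desc × List Desc × List Desc × List Desc × List Bool × Bool

namespace Mach

variable (A : Mach)

/-- The word length. -/
def k : ℕ := A.1

/-- The rule of a direction (`true` is forward). -/
def prog (dir : Bool) : List Desc := if dir then A.2.1 else A.2.2.1

/-- The checks. -/
def ck (g : Bool) : List Desc := if g then A.2.2.2.2.1 else A.2.2.2.1

/-- The first word. -/
def w0 : List Bool := A.2.2.2.2.2.1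

/-- The first parity. -/
def g0 : Bool := A.2.2.2.2.2.2

/-- One step. -/
def step (dir : Bool) (w : List Bool) : List Bool := (A.prog dir).map fun D => D.ev w

/-- The checks of parity `g` pass. -/
def ok (g : Bool) (w : List Bool) : Prop := w.length = A.k ∧ ∀ D ∈ A.ck g, D.ev w = false

/-- An edge from a word of parity `g`. -/
def Edge (g : Bool) (w w' : List Bool) : Prop :=
  A.ok g w ∧ A.ok (!g) w' ∧ A.step true w = w' ∧ A.step false w' = w

/-- Indices are in range. -/
def WF : Prop :=
  (∀ dir, (A.prog dir).length = A.k ∧ ∀ D ∈ A.prog dir, ∀ b, D.ix b < A.k) ∧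
    ∀ g, ∀ D ∈ A.ck g, ∀ b, D.ix b < A.k

/-- A word at an end of a line other than the first word. -/
def End (w : List Bool) : Prop :=
  (∃ g w', A.Edge g w' w ∧ ¬∃ w'', A.Edge (!g) w w'') ∨
    ∃ g w', A.Edge g w w' ∧ (¬∃ w'', A.Edge (!g) w'' w) ∧ (g, w) ≠ (A.g0, A.w0)

/-- The first word starts a line. -/
def Start : Prop :=
  A.WF ∧ A.Edge A.g0 A.w0 (A.step true A.w0) ∧ ¬∃ w, A.Edge (!A.g0) w A.w0

end Mach

end Vale.Agent.P330
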