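import Vale.Agent.P330.Mach

/-! The machine of an End-of-Line instance. -/

namespace Vale.Agent.P330

namespace EoL

variable (I : EoL)

/-- The number of gates of the successor circuit. -/
def gS : ℕ := I.2.1.1.length

/-- The number of gates of the predecessor circuit. -/
def gP : ℕ := I.2.2.1.length

/-- The time when the second register is set. -/
def tY : ℕ := I.gS + 1

/-- The time when both circuits are evaluated. -/
def tP : ℕ := I.tY + I.gP

/-- The last time of the first register. -/
def tD : ℕ := I.tP + I.gS

/-- The period of the clock. -/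
def T : ℕ := I.tD + I.gP + 3

/-- The first cell of the gates of the successor circuit. -/
def oS : ℕ := I.T + I.1

/-- The first cell of the second register. -/
def oY : ℕ := I.oS + I.gS

/-- The first cell of the gates of the predecessor circuit. -/
def oP : ℕ := I.oY + I.1

/-- The number of cells. -/
def k : ℕ := I.oP + I.gP

/-- The birth time of a cell. -/
def bth (q : ℕ) : ℕ :=
  if q < I.oS then 0 else if q < I.oY then q - I.oS + 1 else if q < I.oP then I.tY
  else I.tY + 1 + (q - I.oP)

/-- The death time of a cell. -/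
def dth (q : ℕ) : ℕ :=
  if q < I.oS then I.tD + 1 else if q < I.oY then I.tD - (q - I.oS) else if q < I.oP then I.T
  else I.tD + 1 + I.gP - (q - I.oP)

/-- The cell is alive. -/
def alive (q t : ℕ) : Bool := decide (I.bth q ≤ t) && decide (t < I.dth q)

/-- A gate with shifted inputs; the second input of a negation is ignored. -/
def shG (d : ℕ) (g : BGate) : BGate := (g.1, g.2.1 + d, g.2.2 + d)

/-- The gate that sets a cell in the given direction. -/
def op (dir : Bool) (q : ℕ) : BGate :=
  if q < I.oS then
    shG I.oY (if dir then (1, q - I.T, q - I.T)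
      else (1, I.2.2.2.getD (q - I.T) 0, I.2.2.2.getD (q - I.T) 0))
  else if q < I.oY then shG I.T (I.2.1.1.getD (q - I.oS) (0, 0, 0))
  else if q < I.oP then
    shG I.T (if dir then (1, I.2.1.2.getD (q - I.oY) 0, I.2.1.2.getD (q - I.oY) 0)
      else (1, q - I.oY, q - I.oY))
  else shG I.oY (I.2.2.1.getD (q - I.oP) (0, 0, 0))

/-- The value of a gate type. -/
def opV (o : ℕ) (a b : Bool) : Bool := if o = 0 then a && b else if o = 1 then a || b else !a

/-- The table of an update. -/
def updT (o : ℕ) : List Bool :=
  mkT fun β => if β 0 then opV o (β 3) (β 4) else if β 1 then false else β 2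

/-- The table of a comparison. -/
def neT (o : ℕ) : List Bool := mkT fun β => β 0 && (β 1 != opV o (β 3) (β 4))

/-- The update of a cell. -/
def upd (dir : Bool) (q : ℕ) : Desc :=
  if q < I.T then
    (mkT fun β => β 0, List.replicate 5 (if dir then (q + I.T - 1) % I.T else (q + 1) % I.T))
  else
    (updT (I.op dir q).1,
      [if dir then (I.bth q + I.T - 1) % I.T else I.dth q % I.T,
        if dir then I.dth q - 1 else I.bth q, q, (I.op dir q).2.1, (I.op dir q).2.2])

/-- The time is in the interval where the cell is compared with its gate. -/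
def con (q t : ℕ) : Bool :=
  if q < I.oS then decide (I.tP ≤ t) else if q < I.oY then true
  else if q < I.oP then decide (t ≤ I.tP) else true

/-- The check of a cell at a time. -/
def chk (g : Bool) (t q : ℕ) : Desc :=
  if (if q < I.T then decide (q ≠ t ∨ t % 2 ≠ g.toNat) else !I.alive q t) then
    (mkT fun β => β 0 && β 1, [t, q, q, q, q])
  else if decide (I.T ≤ q) && I.con q t then
    (neT (I.op (decide (I.oS ≤ q)) q).1,
      [t, q, q, (I.op (decide (I.oS ≤ q)) q).2.1, (I.op (decide (I.oS ≤ q)) q).2.2])
  else (mkT fun _ => false, [t, q, q, q, q])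

/-- The value of a cell in the canonical state. -/
def cellv (x y : List Bool) (t q : ℕ) : Bool :=
  if q < I.T then decide (q = t)
  else I.alive q t &&
    if q < I.oY then (wires I.2.1 x).getD (q - I.T) false else (wires I.2.2 y).getD (q - I.oY) false

/-- The canonical state. -/
def cst (x y : List Bool) (t : ℕ) : List Bool := (List.range I.k).map (I.cellv x y t)

/-- All checks of a parity. -/
def cks (g : Bool) : List Desc :=
  (List.range I.T).flatMap fun t => (List.range I.k).map (I.chk g t)

/-- The machine. -/
def mach : Mach :=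
  (I.k, (List.range I.k).map (I.upd true), (List.range I.k).map (I.upd false), I.cks false,
    I.cks true, I.cst (List.replicate I.1 false) (List.replicate I.1 false) (I.tP + 1),
    decide ((I.tP + 1) % 2 = 1))

/-- The two registers of a word. -/
def cands (w : List Bool) : List (List Bool) :=
  [(List.range I.1).map fun j => w.getD (I.T + j) false,
    (List.range I.1).map fun j => w.getD (I.oY + j) false]

/-- The relation between the registers at time `t`. -/
def Cons (x y : List Bool) (t : ℕ) : Prop :=
  x.length = I.1 ∧ y.length = I.1 ∧ (t ≤ I.tP → y = I.2.1.run x) ∧ (I.tP ≤ t → x = I.2.2.run y)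

variable {I}

lemma gateVal_eq (g : BGate) (w : List Bool) :
    gateVal g w = opV g.1 (w.getD g.2.1 false) (w.getD g.2.2 false) := rfl

lemma machI_len (gs : List BGate) (v : List Bool) :
    (gs.foldl (fun w g => w ++ [gateVal g w]) v).length = v.length + gs.length := by
  induction gs generalizing v with
  | nil => rfl
  | cons g gs ih =>
    rw [List.foldl_cons, ih, List.length_append, List.length_cons, List.length_cons,
      List.length_nil]
    omega

lemma machI_inp (gs : List BGate) {v : List Bool} {j : ℕ} (hj : j < v.length) :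
    (gs.foldl (fun w g => w ++ [gateVal g w]) v).getD j false = v.getD j false := by
  induction gs generalizing v with
  | nil => rfl
  | cons g gs ih =>
    rw [List.foldl_cons, ih (by rw [List.length_append]; omega), List.getD_append _ _ _ _ hj]

lemma machI_gate (gs : List BGate) {v : List Bool}
    (h : ∀ i, ∀ h : i < gs.length, gs[i].2.1 < v.length + i ∧ gs[i].2.2 < v.length + i) {i : ℕ}
    (hi : i < gs.length) : (gs.foldl (fun w g => w ++ [gateVal g w]) v).getD (v.length + i) false =
      gateVal (gs.getD i (0, 0, 0)) (gs.foldl (fun w g => w ++ [gateVal g w]) v) := by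
  induction gs generalizing v i with
  | nil => simp at hi
  | cons g gs ih =>
    cases i with
    | zero =>
      have h0 := h 0 hi
      rw [List.getElem_cons_zero, add_zero] at h0
      rw [List.getD_cons_zero, gateVal, machI_inp _ h0.1, machI_inp _ h0.2, List.foldl_cons,
        machI_inp _ (by simp), add_zero, List.getD_append_right _ _ _ _ le_rfl, Nat.sub_self,
        List.getD_cons_zero, gateVal]
    | succ i =>
      have e : (v ++ [gateVal g v]).length = v.length + 1 := by simp
      have := ih (v := v ++ [gateVal g v]) (fun i hi => by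
        have := h (i + 1) (Nat.succ_lt_succ hi)
        rw [List.getElem_cons_succ] at this
        omega) (Nat.lt_of_succ_lt_succ hi)
      rw [e, add_assoc, add_comm 1] at this
      exact this

lemma machI_op (hI : I.Valid) (dir : Bool) {q : ℕ} (h1 : I.T ≤ q) (h2 : q < I.k) :
    (I.op dir q).2.1 < I.k ∧ (I.op dir q).2.2 < I.k := by
  obtain ⟨-, ⟨s1, s2, s3⟩, ⟨p1, p2, p3⟩, -⟩ := hI
  have a1 : ∀ {C : Circ}, C.2.length = I.1 → (∀ o ∈ C.2, o < I.1 + C.1.length) → ∀ j < I.1,
      C.2.getD j 0 < I.1 + C.1.length := fun {C} c1 c2 j hj => by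
    rw [List.getD_eq_getElem _ _ (c1 ▸ hj)]
    exact c2 _ (List.getElem_mem _)
  have b1 := a1 s2 s3 (q - I.oY)
  have b2 := a1 p2 p3 (q - I.T)
  have b3 : q - I.oS < I.gS → (I.2.1.1.getD (q - I.oS) (0, 0, 0)).2.1 < I.1 + (q - I.oS) ∧
      (I.2.1.1.getD (q - I.oS) (0, 0, 0)).2.2 < I.1 + (q - I.oS) := fun h => by
    rw [List.getD_eq_getElem _ _ h]
    exact (s1 _ h).2
  have b4 : q - I.oP < I.gP → (I.2.2.1.getD (q - I.oP) (0, 0, 0)).2.1 < I.1 + (q - I.oP) ∧
      (I.2.2.1.getD (q - I.oP) (0, 0, 0)).2.2 < I.1 + (q - I.oP) := fun h => by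
    rw [List.getD_eq_getElem _ _ h]
    exact (p1 _ h).2
  have e1 : I.oS = I.T + I.1 := rfl
  have e2 : I.oY = I.oS + I.gS := rfl
  have e3 : I.oP = I.oY + I.1 := rfl
  have e4 : I.k = I.oP + I.gP := rfl
  have e5 : I.gS = I.2.1.1.length := rfl
  have e6 : I.gP = I.2.2.1.length := rfl
  unfold op shG
  split_ifs <;> dsimp only <;> omega

lemma machI_ix {l : List Bool} {a b c d e m : ℕ} (ha : a < m) (hb : b < m) (hc : c < m)
    (hd : d < m) (he : e < m) (i : Fin 5) : Desc.ix (l, [a, b, c, d, e]) i < m := by
  fin_cases i <;> assumption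

lemma wires_length (C : Circ) (v : List Bool) : (wires C v).length = v.length + C.1.length :=
  machI_len _ _

lemma wires_inp (C : Circ) {v : List Bool} {j : ℕ} (hj : j < v.length) :
    (wires C v).getD j false = v.getD j false :=
  machI_inp _ hj

lemma wires_gate {n : ℕ} {C : Circ} (hC : C.WF n) {v : List Bool} (hv : v.length = n) {i : ℕ}
    (hi : i < C.1.length) :
    (wires C v).getD (n + i) false = gateVal (C.1.getD i (0, 0, 0)) (wires C v) := by
  subst hv
  exact machI_gate _ (fun i h => (hC.1 i h).2) hi

lemma run_length {n : ℕ} {C : Circ} (hC : C.WF n) (v : List Bool) : (C.run v).length = n := by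
  rw [Circ.run, List.length_map, hC.2.1]

lemma cst_getD (x y : List Bool) (t : ℕ) {q : ℕ} (hq : q < I.k) :
    (I.cst x y t).getD q false = I.cellv x y t q := by
  simp [cst, List.getD_eq_getElem?_getD, hq]

lemma ev_upd_clock (dir : Bool) {q : ℕ} (hq : q < I.T) (w : List Bool) : (I.upd dir q).ev w =
    w.getD (if dir then (q + I.T - 1) % I.T else (q + 1) % I.T) false := by
  rw [upd, if_pos hq, Desc.ev, mkT_tt]
  rfl

lemma ev_upd (dir : Bool) {q : ℕ} (hq : I.T ≤ q) (w : List Bool) : (I.upd dir q).ev w =
    if w.getD (if dir then (I.bth q + I.T - 1) % I.T else I.dth q % I.T) false then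
      gateVal (I.op dir q) w
    else if w.getD (if dir then I.dth q - 1 else I.bth q) false then false
    else w.getD q false := by
  rw [upd, if_neg hq.not_gt, Desc.ev, updT, mkT_tt]
  rfl

lemma ev_chk (g : Bool) (t q : ℕ) (w : List Bool) : (I.chk g t q).ev w = false ↔
    (w.getD t false = true →
      (q < I.T → q ≠ t ∨ t % 2 ≠ g.toNat → w.getD q false = false) ∧
      (I.T ≤ q → I.alive q t = false → w.getD q false = false) ∧
      (I.T ≤ q → I.alive q t = true → I.con q t = true →
        w.getD q false = gateVal (I.op (decide (I.oS ≤ q)) q) w)) := by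
  have e1 : ∀ a b : Bool, ((a && b) = false) ↔ (a = true → b = false) := by decide
  have e2 : ∀ a b c : Bool, ((a && (b != c)) = false) ↔ (a = true → b = c) := by decide
  unfold chk
  by_cases hq : q < I.T
  · rw [if_pos hq]
    simp only [decide_eq_true_eq, hq.not_ge, decide_false, Bool.false_and,
      Bool.false_eq_true, if_false, false_imp_iff, and_true, hq, true_imp_iff]
    split_ifs with h
    · rw [Desc.ev, mkT_tt, e1]
      exact ⟨fun a b _ => a b, fun a b => a b h⟩
    · rw [Desc.ev, mkT_tt]
      exact ⟨fun _ _ a => (h a).elim, fun _ => rfl⟩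
  · have hq' := not_lt.1 hq
    rw [if_neg hq]
    simp only [hq', decide_true, Bool.true_and, hq, false_imp_iff, true_and,
      true_imp_iff]
    cases I.alive q t
    · simp only [Bool.not_false, if_true, Bool.false_eq_true, false_imp_iff, and_true,
        true_imp_iff]
      rw [Desc.ev, mkT_tt, e1]
      rfl
    · simp only [Bool.not_true, Bool.false_eq_true, if_false, Bool.true_eq_false, false_imp_iff,
        true_and, true_imp_iff]
      split_ifs with h
      · rw [Desc.ev, neT, mkT_tt, e2]
        exact ⟨fun a b _ => a b, fun a b => a b h⟩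
      · rw [Desc.ev, mkT_tt]
        exact ⟨fun _ _ a => (h a).elim, fun _ => rfl⟩

lemma ok_iff (g : Bool) (w : List Bool) : I.mach.ok g w ↔
    w.length = I.k ∧ ∀ t < I.T, ∀ q < I.k, (I.chk g t q).ev w = false := by
  have e : I.mach.ck g = I.cks g := by cases g <;> rfl
  rw [Mach.ok, e]
  refine and_congr Iff.rfl ?_
  simp only [cks, List.mem_flatMap, List.mem_map, List.mem_range]
  exact ⟨fun h t ht q hq => h _ ⟨t, ht, q, hq, rfl⟩, fun h _ ⟨t, ht, q, hq, e⟩ => e ▸ h t ht q hq⟩

lemma step_eq (dir : Bool) (w : List Bool) :
    I.mach.step dir w = (List.range I.k).map fun q => (I.upd dir q).ev w := by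
  have e : I.mach.prog dir = (List.range I.k).map (I.upd dir) := by cases dir <;> rfl
  rw [Mach.step, e, List.map_map]
  rfl

theorem mach_wf (hI : I.Valid) : I.mach.WF := by
  have e1 : I.oS = I.T + I.1 := rfl
  have e2 : I.oY = I.oS + I.gS := rfl
  have e3 : I.oP = I.oY + I.1 := rfl
  have e4 : I.k = I.oP + I.gP := rfl
  have e5 : I.T = I.tD + I.gP + 3 := rfl
  have e6 : I.tD = I.tP + I.gS := rfl
  have e7 : I.tP = I.tY + I.gP := rfl
  have e8 : I.tY = I.gS + 1 := rfl
  have hm : ∀ a, a % I.T < I.k := fun a => (Nat.mod_lt _ (by omega)).trans_le (by omega)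
  refine ⟨fun dir => ?_, fun g => ?_⟩
  · have e : I.mach.prog dir = (List.range I.k).map (I.upd dir) := by cases dir <;> rfl
    rw [e]
    refine ⟨by rw [List.length_map, List.length_range]; rfl, fun D hD => ?_⟩
    obtain ⟨q, hq, rfl⟩ := List.mem_map.1 hD
    rw [List.mem_range] at hq
    change ∀ b, _ < I.k
    unfold upd
    by_cases h : q < I.T
    · have : (if dir then (q + I.T - 1) % I.T else (q + 1) % I.T) < I.k := by
        split_ifs <;> exact hm _
      rw [if_pos h]
      exact machI_ix this this this this this
    · have h' := machI_op hI dir (not_lt.1 h) hq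
      rw [if_neg h]
      refine machI_ix (by split_ifs <;> exact hm _) ?_ hq h'.1 h'.2
      unfold dth bth
      split_ifs <;> omega
  · have e : I.mach.ck g = I.cks g := by cases g <;> rfl
    rw [e]
    intro D hD
    simp only [cks, List.mem_flatMap, List.mem_map, List.mem_range] at hD
    obtain ⟨t, ht, q, hq, rfl⟩ := hD
    have ht' : t < I.k := by omega
    change ∀ b, _ < I.k
    unfold chk
    by_cases h1 : (if q < I.T then decide (q ≠ t ∨ t % 2 ≠ g.toNat) else !I.alive q t) = true
    · rw [if_pos h1]
      exact machI_ix ht' hq hq hq hq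
    · rw [if_neg h1]
      split_ifs with h2
      · rw [Bool.and_eq_true, decide_eq_true_eq] at h2
        have h' := machI_op hI (decide (I.oS ≤ q)) h2.1 hq
        exact machI_ix ht' hq hq h'.1 h'.2
      · exact machI_ix ht' hq hq hq hq

end EoL

end Vale.Agent.P330
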