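import Vale.Agent.P330.MachI

/-! Steps of the machine on canonical states. -/

namespace Vale.Agent.P330

namespace EoL

variable {I : EoL} {x y : List Bool} {t : ℕ}

lemma MachS_pred {a T : ℕ} (h : a < T) :
    a = 0 ∧ (a + T - 1) % T = T - 1 ∨ a ≠ 0 ∧ (a + T - 1) % T = a - 1 := by
  refine (eq_or_ne a 0).imp (fun h0 => ⟨h0, ?_⟩) fun h0 => ⟨h0, ?_⟩
  · rw [h0, zero_add, Nat.mod_eq_of_lt (by omega)]
  · rw [show a + T - 1 = a - 1 + T by omega, Nat.add_mod_right, Nat.mod_eq_of_lt (by omega)]

lemma MachS_succ {a T : ℕ} (h : a ≤ T) : a = T ∧ a % T = 0 ∨ a ≠ T ∧ a % T = a := by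
  refine (eq_or_ne a T).imp (fun h0 => ⟨h0, ?_⟩) fun h0 => ⟨h0, ?_⟩
  · rw [h0, Nat.mod_self]
  · exact Nat.mod_eq_of_lt (by omega)

lemma MachS_num (I : EoL) : I.tY = I.gS + 1 ∧ I.tP = I.tY + I.gP ∧ I.tD = I.tP + I.gS ∧
    I.T = I.tD + I.gP + 3 ∧ I.oS = I.T + I.1 ∧ I.oY = I.oS + I.gS ∧ I.oP = I.oY + I.1 ∧
      I.k = I.oP + I.gP := ⟨rfl, rfl, rfl, rfl, rfl, rfl, rfl, rfl⟩

lemma MachS_bd (I : EoL) (q : ℕ) : (q < I.oS ∧ I.bth q = 0 ∧ I.dth q = I.tD + 1) ∨
    (I.oS ≤ q ∧ q < I.oY ∧ I.bth q = q - I.oS + 1 ∧ I.dth q = I.tD - (q - I.oS)) ∨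
    (I.oY ≤ q ∧ q < I.oP ∧ I.bth q = I.tY ∧ I.dth q = I.T) ∨
    (I.oP ≤ q ∧ I.bth q = I.tY + 1 + (q - I.oP) ∧ I.dth q = I.tD + 1 + I.gP - (q - I.oP)) := by
  have := MachS_num I
  unfold bth dth
  split_ifs <;> omega

lemma MachS_lt {q : ℕ} (hq : q < I.k) : I.bth q < I.dth q ∧ I.dth q ≤ I.T := by
  have := MachS_num I
  have := MachS_bd I q
  omega

/-- The value of a living cell. -/
def MachSv (I : EoL) (x y : List Bool) (q : ℕ) : Bool :=
  if q < I.oY then (wires I.2.1 x).getD (q - I.T) false else (wires I.2.2 y).getD (q - I.oY) false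

lemma MachS_cell {q : ℕ} (hq : I.T ≤ q) : I.cellv x y t q =
    if I.bth q ≤ t ∧ t < I.dth q then I.MachSv x y q else false := by
  rw [cellv, if_neg (not_lt.2 hq), alive]
  split_ifs with h <;> simp_all [MachSv]

lemma MachS_S {a : ℕ} (ha : a < I.1 + I.gS) (h : I.bth (a + I.T) ≤ t ∧ t < I.dth (a + I.T)) :
    (I.cst x y t).getD (a + I.T) false = (wires I.2.1 x).getD a false := by
  have := MachS_num I
  rw [cst_getD _ _ _ (by omega), MachS_cell (by omega), if_pos h, MachSv, if_pos (by omega),
    Nat.add_sub_cancel]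

lemma MachS_P {a : ℕ} (ha : a < I.1 + I.gP) (h : I.bth (a + I.oY) ≤ t ∧ t < I.dth (a + I.oY)) :
    (I.cst x y t).getD (a + I.oY) false = (wires I.2.2 y).getD a false := by
  have := MachS_num I
  rw [cst_getD _ _ _ (by omega), MachS_cell (by omega), if_pos h, MachSv, if_neg (by omega),
    Nat.add_sub_cancel]

lemma MachS_wf {n : ℕ} {C : Circ} (hC : C.WF n) {i : ℕ} (hi : i < C.1.length) :
    (C.1.getD i (0, 0, 0)).2.1 < n + i ∧ (C.1.getD i (0, 0, 0)).2.2 < n + i := by
  rw [List.getD_eq_getElem _ _ hi]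
  exact (hC.1 i hi).2

lemma MachS_out {n : ℕ} {C : Circ} (hC : C.WF n) (v : List Bool) {j : ℕ} (hj : j < n) :
    C.2.getD j 0 < n + C.1.length ∧
      (C.run v).getD j false = (wires C v).getD (C.2.getD j 0) false := by
  rw [← hC.2.1] at hj
  rw [List.getD_eq_getElem _ _ hj, List.getD_eq_getElem _ _ (by simpa [Circ.run] using hj)]
  exact ⟨hC.2.2 _ (List.getElem_mem hj), by simp [Circ.run]⟩

lemma MachS_gS (hI : I.Valid) (hx : x.length = I.1) (dir : Bool) {q : ℕ} (h1 : I.oS ≤ q)
    (h2 : q < I.oY) (h : ∀ a, I.T ≤ a → a < q → I.bth a ≤ t ∧ t < I.dth a) :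
    gateVal (I.op dir q) (I.cst x y t) = I.MachSv x y q := by
  have := MachS_num I
  have hi : q - I.oS < I.2.1.1.length := by change _ < I.gS; omega
  have hw := MachS_wf hI.2.1 hi
  rw [op, if_neg (by omega), if_pos h2, MachSv, if_pos h2,
    show q - I.T = I.1 + (q - I.oS) by omega, wires_gate hI.2.1 hx hi, gateVal_eq, gateVal_eq]
  simp only [shG]
  rw [MachS_S (by omega) (h _ (by omega) (by omega)),
    MachS_S (by omega) (h _ (by omega) (by omega))]

lemma MachS_gP (hI : I.Valid) (hy : y.length = I.1) (dir : Bool) {q : ℕ} (h1 : I.oP ≤ q)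
    (h2 : q < I.k) (h : ∀ a, I.oY ≤ a → a < q → I.bth a ≤ t ∧ t < I.dth a) :
    gateVal (I.op dir q) (I.cst x y t) = I.MachSv x y q := by
  have := MachS_num I
  have hi : q - I.oP < I.2.2.1.length := by change _ < I.gP; omega
  have hw := MachS_wf hI.2.2.1 hi
  rw [op, if_neg (by omega), if_neg (by omega), if_neg (by omega), MachSv, if_neg (by omega),
    show q - I.oY = I.1 + (q - I.oP) by omega, wires_gate hI.2.2.1 hy hi, gateVal_eq, gateVal_eq]
  simp only [shG]
  rw [MachS_P (by omega) (h _ (by omega) (by omega)),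
    MachS_P (by omega) (h _ (by omega) (by omega))]

lemma MachS_or (d a : ℕ) (w : List Bool) : gateVal (shG d (1, a, a)) w = w.getD (a + d) false := by
  simp [gateVal, shG]

lemma MachS_step {dir : Bool} {x' y' : List Bool} {t' : ℕ}
    (h1 : ∀ q < I.T, (if dir then (q + I.T - 1) % I.T else (q + 1) % I.T) = t ↔ q = t')
    (h2 : ∀ q, I.T ≤ q → q < I.k → (if (if dir then (I.bth q + I.T - 1) % I.T else
      I.dth q % I.T) = t then gateVal (I.op dir q) (I.cst x y t)
      else if (if dir then I.dth q - 1 else I.bth q) = t then false else I.cellv x y t q) =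
        I.cellv x' y' t' q) : I.mach.step dir (I.cst x y t) = I.cst x' y' t' := by
  have := MachS_num I
  have h0 : ∀ a < I.T, (I.cst x y t).getD a false = decide (a = t) := fun a ha => by
    rw [cst_getD _ _ _ (by omega), cellv, if_pos ha]
  have hT : 0 < I.T := by omega
  rw [step_eq]
  refine List.map_congr_left fun q hq => ?_
  have hq := List.mem_range.1 hq
  by_cases h : q < I.T
  · rw [ev_upd_clock dir h, h0 _ (by split_ifs <;> exact Nat.mod_lt _ hT), cellv, if_pos h]
    exact decide_eq_decide.2 (h1 q h)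
  · have hb := MachS_lt hq
    rw [ev_upd dir (not_lt.1 h), h0 _ (by split_ifs <;> exact Nat.mod_lt _ hT),
      h0 _ (by split_ifs <;> omega), cst_getD _ _ _ hq, ← h2 q (not_lt.1 h) hq]
    simp only [decide_eq_true_eq]

theorem step_fw (hI : I.Valid) (hx : x.length = I.1) (hy : y.length = I.1) (ht : t + 1 < I.T)
    (h : t + 1 = I.tY → y = I.2.1.run x) :
    I.mach.step true (I.cst x y t) = I.cst x y (t + 1) := by
  refine MachS_step (fun q hq => ?_) fun q h1 h2 => ?_
  · have := MachS_pred hq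
    rw [if_pos rfl]
    omega
  have hl := MachS_lt h2
  have hm := MachS_pred (hl.1.trans_le hl.2)
  rw [if_pos rfl, if_pos rfl, MachS_cell h1, MachS_cell h1]
  by_cases h3 : I.bth q = t + 1
  · rw [if_pos (by omega), if_pos (by omega)]
    clear hm
    have := MachS_num I
    have hb := MachS_bd I q
    rcases hb with hb | hb | hb | hb
    · omega
    · exact MachS_gS hI hx _ hb.1 hb.2.1 fun a _ _ => by have := MachS_bd I a; omega
    · have h4 := MachS_out hI.2.1 x (show q - I.oY < I.1 by omega)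
      have h5 := MachS_bd I (I.2.1.2.getD (q - I.oY) 0 + I.T)
      change _ < _ + I.gS ∧ _ at h4
      rw [op, if_neg (by omega), if_neg (by omega), if_pos hb.2.1, if_pos rfl, MachS_or,
        MachS_S h4.1 (by omega), ← h4.2, MachSv, if_neg (by omega), wires_inp _ (by omega),
        h (by omega)]
    · exact MachS_gP hI hy _ hb.1 h2 fun a _ _ => by have := MachS_bd I a; omega
  · rw [if_neg (by omega)]
    split_ifs <;> first | rfl | omega

theorem step_fw_last (hI : I.Valid) (hy : y.length = I.1) (z : List Bool) :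
    I.mach.step true (I.cst x y (I.T - 1)) = I.cst y z 0 := by
  refine MachS_step (fun q hq => ?_) fun q h1 h2 => ?_
  · have := MachS_pred hq
    rw [if_pos rfl]
    omega
  have hl := MachS_lt h2
  have hm := MachS_pred (hl.1.trans_le hl.2)
  rw [if_pos rfl, if_pos rfl, MachS_cell h1, MachS_cell h1]
  by_cases h3 : I.bth q = 0
  · rw [if_pos (by omega), if_pos (by omega)]
    clear hm
    have := MachS_num I
    have hb := MachS_bd I q
    have h4 : q < I.oS := by omega
    have h5 := MachS_bd I (q - I.T + I.oY)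
    clear hb
    rw [op, if_pos h4, if_pos rfl, MachS_or, MachS_P (by omega) (by omega), MachSv,
      if_pos (by omega), wires_inp _ (by omega), wires_inp _ (by omega)]
  · rw [if_neg (by omega)]
    split_ifs <;> first | rfl | omega

theorem step_bw (hI : I.Valid) (hx : x.length = I.1) (hy : y.length = I.1) (ht : t + 1 < I.T)
    (h : t = I.tD → x = I.2.2.run y) :
    I.mach.step false (I.cst x y (t + 1)) = I.cst x y t := by
  refine MachS_step (fun q hq => ?_) fun q h1 h2 => ?_
  · have := MachS_succ (a := q + 1) hq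
    rw [if_neg Bool.false_ne_true]
    omega
  have hl := MachS_lt h2
  have hm := MachS_succ hl.2
  rw [if_neg Bool.false_ne_true, if_neg Bool.false_ne_true, MachS_cell h1, MachS_cell h1]
  by_cases h3 : I.dth q = t + 1
  · rw [if_pos (by omega), if_pos (by omega)]
    clear hm
    have := MachS_num I
    have hb := MachS_bd I q
    rcases hb with hb | hb | hb | hb
    · have h4 := MachS_out hI.2.2.1 y (show q - I.T < I.1 by omega)
      have h5 := MachS_bd I (I.2.2.2.getD (q - I.T) 0 + I.oY)
      change _ < _ + I.gP ∧ _ at h4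
      rw [op, if_pos hb.1, if_neg Bool.false_ne_true, MachS_or,
        MachS_P h4.1 (by omega), ← h4.2, MachSv, if_pos (by omega), wires_inp _ (by omega),
        h (by omega)]
    · exact MachS_gS hI hx _ hb.1 hb.2.1 fun a _ _ => by have := MachS_bd I a; omega
    · omega
    · exact MachS_gP hI hy _ hb.1 h2 fun a _ _ => by have := MachS_bd I a; omega
  · rw [if_neg (by omega)]
    split_ifs <;> first | rfl | omega

theorem step_bw_zero (hI : I.Valid) (hx : x.length = I.1) (z : List Bool) :
    I.mach.step false (I.cst x y 0) = I.cst z x (I.T - 1) := by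
  refine MachS_step (fun q hq => ?_) fun q h1 h2 => ?_
  · have := MachS_succ (a := q + 1) hq
    rw [if_neg Bool.false_ne_true]
    omega
  have hl := MachS_lt h2
  have hm := MachS_succ hl.2
  rw [if_neg Bool.false_ne_true, if_neg Bool.false_ne_true, MachS_cell h1, MachS_cell h1]
  by_cases h3 : I.dth q = I.T
  · rw [if_pos (by omega), if_pos (by omega)]
    clear hm
    have := MachS_num I
    have hb := MachS_bd I q
    have h4 : I.oY ≤ q ∧ q < I.oP := by omega
    have h5 := MachS_bd I (q - I.oY + I.T)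
    clear hb
    rw [op, if_neg (by omega), if_neg (by omega), if_pos h4.2, if_neg Bool.false_ne_true,
      MachS_or, MachS_S (by omega) (by omega), MachSv, if_neg (by omega), wires_inp _ (by omega),
      wires_inp _ (by omega)]
  · rw [if_neg (by omega)]
    split_ifs <;> first | rfl | omega

theorem step_idle (dir : Bool) {w : List Bool} (hw : w.length = I.k)
    (h : ∀ t < I.T, w.getD t false = false) : I.mach.step dir w = w := by
  have hT : 0 < I.T := Nat.succ_pos _
  rw [step_eq]
  refine List.ext_getElem (by simp [hw]) fun q h1 h2 => ?_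
  rw [List.getElem_map, List.getElem_range, ← List.getD_eq_getElem _ false h2]
  by_cases h3 : q < I.T
  · rw [ev_upd_clock dir h3, h _ (by split_ifs <;> exact Nat.mod_lt _ hT), h q h3]
  · have hb := MachS_lt (hw ▸ h2 : q < I.k)
    rw [ev_upd dir (not_lt.1 h3), h _ (by split_ifs <;> exact Nat.mod_lt _ hT),
      h _ (by split_ifs <;> omega)]
    rfl

end EoL

end Vale.Agent.P330
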