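import Vale.Agent.P330.Comp
import Vale.Agent.P330.CTBase

/-! The generalized circuit made of one gadget for each cell. -/

namespace Vale.Agent.P330

open Vale.Agent.Lib.TM

variable {Q Γ : Type}

/-- The name of local node `l` of the cell read by `q` from the cell `p`. -/
def nodeNm (m : ℕ) (ad : Q → ℕ → ℕ) (p : ℕ) (q : Q) (l : ℕ) : ℕ := ad q p * m + l

/-- The network with `nP` cells. -/
def build (m nP : ℕ) (self : Q) (ad : Q → ℕ → ℕ) (tb : ℕ → Γ) (G : Γ → List (SGate Q)) : GCirc :=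
  (nP * m, (List.range nP).flatMap fun p => (G (tb p)).map (SGate.inst (nodeNm m ad p) self))

variable {m nP : ℕ} {self : Q} {ad : Q → ℕ → ℕ} {tb : ℕ → Γ} {G : Γ → List (SGate Q)}

lemma net_lt {a l : ℕ} (ha : a < nP) (hl : l < m) : a * m + l < nP * m :=
  (Nat.add_lt_add_left hl _).trans_le (Nat.succ_mul a m ▸ Nat.mul_le_mul_right m ha)

lemma net_sum (n : ℕ) (f : ℕ → ℕ) : ((List.range n).map f).sum = ∑ i : Fin n, f i := by
  rw [Fin.sum_univ_eq_sum_range, Finset.sum, Finset.range_val, Multiset.range, Multiset.map_coe,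
    Multiset.sum_coe]

lemma net_len (hG : ∀ γ, GadOk m (G γ)) : nP ≤ (build m nP self ad tb G).2.length ∧
    (build m nP self ad tb G).2.length ≤ nP * m := by
  simp only [build, List.length_flatMap, List.length_map]
  rw [net_sum]
  constructor
  · simpa using Finset.card_nsmul_le_sum Finset.univ (fun i : Fin nP => (G (tb i)).length) 1
      fun i _ => List.length_pos_iff.2 (hG _).1
  · simpa using Finset.sum_le_card_nsmul Finset.univ (fun i : Fin nP => (G (tb i)).length) m
      fun i _ => (hG _).length_le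

theorem build_wf (hP : 0 < nP) (hG : ∀ γ, GadOk m (G γ)) (hs : ∀ p < nP, ad self p = p)
    (had : ∀ q, ∀ p < nP, ad q p < nP) : (build m nP self ad tb G).WF := by
  refine ⟨List.length_pos_iff.1 (hP.trans_le (net_len hG).1), ?_, fun g hg => ?_⟩
  · simp only [build, List.map_flatMap, List.map_map]
    refine List.nodup_flatMap.2 ⟨fun p _ => ?_, ?_⟩
    · have h1 := (hG (tb p)).2.1.map (f := fun z => ad self p * m + z) fun a b e =>
        Nat.add_left_cancel e
      rw [List.map_map] at h1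
      exact h1
    · refine List.nodup_range.pairwise_of_forall_ne fun p hp q hq e z h1 h2 => e ?_
      obtain ⟨a, ha, e1⟩ := List.mem_map.1 h1
      obtain ⟨b, hb, e2⟩ := List.mem_map.1 h2
      have e3 : ad self p * m + a.z = ad self q * m + b.z := e1.trans e2.symm
      rw [hs p (List.mem_range.1 hp), hs q (List.mem_range.1 hq)] at e3
      have k1 := ((hG _).2.2 a ha).2.1
      have k2 := ((hG _).2.2 b hb).2.1
      have e4 := congrArg (· / m) e3
      simp only [mul_comm _ m, Nat.mul_add_div (Nat.zero_lt_of_lt k1), Nat.div_eq_of_lt k1,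
        Nat.div_eq_of_lt k2] at e4
      exact e4
  · obtain ⟨p, hp, h1⟩ := List.mem_flatMap.1 hg
    obtain ⟨a, ha, rfl⟩ := List.mem_map.1 h1
    obtain ⟨k1, k2, k3, k4, k5, k6⟩ := (hG _).2.2 a ha
    have k := fun q => had q p (List.mem_range.1 hp)
    exact ⟨k1, net_lt (k _) k2, net_lt (k _) k3, net_lt (k _) k4, k5, k6⟩

theorem build_nodes (hG : ∀ γ, GadOk m (G γ)) :
    (build m nP self ad tb G).1 ≤ m * sz (build m nP self ad tb G) := by
  rw [sz_prod, mul_comm m]
  exact Nat.mul_le_mul_right m (((net_len hG).1.trans (length_lt_sz _).le).trans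
    ((Nat.le_add_left _ _).trans (Nat.le_succ _)))

open Classical in
/-- Few violated gates give few faulty cells. -/
theorem build_faulty (hG : ∀ γ, GadOk m (G γ)) {ε δ : ℝ} (hδ : 0 ≤ δ) {x : ℕ → ℝ}
    (h : (1 - δ) * (build m nP self ad tb G).2.length ≤
      ((build m nP self ad tb G).2.countP fun g => decide (g.Sat ε x) : ℕ)) :
    pr (fun p : Fin nP => ¬∀ g ∈ G (tb p), (g.inst (nodeNm m ad p) self).Sat ε x) ≤ δ * m := by
  rcases Nat.eq_zero_or_pos nP with rfl | hP
  · rw [pr_eq_card]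
    simp only [Fintype.card_fin, Nat.cast_zero, div_zero]
    positivity
  have h1 := List.length_eq_countP_add_countP (fun g : GGate => decide (g.Sat ε x))
    (l := (build m nP self ad tb G).2)
  have h2 : (Finset.univ.filter fun p : Fin nP =>
      ¬∀ g ∈ G (tb p), (g.inst (nodeNm m ad p) self).Sat ε x).card ≤
      (build m nP self ad tb G).2.countP fun g => decide ¬decide (g.Sat ε x) = true := by
    simp only [build, List.countP_flatMap]
    rw [net_sum, Finset.card_filter]
    refine Finset.sum_le_sum fun p _ => ?_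
    split_ifs with hp
    · exact Nat.zero_le _
    · obtain ⟨g, hg⟩ := not_forall.1 hp
      obtain ⟨k1, k2⟩ := Classical.not_imp.1 hg
      exact List.countP_pos_iff.2 ⟨_, List.mem_map_of_mem k1, by simpa using k2⟩
  have h3 : ((build m nP self ad tb G).2.length : ℝ) ≤ nP * m := by exact_mod_cast (net_len hG).2
  have h4 := mul_le_mul_of_nonneg_left h3 hδ
  have h5 := (Nat.cast_le (α := ℝ)).2 h2
  have h6 := congrArg (Nat.cast : ℕ → ℝ) h1
  rw [Nat.cast_add] at h6
  rw [pr_eq_card, Fintype.card_fin, div_le_iff₀ (Nat.cast_pos.2 hP)]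
  refine le_trans (le_of_eq ?_) (h5.trans (by linarith))
  congr

theorem ct_build {α : Type} [Enc α] [Fintype Γ] (m : ℕ) (self : Q) (G : Γ → List (SGate Q))
    {nP : α → ℕ} {ad : α → Q → ℕ → ℕ} {tb : α → ℕ → Γ} (hP : CT 0 nP) (hB : Bd 0 nP)
    (had : ∀ q, CT 0 fun z : α × ℕ => ad z.1 q z.2) (htb : FinCT fun z : α × ℕ => tb z.1 z.2) :
    CT 0 fun a => build m (nP a) self (ad a) (tb a) G := by
  refine (hP.mul (CT.const m)).mk (CT.flatMap ?_ (hP.range hB))
  refine htb.elim (g := fun γ z => (G γ).map fun g => SGate.inst (nodeNm m (ad z.1) z.2) self g)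
    fun γ => ct_mapC _ _ fun g => ?_
  have k : ∀ q l, CT 0 fun z : α × ℕ => nodeNm m (ad z.1) z.2 q l := fun q l =>
    ((had q).mul (CT.const m)).add (CT.const l)
  exact (CT.const _).mk ((k _ _).mk ((k _ _).mk ((k _ _).mk (CT.const _))))

lemma net_get {n : ℕ} {x : Asg} (h : x.WF n) (i : ℕ) :
    0 < (x.getD i (0, 1)).2 ∧ (x.getD i (0, 1)).1 ≤ (x.getD i (0, 1)).2 := by
  rcases lt_or_ge i x.length with hi | hi
  · rw [List.getD_eq_getElem _ _ hi]
    exact h.2 _ (List.getElem_mem hi)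
  · rw [List.getD_eq_default _ _ hi]
    exact ⟨one_pos, zero_le_one⟩

lemma Asg.WF.in01 {n : ℕ} {x : Asg} (h : x.WF n) (i : ℕ) : In01 (x.val i) := by
  obtain ⟨h1, h2⟩ := net_get h i
  exact ⟨div_nonneg (Nat.cast_nonneg _) (Nat.cast_nonneg _),
    (div_le_one (Nat.cast_pos.2 h1)).2 (Nat.cast_le.2 h2)⟩

/-- The rounded bit of a node. -/
def Asg.bit (x : Asg) (i : ℕ) : Bool := Nat.blt (x.getD i (0, 1)).2 (2 * (x.getD i (0, 1)).1)

lemma Asg.WF.bit_eq {n : ℕ} {x : Asg} (h : x.WF n) (i : ℕ) :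
    x.bit i = decide (1 / 2 < x.val i) := by
  rw [Bool.eq_iff_iff, Asg.bit, Nat.blt_eq, decide_eq_true_iff, Asg.val,
    div_lt_div_iff₀ two_pos (Nat.cast_pos.2 (net_get h i).1), one_mul, mul_comm _ (2 : ℝ)]
  norm_cast

end Vale.Agent.P330
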