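import Vale.Agent.P330.Av

/-! Robust line systems: words with local tests, local error reduction and local updates. -/

namespace Vale.Agent.P330

/-- The local rules. -/
structure Rule (Q Γ S : Type) where
  tst : Bool → Γ → (Q → S) → Prop
  cor : Γ → (Q → S) → S
  suc : Γ → (Q → S) → S
  prd : Γ → (Q → S) → S
  tm : Γ → (Q → S) → ZMod 4
  z0 : Γ → Bool → S

/-- The wiring: read addresses and the constant of each cell. -/
structure Sys (Q Γ P : Type) where
  ad : Q → Equiv.Perm P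
  tab : P → Γ

variable {Q Γ S P U : Type}

/-- The values read by the cell `p`. -/
def Sys.rd (Y : Sys Q Γ P) (u : P → S) (p : P) : Q → S := fun q => u (Y.ad q p)

/-- The parity of a time. -/
def par (t : ZMod 4) : Bool := decide (t = 1 ∨ t = 3)

/-- A vertex of the line graph. -/
def OnL (Nx : U → U → Prop) (u : U) : Prop := (∃ a, Nx a u) ∨ ∃ b, Nx u b

/-- A vertex with both neighbours. -/
def Mid (Nx : U → U → Prop) (u : U) : Prop := (∃ a, Nx a u) ∧ ∃ b, Nx u b

/-- An end of a line other than `u0`. -/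
def EndL (Nx : U → U → Prop) (u0 u : U) : Prop :=
  ((∃ a, Nx a u) ∧ ¬∃ b, Nx u b) ∨ ((∃ b, Nx u b) ∧ (¬∃ a, Nx a u) ∧ u ≠ u0)

/-- The two words of the known first edge. -/
def zw (R : Rule Q Γ S) (Y : Sys Q Γ P) (τ : Bool) : P → S := fun p => R.z0 (Y.tab p) τ

/-- The value `c` of the local map `f` is forced by the reads inside the set `G`. -/
def Forced (Y : Sys Q Γ P) (f : Γ → (Q → S) → S) (u : P → S) (G : P → Prop) (p : P) (c : S) :
    Prop :=
  ∀ ρ : Q → S, (∀ q, G (Y.ad q p) → ρ q = u (Y.ad q p)) → f (Y.tab p) ρ = c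

/-- The properties of a robust line system. -/
structure Good [Fintype P] (R : Rule Q Γ S) (Y : Sys Q Γ P) (κ η : ℝ)
    (Nx : (P → S) → (P → S) → Prop) (time : (P → S) → ZMod 4) : Prop where
  far : ∀ u v, OnL Nx u → OnL Nx v → u ≠ v → pr (fun p => u p = v p) ≤ 1 / 100
  suc : ∀ u v, Nx u v → ∀ p, R.suc (Y.tab p) (Y.rd u p) = v p
  prd : ∀ u v, Nx u v → ∀ p, R.prd (Y.tab p) (Y.rd v p) = u p
  tm : ∀ u, OnL Nx u → ∀ p, R.tm (Y.tab p) (Y.rd u p) = time u
  tm_nx : ∀ u v, Nx u v → time v = time u + 1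
  z_nx : Nx (zw R Y false) (zw R Y true)
  z_tm : time (zw R Y false) = 0
  z_src : ∀ v, ¬Nx v (zw R Y false)
  comp : ∀ u, Mid Nx u → ∀ p, R.tst (par (time u)) (Y.tab p) (Y.rd u p)
  sound : ∀ τ m, pr (fun p => ¬R.tst τ (Y.tab p) (Y.rd m p)) ≤ κ →
    ∃ u, Mid Nx u ∧ par (time u) = τ ∧ pr (fun p => m p ≠ u p) ≤ η / 2
  cor : ∀ u, OnL Nx u → ∀ G : P → Prop, pr (fun p => ¬G p) ≤ η →
    pr (fun p => ¬Forced Y R.cor u G p (u p)) ≤ pr (fun p => ¬G p) / 2

/-- One round of error reduction on a word. -/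
def corStep (R : Rule Q Γ S) (Y : Sys Q Γ P) (m : P → S) : P → S :=
  fun p => R.cor (Y.tab p) (Y.rd m p)

variable [Fintype P] {R : Rule Q Γ S} {Y : Sys Q Γ P} {κ η : ℝ}
  {Nx : (P → S) → (P → S) → Prop} {time : (P → S) → ZMod 4}

lemma Good.nx_fun (h : Good R Y κ η Nx time) {u v v' : P → S} (h1 : Nx u v) (h2 : Nx u v') :
    v = v' := funext fun p => (h.suc u v h1 p).symm.trans (h.suc u v' h2 p)

lemma Good.nx_inj (h : Good R Y κ η Nx time) {u u' v : P → S} (h1 : Nx u v) (h2 : Nx u' v) :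
    u = u' := funext fun p => (h.prd u v h1 p).symm.trans (h.prd u' v h2 p)

/-- Iterated error reduction decodes exactly. -/
theorem Good.cor_iter (h : Good R Y κ η Nx time) (hη : η ≤ 1 / 2) {u m : P → S} (hu : OnL Nx u)
    (hm : pr (fun p => m p ≠ u p) ≤ η) {t : ℕ} (ht : Fintype.card P ≤ 2 ^ t) :
    (corStep R Y)^[t] m = u := by
  have h0 : 0 ≤ η := (pr_nonneg _).trans hm
  have key : ∀ k : ℕ, pr (fun p => (corStep R Y)^[k] m p ≠ u p) ≤ η / 2 ^ k := by
    intro k
    induction k with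
    | zero => simpa using hm
    | succ k ih =>
      have h1 : η / 2 ^ k ≤ η := div_le_self h0 (one_le_pow₀ one_le_two)
      have h2 := h.cor u hu (fun p => (corStep R Y)^[k] m p = u p) (ih.trans h1)
      rw [Function.iterate_succ_apply', pow_succ, ← div_div]
      refine (pr_mono fun p hp hF => hp ?_).trans
        (h2.trans (div_le_div_of_nonneg_right ih zero_le_two))
      exact hF _ fun q hq => hq
  funext p
  refine not_not.1 (not_of_pr_lt (A := fun p => (corStep R Y)^[t] m p ≠ u p) ?_ p)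
  have h3 : (Fintype.card P : ℝ) ≤ 2 ^ t := by exact_mod_cast ht
  have h4 := mul_le_mul (key t) h3 (Nat.cast_nonneg _) (by positivity)
  rw [div_mul_cancel₀ _ (by positivity)] at h4
  linarith

end Vale.Agent.P330
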