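import Vale.Agent.P330.YSys

/-! Closure properties of the code. -/

namespace Vale.Agent.P330

open Finset
open scoped BigOperators

variable {M p c N : ℕ} [Fact M.Prime] [Fact p.Prime] [NeZero N] {J : Type} [Fintype J]
  {χ : AddChar (ZMod M) (ZMod p)} {cx : Cx M p c N J} {d : ℕ}

section Gen

variable {V : Type} [AddCommGroup V] [Module (ZMod p) V] {g : Fin c → XX M N} {D D' : ℕ}
  {S S' : II N c → Prop} {f f' : XX M N → V}

lemma Cd.mono (hf : Cd χ D (dirs g) S f) (hD : D ≤ D') (hS : ∀ i, S' i → S i) :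
    Cd χ D' (dirs g) S' f := fun i hi x => (hf i (hS i hi) x).mono hD

lemma Cd.const (v : V) : Cd χ D (dirs g) S fun _ => v := fun _ _ _ => LD.const v

lemma Cd.add (hf : Cd χ D (dirs g) S f) (hf' : Cd χ D (dirs g) S f') :
    Cd χ D (dirs g) S fun x => f x + f' x := fun i hi x => (hf i hi x).add (hf' i hi x)

lemma Cd.sub (hf : Cd χ D (dirs g) S f) (hf' : Cd χ D (dirs g) S f') :
    Cd χ D (dirs g) S fun x => f x - f' x := fun i hi x => (hf i hi x).sub (hf' i hi x)

lemma Cd.shift (hf : Cd χ D (dirs g) S f) (v : XX M N) : Cd χ D (dirs g) S fun x => f (x + v) := by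
  intro i hi x
  refine KDefs_congr (hf i hi (x + v)) fun α => ?_
  rw [add_right_comm]

lemma Cd.tw (hf : Cd χ D (dirs g) S f) (m : ZMod N) :
    Cd χ D (dirs g) (fun i => S (i.1 + m, i.2)) fun x => f (tw m x) := by
  intro i hi x
  refine KDefs_congr (hf (i.1 + m, i.2) hi (P330.tw m x)) fun α => ?_
  simp only [tw_add, tw_smul, dirs, tw_tw, add_comm m]

lemma Cd.pi_iff {C : Type} {f : XX M N → C → ZMod p} :
    Cd χ D (dirs g) S f ↔ ∀ z, Cd χ D (dirs g) S fun x => f x z := by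
  refine ⟨fun h z i hi x => LD.pi_iff.1 (h i hi x) z, fun h i hi x => LD.pi_iff.2 fun z => ?_⟩
  exact h z i hi x

lemma Cd.aop {f : XX M N → ZMod p} (hf : Cd χ D (dirs g) S f) :
    Cd χ D (dirs g) (fun i => S (i.1 + 1, i.2)) (Aop f) := by
  intro i hi x
  refine KDefs_congr (LD.smul (M : ZMod p)⁻¹ (LD.sum univ fun (a : ZMod M) _ =>
    ((hf.shift (a • Pi.single 0 1)).tw 1) i hi x)) fun α => ?_
  rw [Aop, smul_eq_mul]

lemma Cd.ext {Θ : XX M N → CC N → ZMod p} (hΘ : Cd χ D (dirs g) S Θ) (r : Row) (n : ℕ) :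
    Cd χ D (dirs g) S fun x => ext (Θ x) r n := by
  by_cases h : n < RR N + 2
  · simp only [P330.ext, dif_pos h]
    exact Cd.pi_iff.1 hΘ _
  · simp only [P330.ext, dif_neg h]
    exact Cd.const 0

lemma pr_shift (S : II N c → Prop) (m : ZMod N) : pr (fun i : II N c => S (i.1 + m, i.2)) = pr S := by
  exact pr_equiv ((Equiv.addRight m).prodCongr (Equiv.refl (Fin c))) S

end Gen

lemma encB_cd (h : cx.Ok χ d) (S : II N c → Prop) (g : Bool) (b : Fin 5) (z : ℕ → ZMod p) :
    Cd χ d (dirs cx.g) S (cx.encB χ g b z) := by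
  intro i _ x
  refine KDefs_congr (LD.sum (range cx.A.k) fun j _ =>
    LD.smul (z j) (LD.chi (h.al_small g b j i) (ip (cx.al g b j) x))) fun α => ?_
  simp only [Cx.encB, ip_add_right, ip_smul_right, smul_eq_mul]

lemma YCd_Ptab (h : cx.Ok χ d) (dir g : Bool) (β : Fin 5 → Bool) (b : Fin 5) (i : II N c)
    (x : XX M N) : LD χ (6 * d) fun α => cx.Ptab χ dir g β b (x + α • dirs cx.g i) := by
  refine LD.sum (range (cx.A.ents dir g).length) fun j _ => ?_
  split_ifs
  · have h1 : Small d (ip (cx.ofr g b j) (dirs cx.g i)) := by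
      unfold Cx.ofr
      split_ifs
      · exact h.al_small _ _ _ _
      · exact h.be_small _ _
    have h2 := Small.sum univ fun (b' : Fin 5) _ => h.al_small g b' ((cx.A.ent dir g j).ix b') i
    rw [card_univ, Fintype.card_fin, ← ip_sum_left] at h2
    have h3 := (h1.sub h2).mono (D' := 6 * d) (by omega)
    rw [← ip_sub_left] at h3
    simp only [ip_add_right, ip_smul_right]
    exact LD.chi h3 _
  · exact LD.zero

lemma YCd_iter {g : Fin c → XX M N} {D : ℕ} {f : XX M N → ZMod p}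
    (hf : Cd χ D (dirs g) (fun _ => True) f) (n : ℕ) :
    Cd χ D (dirs g) (fun _ => True) (Aop^[n] f) := by
  induction n with
  | zero => exact hf
  | succ n ih =>
    rw [Function.iterate_succ_apply']
    exact ih.aop

theorem psi_cd (h : cx.Ok χ d) {S : II N c → Prop} {D : ℕ} (hD : d ≤ D) (dir g : Bool) (b : Fin 5)
    {f : Fin 5 → XX M N → ZMod p} (hf : ∀ b', Cd χ D (dirs cx.g) S (f b')) :
    Cd χ (6 * d + 5 * D) (dirs cx.g) S (cx.psi χ dir g b f) := by
  intro i hi x
  refine KDefs_congr (LD.sum univ fun (β : Fin 5 → Bool) _ =>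
    LD.mul (YCd_Ptab h dir g β b i x) (D' := 5 * D) (g := fun α => ∏ b', if β b' then
      f b' (x + α • dirs cx.g i) else cx.encB χ g b' (fun _ => 1) (x + α • dirs cx.g i) -
        f b' (x + α • dirs cx.g i)) ?_) fun α => ?_
  · have h1 := LD.prod (χ := χ) (D := D) univ (f := fun (b' : Fin 5) α => if β b' then
      f b' (x + α • dirs cx.g i) else cx.encB χ g b' (fun _ => 1) (x + α • dirs cx.g i) -
        f b' (x + α • dirs cx.g i)) fun b' _ => by
      cases β b'
      · exact ((encB_cd h S g b' _ i hi x).mono hD).sub (hf b' i hi x)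
      · exact hf b' i hi x
    rwa [card_univ, Fintype.card_fin] at h1
  · rfl

theorem baseT_cd (h : cx.Ok χ d) {S : II N c → Prop} {D : ℕ} (hD : d ≤ D)
    {Θ : XX M N → CC N → ZMod p} (hΘ : Cd χ D (dirs cx.g) S Θ) (κ : Ctl) (σ : Slot) (b : Fin 5) :
    Cd χ (6 * d + 5 * D) (dirs cx.g) (fun i => S (i.1 + (lo N (ing σ) - sh N (src κ σ)), i.2))
      (cx.baseT χ Θ κ σ b) := by
  have h1 : ∀ b', Cd χ D (dirs cx.g) (fun i => S (i.1 + -sh N (src κ σ), i.2))
      (Cx.top Θ (src κ σ) b') := fun b' => (Cd.pi_iff.1 hΘ (.inl (src κ σ, b'), 0)).tw _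
  refine ((psi_cd h hD σ.1 (ing σ) b h1).tw (lo N (ing σ))).mono le_rfl fun i hi => ?_
  rwa [add_assoc, ← sub_eq_add_neg]

theorem St_cd (h : cx.Ok χ d) (s : Sta) :
    Cd χ (11 * d) (dirs cx.g) (fun _ => True) (cx.St χ s) := by
  refine Cd.pi_iff.2 fun z => ?_
  obtain ⟨r, n⟩ := z
  rcases r with ⟨σ, b⟩ | r
  · have h1 : Cd χ (11 * d) (dirs cx.g) (fun _ => True) (cx.base χ σ b (cx.A.msg s σ)) :=
      ((psi_cd h le_rfl σ.1 (ing σ) b fun b' => encB_cd h (fun _ => True) _ b' _).tw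
        (lo N (ing σ))).mono (by omega) fun _ _ => trivial
    simp only [Cx.St, Cx.StR, stk]
    split_ifs
    · exact YCd_iter h1 _
    · exact Cd.const 0
  · cases r
    · exact Cd.const _
    · exact Cd.const _

end Vale.Agent.P330
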