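import Vale.Agent.P330.YFour

/-! The chain of averages computes one machine step. -/

namespace Vale.Agent.P330

open Finset
open scoped BigOperators

variable {M p c N : ℕ} [Fact M.Prime] [Fact p.Prime] [NeZero N] {J : Type} [Fintype J]
  {χ : AddChar (ZMod M) (ZMod p)} {cx : Cx M p c N J} {d : ℕ}

lemma Mach.WF.ent_ix {A : Mach} (h : A.WF) {dir g : Bool} {j : ℕ} (hj : j < (A.ents dir g).length)
    (b : Fin 5) : (A.ent dir g j).ix b < A.k := by
  have hm : A.ent dir g j ∈ A.ents dir g := by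
    rw [Mach.ent, List.getD_eq_getElem _ _ hj]
    exact List.getElem_mem hj
  generalize A.ent dir g j = D at hm
  simp only [Mach.ents, List.mem_append, List.mem_map, List.mem_range] at hm
  rcases hm with hm | hm | ⟨i, hi, rfl⟩
  · exact (h.1 dir).2 D hm b
  · exact h.2 g D hm b
  · have : (boolD i).ix b = i := by fin_cases b <;> rfl
    rwa [this]

lemma Mach.WF.ents_len {A : Mach} (h : A.WF) (dir g : Bool) :
    (A.ents dir g).length = A.k + (A.ck g).length + A.k ∧ (A.ents dir g).length ≤ A.K := by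
  have h1 : (A.ents dir g).length = A.k + (A.ck g).length + A.k := by
    simp only [Mach.ents, List.length_append, List.length_map, List.length_range, (h.1 dir).1]
    omega
  refine ⟨h1, ?_⟩
  rw [h1, Mach.K]
  cases g <;> omega
lemma YChain_lo (hN : 11 ≤ N) (g : Bool) : (lo N g).val = 5 * g.toNat * (N / 11) := by
  cases g
  · simp [lo]
  · have h1 : RR N < N := by unfold RR; omega
    rw [lo, if_pos rfl, ZMod.val_cast_of_lt h1, RR]
    simp

lemma YChain_val (hN : 11 ≤ N) (g : Bool) (l : ZMod N) :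
    (l - lo N g).val < RR N ↔
      5 * g.toNat * (N / 11) ≤ l.val ∧ l.val < 5 * g.toNat * (N / 11) + 5 * (N / 11) := by
  have h0 := YChain_lo hN g
  have hg : g.toNat ≤ 1 := by cases g <;> simp
  have h5 : 5 * g.toNat * (N / 11) ≤ 5 * (N / 11) := by
    cases g <;> simp
  constructor
  · intro h
    have h1 : l = lo N g + (l - lo N g) := by ring
    have h2 : (lo N g).val + (l - lo N g).val < N := by
      rw [h0]
      unfold RR at h
      omega
    have h3 := ZMod.val_add_of_lt h2
    rw [← h1, h0] at h3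
    unfold RR at h
    omega
  · intro h
    rw [ZMod.val_sub (by rw [h0]; exact h.1), h0]
    unfold RR
    omega

lemma YChain_blk {g : Bool} {b : Fin 5} {l : ZMod N} (h : InB (bn g b) l) :
    5 * g.toNat * (N / 11) ≤ l.val ∧ l.val < 5 * g.toNat * (N / 11) + 5 * (N / 11) := by
  obtain ⟨h1, h2⟩ := h
  have hb : (b : ℕ) + 1 ≤ 5 := b.2
  unfold bn at h1 h2
  have h3 : (b + 1) * (N / 11) ≤ 5 * (N / 11) := Nat.mul_le_mul_right _ hb
  rw [add_mul] at h1
  rw [add_assoc, add_mul] at h2
  omega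

lemma YChain_ofr (h : cx.Ok χ d) (g : Bool) (b : Fin 5) (j : ℕ) (v : XX M N) :
    ip (cx.ofr g b j) (tw (lo N g) (cut (RR N) v)) = 0 := by
  refine sum_eq_zero fun l _ => ?_
  by_cases hl : (l - lo N g).val < RR N
  · have h1 := (YChain_val h.hN g l).1 hl
    have h2 : cx.ofr g b j l = 0 := by
      unfold Cx.ofr
      split_ifs
      · refine h.al_supp _ _ _ _ fun h3 => ?_
        have h4 := YChain_blk h3
        cases g <;> simp at h1 h4 <;> omega
      · refine h.be_supp _ _ ?_
        cases g <;> simp at h1 <;> omega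
    rw [h2, zero_mul]
  · have h2 : tw (lo N g) (cut (RR N) v) l = 0 := if_neg hl
    rw [h2, mul_zero]

lemma YChain_dep_mul {j : ℕ} {f f' : XX M N → ZMod p} (hf : DepB j f) (hf' : DepB j f') :
    DepB j fun x => f x * f' x := fun x x' hx => by
  simp only [hf x x' hx, hf' x x' hx]

/-- The factor of a block. -/
def YChain_H (χ : AddChar (ZMod M) (ZMod p)) (cx : Cx M p c N J) (g : Bool)
    (f : Fin 5 → XX M N → ZMod p) (β : Fin 5 → Bool) (i : Fin 5 → ℕ) (b' : Fin 5) (y : XX M N) :
    ZMod p :=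
  (if β b' then f b' y else cx.encB χ g b' (fun _ => 1) y - f b' y) * χ (-ip (cx.al g b' (i b')) y)

lemma YChain_H_dep (h : cx.Ok χ d) (g : Bool) {f : Fin 5 → XX M N → ZMod p}
    (hf : ∀ b', DepB (bn g b') (f b')) (β : Fin 5 → Bool) (i : Fin 5 → ℕ) (b' : Fin 5) :
    DepB (bn g b') (YChain_H χ cx g f β i b') := by
  intro x x' hx
  have h1 : ip (cx.al g b' (i b')) x = ip (cx.al g b' (i b')) x' := by
    refine sum_congr rfl fun l _ => ?_
    by_cases hl : InB (bn g b') l
    · rw [hx l hl]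
    · rw [h.al_supp _ _ _ _ hl, zero_mul, zero_mul]
  simp only [YChain_H, hf b' x x' hx, encB_dep h g b' (fun _ => 1) x x' hx, h1]

lemma YChain_H_avg (h : cx.Ok χ d) (g : Bool) (f : Fin 5 → XX M N → ZMod p) (β : Fin 5 → Bool)
    {i : Fin 5 → ℕ} {b' : Fin 5} (hi : i b' < cx.A.k) :
    ((M : ZMod p) ^ N)⁻¹ * ∑ y, YChain_H χ cx g f β i b' y =
      if β b' then coef χ (f b') (cx.al g b' (i b')) else 1 - coef χ (f b') (cx.al g b' (i b')) := by
  unfold YChain_H
  split_ifs
  · rfl
  · simp only [sub_mul, sum_sub_distrib, mul_sub]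
    exact congrArg (· - _) (coef_encB h g b' (fun _ => 1) hi)

lemma YChain_chi_sum {T : Type} (t : Finset T) (a : T → ZMod M) :
    χ (∑ i ∈ t, a i) = ∏ i ∈ t, χ (a i) := by
  classical
  induction t using Finset.induction_on with
  | empty => simp
  | insert j t hj ih => rw [sum_insert hj, prod_insert hj, AddChar.map_add_eq_mul, ih]

lemma YChain_psi (dir g : Bool) (b : Fin 5) (f : Fin 5 → XX M N → ZMod p) (y : XX M N) :
    cx.psi χ dir g b f y = ∑ j ∈ range (cx.A.ents dir g).length, ∑ β : Fin 5 → Bool,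
      (if (cx.A.ent dir g j).tt β then 1 else 0) * (χ (ip (cx.ofr g b j) y) *
        ∏ b', YChain_H χ cx g f β (cx.A.ent dir g j).ix b' y) := by
  rw [sum_comm]
  unfold Cx.psi psiL Cx.Ptab
  refine sum_congr rfl fun β _ => ?_
  rw [sum_mul]
  refine sum_congr rfl fun j _ => ?_
  split_ifs
  · rw [ip_sub_left, ip_sum_left, sub_eq_add_neg, AddChar.map_add_eq_mul, ← sum_neg_distrib,
      YChain_chi_sum, one_mul, mul_assoc, ← prod_mul_distrib]
    refine congrArg _ (prod_congr rfl fun b' _ => ?_)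
    rw [YChain_H, mul_comm]
  · rw [zero_mul, zero_mul]

/-- The bijection of the points. -/
def YChain_eq (m : ZMod N) (X : XX M N) : XX M N ≃ XX M N where
  toFun v := X + tw m v
  invFun y := tw (-m) (y - X)
  left_inv v := by
    simp only [add_sub_cancel_left, tw_tw, neg_add_cancel, tw_zero]
  right_inv y := by
    simp only [tw_tw, add_neg_cancel, tw_zero, add_sub_cancel]

theorem chain (h : cx.Ok χ d) (dir g : Bool) (b : Fin 5) {f : Fin 5 → XX M N → ZMod p}
    (hf : ∀ b', DepB (bn g b') (f b')) (x : XX M N) :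
    Aop^[RR N] (fun y => cx.psi χ dir g b f (tw (lo N g) y)) x =
      cx.outF χ dir g b (fun b' i => coef χ (f b') (cx.al g b' i)) (tw (lo N g + RR N) x) := by
  have hR : RR N ≤ N := by unfold RR; omega
  rw [Aop_iter h.hMp hR]
  simp only [tw_add, tw_tw]
  generalize tw (lo N g + (RR N : ZMod N)) x = X
  simp only [YChain_psi, ip_add_right, YChain_ofr h, add_zero]
  rw [sum_comm, mul_sum, Cx.outF]
  refine sum_congr rfl fun j hj => ?_
  rw [sum_comm, mul_sum, mle, psiL, sum_mul]
  refine sum_congr rfl fun β _ => ?_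
  have h1 : ∀ v : XX M N, ∏ b', YChain_H χ cx g f β (cx.A.ent dir g j).ix b'
      (X + tw (lo N g) (cut (RR N) v)) =
      ∏ b', YChain_H χ cx g f β (cx.A.ent dir g j).ix b' (YChain_eq (lo N g) X v) := by
    intro v
    refine prod_congr rfl fun b' _ => YChain_H_dep h g hf β _ b' _ _ fun l hl => ?_
    have h2 : (l - lo N g).val < RR N := (YChain_val h.hN g l).2 (YChain_blk hl)
    exact congrArg (X l + ·) (if_pos h2)
  simp only [h1]
  rw [← mul_sum, ← mul_sum, Equiv.sum_comp (YChain_eq (lo N g) X)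
    fun y => ∏ b', YChain_H χ cx g f β (cx.A.ent dir g j).ix b' y]
  have h3 := avg_prod h.hMp g (YChain_H_dep h g hf β (cx.A.ent dir g j).ix)
  simp only [YChain_H_avg h g f β (h.start.1.ent_ix (mem_range.1 hj) _)] at h3
  rw [← h3]
  ring

lemma outF_congr (h : cx.Ok χ d) (dir g : Bool) (b : Fin 5) {z z' : Fin 5 → ℕ → ZMod p}
    (hz : ∀ b', ∀ i < cx.A.k, z b' i = z' b' i) :
    cx.outF χ dir g b z = cx.outF χ dir g b z' := by
  funext x
  refine sum_congr rfl fun j hj => ?_
  have h1 : (fun b' => z b' ((cx.A.ent dir g j).ix b')) =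
      fun b' => z' b' ((cx.A.ent dir g j).ix b') :=
    funext fun b' => hz b' _ (h.start.1.ent_ix (mem_range.1 hj) b')
  rw [mle, mle, h1]

theorem chain_enc (h : cx.Ok χ d) (dir g : Bool) (b : Fin 5) (z : ℕ → ZMod p) (x : XX M N) :
    Aop^[RR N] (fun y => cx.psi χ dir g b (fun b' => cx.encB χ g b' z) (tw (lo N g) y)) x =
      cx.outF χ dir g b (fun _ => z) (tw (lo N g + RR N) x) := by
  rw [chain h dir g b fun b' => encB_dep h g b' z,
    outF_congr h dir g b (z' := fun _ => z) fun b' i hi => coef_encB h g b' z hi]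

end Vale.Agent.P330
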