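import Vale.Agent.P330.KDefs
import Vale.Agent.P330.Mach

/-! Encodings of words by Fourier coefficients and the algebraic form of one machine step. -/

namespace Vale.Agent.P330

open Finset
open scoped BigOperators

/-- Points. -/
abbrev XX (M N : ℕ) := ZMod N → ZMod M

/-- The length of a chain. -/
def RR (N : ℕ) : ℕ := 5 * (N / 11)

/-- A slot: direction and parity. -/
abbrev Slot := Bool × Bool

/-- Rows: five for each slot, the counter (`false`) and the control (`true`). -/
abbrev Row := (Slot × Fin 5) ⊕ Bool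

/-- The coordinates of a symbol. -/
abbrev CC (N : ℕ) := Row × Fin (RR N + 2)

instance instDecCC (N : ℕ) : DecidableEq (CC N) := inferInstance

instance instFinCC (N : ℕ) : Fintype (CC N) := inferInstance

/-- The directions. -/
abbrev II (N c : ℕ) := ZMod N × Fin c

/-- The replica index. -/
abbrev WW (M p c N : ℕ) := II N c × (CC N → ZMod p) × XX M N

/-- The positions. -/
abbrev PP (M p c N : ℕ) := Pos M (ZMod p) (ZMod N) (II N c) (CC N)

/-- The data that depend on the instance. -/
structure Cx (M p c N : ℕ) (J : Type) where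
  g : Fin c → XX M N
  al : Bool → Fin 5 → ℕ → XX M N
  be : ℕ → XX M N
  A : Mach
  sp : J → Equiv.Perm (WW M p c N)

/-- The check that a value is Boolean. -/
def boolD (i : ℕ) : Desc := (mkT fun β => β 0 && !β 1, List.replicate 5 i)

/-- The rule followed by all checks. -/
def Mach.ents (A : Mach) (dir g : Bool) : List Desc :=
  A.prog dir ++ (A.ck g ++ (List.range A.k).map boolD)

/-- An entry of the list of rules and checks. -/
def Mach.ent (A : Mach) (dir g : Bool) (j : ℕ) : Desc := (A.ents dir g).getD j ([], [])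

/-- A bound for the number of entries. -/
def Mach.K (A : Mach) : ℕ := 2 * A.k + (A.ck false).length + (A.ck true).length

/-- The coordinate lies in block `j`. -/
def InB {N : ℕ} (j : ℕ) (l : ZMod N) : Prop := j * (N / 11) ≤ l.val ∧ l.val < (j + 1) * (N / 11)

instance {N : ℕ} (j : ℕ) (l : ZMod N) : Decidable (InB j l) := by unfold InB; infer_instance

/-- The number of a block. -/
def bn (g : Bool) (b : Fin 5) : ℕ := 5 * g.toNat + b

/-- The first coordinate of the blocks of parity `g`. -/
def lo (N : ℕ) (g : Bool) : ZMod N := if g then (RR N : ZMod N) else 0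

/-- The bits of a word as field elements. -/
def bitv (p : ℕ) (w : List Bool) (i : ℕ) : ZMod p := if w.getD i false then 1 else 0

/-- The multilinear form of a product with tables. -/
def psiL {F : Type} [CommRing F] (Pt : (Fin 5 → Bool) → F) (U f : Fin 5 → F) : F :=
  ∑ β, Pt β * ∏ b, if β b then f b else U b - f b

/-- The multilinear extension of a local function. -/
def mle {F : Type} [CommRing F] (D : Desc) (z : Fin 5 → ℕ → F) : F :=
  psiL (fun β => if D.tt β then 1 else 0) (fun _ => 1) fun b => z b (D.ix b)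

variable {M p c N : ℕ} [Fact M.Prime] [Fact p.Prime] [NeZero N] {J : Type}
  (χ : AddChar (ZMod M) (ZMod p)) (cx : Cx M p c N J)

/-- The function depends only on the coordinates in block `j`. -/
def DepB (j : ℕ) (f : XX M N → ZMod p) : Prop :=
  ∀ x x', (∀ l, InB j l → x l = x' l) → f x = f x'

/-- A Fourier coefficient. -/
def coef (f : XX M N → ZMod p) (y : XX M N) : ZMod p :=
  ((M : ZMod p) ^ N)⁻¹ * ∑ x, f x * χ (-ip y x)

/-- The shift followed by the average along the first coordinate. -/
def Aop (φ : XX M N → ZMod p) (x : XX M N) : ZMod p :=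
  (M : ZMod p)⁻¹ * ∑ α : ZMod M, φ (tw 1 x + α • Pi.single 0 1)

/-- The first `t` coordinates. -/
def cut (t : ℕ) (v : XX M N) : XX M N := fun l => if l.val < t then v l else 0

namespace Cx

/-- The encoding in block `(g, b)`. -/
def encB (g : Bool) (b : Fin 5) (z : ℕ → ZMod p) (x : XX M N) : ZMod p :=
  ∑ i ∈ range cx.A.k, z i * χ (ip (cx.al g b i) x)

/-- The output frequency of an entry. -/
def ofr (g : Bool) (b : Fin 5) (j : ℕ) : XX M N := if j < cx.A.k then cx.al (!g) b j else cx.be j

/-- The table of the multilinear form. -/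
def Ptab (dir g : Bool) (β : Fin 5 → Bool) (b : Fin 5) (x : XX M N) : ZMod p :=
  ∑ j ∈ range (cx.A.ents dir g).length, if (cx.A.ent dir g j).tt β then
    χ (ip (cx.ofr g b j - ∑ b', cx.al g b' ((cx.A.ent dir g j).ix b')) x) else 0

/-- The bottom of a chain. -/
def psi (dir g : Bool) (b : Fin 5) (f : Fin 5 → XX M N → ZMod p) (x : XX M N) : ZMod p :=
  psiL (fun β => cx.Ptab χ dir g β b x) (fun b' => cx.encB χ g b' (fun _ => 1) x) fun b' => f b' x

/-- The top of a chain. -/
def outF (dir g : Bool) (b : Fin 5) (z : Fin 5 → ℕ → ZMod p) (x : XX M N) : ZMod p :=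
  ∑ j ∈ range (cx.A.ents dir g).length, mle (cx.A.ent dir g j) z * χ (ip (cx.ofr g b j) x)

/-- The requirements on the data. -/
structure Ok [Fintype J] (d : ℕ) : Prop where
  prim : χ.IsPrimitive
  hM : 20000 * (11 * d + 2) ≤ M
  hp : 1000 ≤ p
  hMp : (M : ZMod p) ≠ 0
  hN : 11 ≤ N
  expd : Expd (dirs cx.g) lam0
  samp : Samp (1 / 256) cx.sp
  al_small : ∀ g b i s, Small d (ip (cx.al g b i) (dirs cx.g s))
  al_supp : ∀ g b i l, ¬InB (bn g b) l → cx.al g b i l = 0
  al_inj : ∀ g b, ∀ i < cx.A.k, ∀ j < cx.A.k, cx.al g b i = cx.al g b j → i = j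
  be_small : ∀ i s, Small d (ip (cx.be i) (dirs cx.g s))
  be_supp : ∀ i l, l.val < 10 * (N / 11) → cx.be i l = 0
  be_ne : ∀ i < cx.A.K, cx.be i ≠ 0
  be_inj : ∀ i < cx.A.K, ∀ j < cx.A.K, cx.be i = cx.be j → i = j
  start : cx.A.Start

end Cx

end Vale.Agent.P330
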