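import Vale.Agent.P330.YChain

/-! Tops of chains and edges of the machine. -/

namespace Vale.Agent.P330

open Finset
open scoped BigOperators

variable {M p c N : ℕ} [Fact M.Prime] [Fact p.Prime] [NeZero N] {J : Type} [Fintype J]
  {χ : AddChar (ZMod M) (ZMod p)} {cx : Cx M p c N J} {d : ℕ}

lemma mle_bitv (D : Desc) (w : List Bool) :
    mle D (fun _ => bitv p w) = if D.ev w then 1 else 0 := by
  have h1 : ∀ β : Fin 5 → Bool,
      (∏ b, if β b then bitv p w (D.ix b) else 1 - bitv p w (D.ix b)) =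
        if β = fun b => w.getD (D.ix b) false then 1 else 0 := by
    intro β
    split_ifs with h
    · subst h
      refine prod_eq_one fun b _ => ?_
      unfold bitv
      split_ifs <;> simp
    · obtain ⟨b, hb⟩ := Function.ne_iff.1 h
      refine prod_eq_zero (mem_univ b) ?_
      unfold bitv
      revert hb
      cases β b <;> cases w.getD (D.ix b) false <;> simp
  simp only [mle, psiL, h1, mul_ite, mul_one, mul_zero, sum_ite_eq', mem_univ, if_true]
  rfl

lemma mle_boolD (i : ℕ) (z : Fin 5 → ℕ → ZMod p) : mle (boolD i) z = z 0 i * (1 - z 1 i) := by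
  have h0 : ∀ b, (boolD i).ix b = i := fun b => by fin_cases b <;> rfl
  have h1 := Finset.prod_univ_sum (fun _ : Fin 5 => (univ : Finset Bool)) fun b t =>
    (if b = 0 then (if t then 1 else 0) else if b = 1 then (if t then 0 else 1) else 1) *
      (if t then z b i else 1 - z b i)
  rw [Fintype.piFinset_univ] at h1
  have h2 : mle (boolD i) z = ∑ x : Fin 5 → Bool, ∏ b,
      (if b = 0 then (if x b then 1 else 0) else if b = 1 then (if x b then 0 else 1) else 1) *
        (if x b then z b i else 1 - z b i) := by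
    simp only [mle, psiL, h0]
    refine sum_congr rfl fun β _ => ?_
    rw [prod_mul_distrib, boolD, mkT_tt]
    refine congrArg (· * _) ?_
    rw [Fin.prod_univ_five]
    cases β 0 <;> cases β 1 <;> simp
  rw [h2, ← h1, Fin.prod_univ_five]
  simp

lemma YPair_be (h : cx.Ok χ d) {j : ℕ} (hj : j < cx.A.K) :
    ∃ l, cx.be j l ≠ 0 ∧ ∀ g b, ¬InB (bn g b) l := by
  obtain ⟨l, hl⟩ := Function.ne_iff.1 (h.be_ne j hj)
  refine ⟨l, hl, fun g b h1 => hl (h.be_supp j l ?_)⟩
  have h2 := YChain_blk h1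
  cases g <;> simp at h2 <;> omega

lemma YPair_inj (h : cx.Ok χ d) (g : Bool) (b : Fin 5) {i j : ℕ} (hi : i < cx.A.K)
    (hj : j < cx.A.K) (e : cx.ofr g b i = cx.ofr g b j) : i = j := by
  unfold Cx.ofr at e
  split_ifs at e with h1 h2 h2
  · exact h.al_inj _ _ _ h1 _ h2 e
  · obtain ⟨l, h3, h4⟩ := YPair_be h hj
    exact absurd (e ▸ h.al_supp _ _ i l (h4 (!g) b)) h3
  · obtain ⟨l, h3, h4⟩ := YPair_be h hi
    exact absurd (e ▸ h.al_supp _ _ j l (h4 (!g) b)) h3
  · exact h.be_inj _ hi _ hj e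

lemma YPair_len {A : Mach} (h : A.WF) (dir : Bool) (w : List Bool) :
    (A.step dir w).length = A.k := by
  rw [Mach.step, List.length_map, (h.1 dir).1]

lemma YPair_step {A : Mach} (h : A.WF) (dir g : Bool) (w : List Bool) {j : ℕ} (hj : j < A.k) :
    (A.step dir w).getD j false = (A.ent dir g j).ev w := by
  have h1 : j < (A.prog dir).length := by rwa [(h.1 dir).1]
  rw [Mach.ent, Mach.ents, List.getD_append _ _ _ _ h1, List.getD_eq_getElem _ _ h1,
    List.getD_eq_getElem _ _ (by rwa [YPair_len h])]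
  simp [Mach.step]

lemma YPair_ge {A : Mach} (h : A.WF) {dir g : Bool} {j : ℕ} (hk : A.k ≤ j)
    (hj : j < (A.ents dir g).length) : A.ent dir g j ∈ A.ck g ∨ ∃ i, A.ent dir g j = boolD i := by
  have h1 : (A.prog dir).length ≤ j := by rwa [(h.1 dir).1]
  have h2 : j - (A.prog dir).length < (A.ck g ++ (List.range A.k).map boolD).length := by
    rw [Mach.ents, List.length_append] at hj
    omega
  rw [Mach.ent, Mach.ents, List.getD_append_right _ _ _ _ h1, List.getD_eq_getElem _ _ h2]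
  rcases List.mem_append.1 (List.getElem_mem h2) with h3 | h3
  · exact .inl h3
  · obtain ⟨i, -, h4⟩ := List.mem_map.1 h3
    exact .inr ⟨i, h4.symm⟩

lemma YPair_mem {A : Mach} (h : A.WF) (dir : Bool) {g : Bool} {D : Desc}
    (hD : D ∈ A.ck g ++ (List.range A.k).map boolD) :
    ∃ j, A.k ≤ j ∧ j < (A.ents dir g).length ∧ A.ent dir g j = D := by
  obtain ⟨i, hi, rfl⟩ := List.getElem_of_mem hD
  refine ⟨(A.prog dir).length + i, by rw [(h.1 dir).1]; omega, ?_, ?_⟩
  · rw [Mach.ents, List.length_append]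
    omega
  · rw [Mach.ent, Mach.ents, List.getD_append_right _ _ _ _ (Nat.le_add_right _ _),
      Nat.add_sub_cancel_left, List.getD_eq_getElem _ _ hi]

lemma YPair_boolD (i : ℕ) (w : List Bool) : (boolD i).ev w = false := by
  have h0 : ∀ b, (boolD i).ix b = i := fun b => by fin_cases b <;> rfl
  simp only [Desc.ev, h0]
  rw [boolD, mkT_tt]
  simp

lemma YPair_bitv {k : ℕ} {w v : List Bool} (hw : w.length = k) (hv : v.length = k)
    (e : ∀ i < k, bitv p w i = bitv p v i) : w = v := by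
  refine List.ext_getElem (hw.trans hv.symm) fun i h1 h2 => ?_
  have h3 := e i (hw ▸ h1)
  rw [bitv, bitv, List.getD_eq_getElem _ _ h1, List.getD_eq_getElem _ _ h2] at h3
  revert h3
  cases w[i] <;> cases v[i] <;> simp

theorem coef_outF (h : cx.Ok χ d) (dir g : Bool) (b : Fin 5) (z : Fin 5 → ℕ → ZMod p) {j : ℕ}
    (hj : j < (cx.A.ents dir g).length) :
    coef χ (cx.outF χ dir g b z) (cx.ofr g b j) = mle (cx.A.ent dir g j) z := by
  have hK := (h.start.1.ents_len dir g).2
  unfold Cx.outF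
  rw [coef_sum, sum_eq_single_of_mem j (mem_range.2 hj), coef_chi h.prim h.hMp, if_pos rfl, mul_one]
  intro i hi hij
  rw [coef_chi h.prim h.hMp, if_neg, mul_zero]
  exact fun e => hij (YPair_inj h g b ((mem_range.1 hi).trans_le hK) (hj.trans_le hK) e)

theorem outF_dep (h : cx.Ok χ d) {dir g : Bool} {b : Fin 5} {z : Fin 5 → ℕ → ZMod p}
    (hd : DepB (bn (!g) b) (cx.outF χ dir g b z)) {j : ℕ} (hk : cx.A.k ≤ j)
    (hj : j < (cx.A.ents dir g).length) : mle (cx.A.ent dir g j) z = 0 := by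
  have hK := (h.start.1.ents_len dir g).2
  obtain ⟨l, h1, h2⟩ := YPair_be h (hj.trans_le hK)
  rw [← coef_outF h dir g b z hj]
  refine coef_dep h.prim hd (h2 _ _) ?_
  rwa [Cx.ofr, if_neg (not_lt.2 hk)]

theorem outF_ok (h : cx.Ok χ d) (dir : Bool) {g : Bool} (b : Fin 5) {w : List Bool}
    (hw : cx.A.ok g w) :
    cx.outF χ dir g b (fun _ => bitv p w) = cx.encB χ (!g) b (bitv p (cx.A.step dir w)) := by
  funext x
  have hL := (h.start.1.ents_len dir g).1
  unfold Cx.outF Cx.encB
  rw [← sum_subset (range_subset_range.2 (show cx.A.k ≤ (cx.A.ents dir g).length by omega))]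
  · refine sum_congr rfl fun j hj => ?_
    rw [mle_bitv, Cx.ofr, if_pos (mem_range.1 hj), bitv,
      YPair_step h.start.1 dir g w (mem_range.1 hj)]
  · intro j hj hk
    have h1 : (cx.A.ent dir g j).ev w = false := by
      rcases YPair_ge h.start.1 (not_lt.1 fun h2 => hk (mem_range.2 h2)) (mem_range.1 hj) with
        h2 | ⟨i, h2⟩
      · exact hw.2 _ h2
      · rw [h2]
        exact YPair_boolD i w
    rw [mle_bitv, h1]
    simp

theorem encB_inj (h : cx.Ok χ d) {g : Bool} {b : Fin 5} {w v : List Bool} (hw : w.length = cx.A.k)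
    (hv : v.length = cx.A.k) (e : cx.encB χ g b (bitv p w) = cx.encB χ g b (bitv p v)) :
    w = v := by
  refine YPair_bitv (p := p) hw hv fun i hi => ?_
  rw [← coef_encB h g b (bitv p w) hi, e, coef_encB h g b _ hi]

lemma YPair_ok (h : cx.Ok χ d) {dir g : Bool} {b : Fin 5} {w : List Bool}
    (hw : w.length = cx.A.k) (hd : DepB (bn (!g) b) (cx.outF χ dir g b fun _ => bitv p w)) :
    cx.A.ok g w := by
  refine ⟨hw, fun D hD => ?_⟩
  obtain ⟨j, h1, h2, rfl⟩ := YPair_mem h.start.1 dir (List.mem_append_left _ hD)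
  have h3 := outF_dep h hd h1 h2
  rw [mle_bitv] at h3
  simpa using h3

theorem ok_of_outF (h : cx.Ok χ d) {dir g : Bool} {b : Fin 5} {w v : List Bool}
    (hw : w.length = cx.A.k) (hv : v.length = cx.A.k)
    (e : cx.outF χ dir g b (fun _ => bitv p w) = cx.encB χ (!g) b (bitv p v)) :
    cx.A.ok g w ∧ cx.A.step dir w = v := by
  have h1 : cx.A.ok g w := YPair_ok h hw (b := b) (dir := dir) (e ▸ encB_dep h _ _ _)
  refine ⟨h1, encB_inj h (g := !g) (b := b) (YPair_len h.start.1 dir w) hv ?_⟩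
  rw [← e, outF_ok h dir b h1]

lemma YPair_half (h : cx.Ok χ d) {dir g : Bool} {f' : Fin 5 → XX M N → ZMod p}
    {z : Fin 5 → ℕ → ZMod p} (hf' : ∀ b, DepB (bn (!g) b) (f' b))
    (h1 : ∀ b, f' b = cx.outF χ dir g b z) (hz : ∀ b, ∀ i < cx.A.k, z b i = z 0 i) :
    ∃ w, cx.A.ok g w ∧ (∀ b, ∀ i < cx.A.k, z b i = bitv p w i) ∧
      ∀ b, f' b = cx.encB χ (!g) b (bitv p (cx.A.step dir w)) := by
  have h2 : ∀ b, ∀ i < cx.A.k,
      z b i = bitv p ((List.range cx.A.k).map fun i => decide (z 0 i = 1)) i := by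
    intro b i hi
    obtain ⟨j, a1, a2, a3⟩ := YPair_mem h.start.1 dir (g := g) (D := boolD i)
      (List.mem_append_right _ (List.mem_map_of_mem (List.mem_range.2 hi)))
    have a4 := outF_dep h (h1 0 ▸ hf' 0) a1 a2
    rw [a3, mle_boolD, hz 1 i hi] at a4
    rw [hz b i hi, bitv, List.getD_eq_getElem _ _ (by simpa using hi)]
    simp only [List.getElem_map, List.getElem_range, decide_eq_true_eq]
    split_ifs with a5
    · exact a5
    · exact (mul_eq_zero.1 a4).resolve_right fun a6 => a5 (sub_eq_zero.1 a6).symm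
  have h3 : ∀ b, f' b = cx.outF χ dir g b fun _ =>
      bitv p ((List.range cx.A.k).map fun i => decide (z 0 i = 1)) := fun b =>
    (h1 b).trans (outF_congr h dir g b h2)
  have h4 := YPair_ok h (by simp) (h3 0 ▸ hf' 0)
  exact ⟨_, h4, h2, fun b => (h3 b).trans (outF_ok h dir b h4)⟩

/-- Two families of block functions that compute each other encode an edge. -/
theorem pair_edge (h : cx.Ok χ d) {g : Bool} {f f' : Fin 5 → XX M N → ZMod p}
    (hf : ∀ b, DepB (bn g b) (f b)) (hf' : ∀ b, DepB (bn (!g) b) (f' b))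
    (h1 : ∀ b, f' b = cx.outF χ true g b fun b' i => coef χ (f b') (cx.al g b' i))
    (h2 : ∀ b, f b = cx.outF χ false (!g) b fun b' i => coef χ (f' b') (cx.al (!g) b' i)) :
    ∃ w w', cx.A.Edge g w w' ∧ (∀ b, f b = cx.encB χ g b (bitv p w)) ∧
      ∀ b, f' b = cx.encB χ (!g) b (bitv p w') := by
  have e1 : ∀ b, ∀ i < cx.A.k, coef χ (f' b) (cx.al (!g) b i) =
      mle (cx.A.ent true g i) fun b' i => coef χ (f b') (cx.al g b' i) := by
    intro b i hi
    have hL := (h.start.1.ents_len true g).1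
    rw [← coef_outF h true g b _ (show i < _ by omega), ← h1, Cx.ofr, if_pos hi]
  have e2 : ∀ b, ∀ i < cx.A.k, coef χ (f b) (cx.al g b i) =
      mle (cx.A.ent false (!g) i) fun b' i => coef χ (f' b') (cx.al (!g) b' i) := by
    intro b i hi
    have hL := (h.start.1.ents_len false (!g)).1
    rw [← coef_outF h false (!g) b _ (show i < _ by omega), ← h2, Cx.ofr, if_pos hi, Bool.not_not]
  obtain ⟨w, a1, a2, a3⟩ := YPair_half h hf' h1 fun b i hi => by rw [e2 b i hi, e2 0 i hi]
  obtain ⟨w', b1, b2, b3⟩ := YPair_half h (g := !g) (f' := f) (by rwa [Bool.not_not]) h2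
    fun b i hi => by rw [e1 b i hi, e1 0 i hi]
  rw [Bool.not_not] at b3
  have c1 : cx.A.step true w = w' := by
    refine YPair_bitv (p := p) (YPair_len h.start.1 _ _) b1.1 fun i hi => ?_
    rw [← b2 0 i hi, a3 0, coef_encB h _ _ _ hi]
  have c2 : cx.A.step false w' = w := by
    refine YPair_bitv (p := p) (YPair_len h.start.1 _ _) a1.1 fun i hi => ?_
    rw [← a2 0 i hi, b3 0, coef_encB h _ _ _ hi]
  exact ⟨w, w', ⟨a1, b1, c1, c2⟩, fun b => by rw [b3 b, c2], fun b => by rw [a3 b, c1]⟩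

end Vale.Agent.P330
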