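import Vale.Agent.P330.YRd
import Vale.Agent.P330.YTest

/-! Completeness of the tests. -/

namespace Vale.Agent.P330

variable {M p c N : ℕ} [Fact M.Prime] [Fact p.Prime] [NeZero N] [NeZero c] {J : Type}
  [Fintype J] {χ : AddChar (ZMod M) (ZMod p)} {cx : Cx M p c N J} {d : ℕ}
  {Θ : XX M N → CC N → ZMod p} {κ : Ctl} {j : ℕ}

omit [Fact M.Prime] [NeZero N] in
lemma YRelA_hot (hj : j ≤ RR N + 1) (a : Fin (RR N + 2) → ZMod p) :
    ∑ s : Fin (RR N + 2), a s * (if s.val = j then 1 else 0) = a ⟨j, by omega⟩ := by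
  rw [Finset.sum_eq_single ⟨j, by omega⟩]
  · simp
  · intro s _ hs
    rw [if_neg fun e => hs (Fin.ext e), mul_zero]
  · simp

theorem tstA_hw {D : ℕ} (hΘ : Cd χ D (dirs cx.g) (fun _ => True) Θ) (z : PP M p c N) :
    TstA χ (cx.rh χ Θ z) D := by
  refine ⟨fun j => ?_, ?_, ?_⟩
  · rw [own_rh, rh_eq]
    simp only [Cx.adF, orbF_zero]
    rfl
  · rw [own_rh, rh_eq, rh_eq]
    simp only [Cx.adF, hw, xa_xd0, ← Finset.sum_add_distrib]
    refine Finset.sum_congr rfl fun y _ => ?_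
    have : PD.ev pdZ z.2.1 y = 0 := by simp [PD.ev, pdZ, fK, Fac.ev]
    rw [Pi.add_apply, Pi.add_apply, this]
    ring
  · refine KDefs_congr (LD.sum Finset.univ fun y _ =>
      (LD.pi_iff.1 (hΘ z.2.2.1 trivial z.1) y).smul (z.2.1 y)) fun α => ?_
    rw [rh_eq]
    simp only [Cx.adF, hw, xa_line, smul_eq_mul]

theorem tstB_rel (h : cx.Ok χ d) (h1 : cx.Rel χ κ j Θ) (h2 : Cx.RelE κ j Θ) (z : PP M p c N) :
    TstB (cx.tab χ z) (cx.rh χ Θ z) (par (tv N κ.2 j : ℕ)) := by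
  have hc : Θ z.1 (.inr true, 0) = code p κ := by rw [h1.ctl]; simp
  have hg := gam_rh (cx := cx) (χ := χ) h.hp hc
  refine ⟨fun b => ?_, ?_, ?_, ?_, ?_, ?_, fun σ b => ?_, fun dir b => ?_, fun hm dir b hd => ?_⟩
  · rw [val_row, val_row]
    cases b
    · simp only [h1.mu]
    · simp only [h1.ctl]
  · rw [hg, at0_rh, xa_xd0, hc]
  · rw [val_row, at0_rh, xa_xd0, hc, Finset.sum_eq_single 0]
    · rw [hc]
      exact congrArg (· * code p κ) (ext_val z.2.1 (.inr true) 0).symm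
    · intro s _ hs
      rw [h1.ctl, if_neg fun e : s.val = 0 => hs (Fin.ext e), mul_zero]
    · simp
  · rw [tmF_rh h.hp hc h1.le (h1.mu _)]
  · rw [val_row2, val_row, val_row]
    simp only [h1.mu, YRelA_hot h1.le]
  · rw [val_one]
    have := YRelA_hot (p := p) h1.le fun _ => 1
    simpa only [h1.mu, one_mul] using this
  · rw [val_row, Aval_dn, hg, Jv_rh h1.le (h1.mu _), basev_rh, xa_xd0, Finset.sum_mul,
      ← Finset.sum_add_distrib]
    refine Finset.sum_congr rfl fun s _ => ?_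
    rw [← ext_val (Θ z.1), h1.stk]
    split_ifs <;> ring
  · rw [hg, at0_rh, at0_rh, xa_msk, xa_xd0]
    exact dep_of_msk.1 (h1.inv dir b) _ _
  · rw [hg] at hd ⊢
    rw [at0_rh, at0_rh, xa_xd0]
    rw [muB_rh h1.le (h1.mu _)] at hm
    refine h2 ?_ dir b hd _
    by_contra hj
    rw [if_neg (by simpa [posB] using hj)] at hm
    exact zero_ne_one hm

end Vale.Agent.P330
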