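import Vale.Agent.P330.YPair
import Vale.Agent.P330.YRd

/-! States satisfy the relations. -/

namespace Vale.Agent.P330

variable {M p c N : ℕ} [Fact M.Prime] [Fact p.Prime] [NeZero N] [NeZero c] {J : Type}
  [Fintype J] {χ : AddChar (ZMod M) (ZMod p)} {cx : Cx M p c N J} {d : ℕ}
  {s t : Sta}

lemma ysta_hgt {κ : Ctl} {j : ℕ} (hj : j ≤ RR N + 1) (σ : Slot) : hgt N κ j σ ≤ RR N + 1 := by
  unfold hgt
  split_ifs <;> omega

lemma ext_St (hs : s.2.1 ≤ RR N + 1) (x : XX M N) (r : Row) (n : ℕ) :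
    ext (cx.St χ s x) r n = cx.StR χ s x r n := by
  unfold ext
  split_ifs with h
  · rfl
  · rcases r with z | _ | _
    · have h1 := ysta_hgt (κ := s.1) hs z.1
      simp only [Cx.StR, stk, if_neg (show ¬n < hgt N s.1 s.2.1 z.1 by omega), Pi.zero_apply]
    · simp only [Cx.StR, if_neg (show ¬n = s.2.1 by omega)]
    · simp only [Cx.StR, if_neg (show ¬n = 0 by omega)]

lemma top_full (h : cx.Ok χ d) {σ : Slot} (hσ : hgt N s.1 s.2.1 σ = RR N + 1) (b : Fin 5) :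
    Cx.top (cx.St χ s) σ b = cx.outF χ σ.1 (ing σ) b fun _ => bitv p (cx.A.msg s σ) := by
  funext y
  have h1 := chain_enc h σ.1 (ing σ) b (bitv p (cx.A.msg s σ)) (tw (-sh N σ) y)
  rw [tw_tw, ← sh, add_neg_cancel, tw_zero] at h1
  rw [← h1]
  show stk (cx.base χ σ b (cx.A.msg s σ)) (hgt N s.1 s.2.1 σ) 0 (tw (-sh N σ) y) = _
  rw [hσ, stk, if_pos (Nat.succ_pos _)]
  rfl

lemma ysta_src (κ : Ctl) (σ : Slot) : src κ σ ≠ act κ ∧ full κ (src κ σ) = true := by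
  revert κ σ
  decide

lemma ysta_msg {A : Mach} (hs : A.Edge s.1.1 s.2.2.1 s.2.2.2) (σ : Slot) :
    A.ok (ing (src s.1 σ)) (A.msg s (src s.1 σ)) ∧
      A.step (src s.1 σ).1 (A.msg s (src s.1 σ)) = A.msg s σ := by
  obtain ⟨⟨π, ph⟩, j, w, w'⟩ := s
  obtain ⟨dir, g⟩ := σ
  obtain ⟨h1, h2, h3, h4⟩ := hs
  fin_cases ph <;> cases π <;> cases dir <;> cases g <;>
    simp_all [src, ing, Mach.msg]

lemma ysta_top (h : cx.Ok χ d) (hs : cx.A.Val N s) (σ : Slot) (b : Fin 5) :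
    Cx.top (cx.St χ s) (src s.1 σ) b = cx.encB χ (ing σ) b (bitv p (cx.A.msg s σ)) := by
  obtain ⟨h1, h2⟩ := ysta_msg hs.2 σ
  rw [top_full h (by rw [hgt, if_neg (ysta_src _ _).1, if_pos (ysta_src _ _).2]),
    outF_ok h _ b h1, h2, ing_src, Bool.not_not]

theorem top_src (h : cx.Ok χ d) (hs : cx.A.Val N s) {σ : Slot}
    (hσ : σ = act s.1 ∨ full s.1 σ = true) (b : Fin 5) :
    Cx.top (cx.St χ s) (src s.1 σ) b = cx.encB χ (ing σ) b (bitv p (cx.A.msg s σ)) :=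
  hσ.elim (fun _ => ysta_top h hs σ b) fun _ => ysta_top h hs σ b

theorem baseT_St (h : cx.Ok χ d) (hs : cx.A.Val N s) {σ : Slot}
    (hσ : σ = act s.1 ∨ full s.1 σ = true) (b : Fin 5) :
    cx.baseT χ (cx.St χ s) s.1 σ b = cx.base χ σ b (cx.A.msg s σ) := by
  funext x
  rw [Cx.baseT, funext (top_src h hs hσ), Cx.base]

theorem top_pair (h : cx.Ok χ d) (hs : cx.A.Val N s) (dir : Bool) (b : Fin 5) :
    Cx.top (cx.St χ s) (dir, s.1.1) b =
      cx.encB χ (!ing (dir, s.1.1)) b (bitv p (if dir then s.2.2.2 else s.2.2.1)) := by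
  have h1 := ysta_top h hs (!dir, s.1.1) b
  cases dir <;> simpa [src, ing, Mach.msg] using h1

theorem St_rel (h : cx.Ok χ d) (hs : cx.A.Val N s) : cx.Rel χ s.1 s.2.1 (cx.St χ s) := by
  refine ⟨hs.1, fun _ _ => rfl, fun _ _ => rfl, fun σ b x n => ?_, fun dir b => ?_⟩
  · simp only [ext_St hs.1]
    show stk _ (hgt N s.1 s.2.1 σ) n x = Aop (stk (cx.base χ σ b (cx.A.msg s σ))
      (hgt N s.1 s.2.1 σ) (n + 1)) x + _
    rcases lt_trichotomy (n + 1) (hgt N s.1 s.2.1 σ) with h1 | h1 | h1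
    · rw [if_neg h1.ne, add_zero, stk, stk, if_pos h1, if_pos (by omega),
        show hgt N s.1 s.2.1 σ - 1 - n = hgt N s.1 s.2.1 σ - 1 - (n + 1) + 1 by omega,
        Function.iterate_succ_apply']
    · have h2 : σ = act s.1 ∨ full s.1 σ = true := by
        by_contra h2
        rw [not_or] at h2
        rw [hgt, if_neg h2.1, if_neg h2.2] at h1
        omega
      rw [if_pos h1, baseT_St h hs h2, stk, stk, if_neg h1.not_lt, if_pos (by omega), Aop_zero,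
        show hgt N s.1 s.2.1 σ - 1 - n = 0 by omega, Pi.zero_apply, zero_add]
      rfl
    · rw [if_neg h1.ne', add_zero, stk, stk, if_neg (by omega), if_neg (by omega), Aop_zero]
  · rw [top_pair h hs]
    exact encB_dep h _ b _

theorem St_inj (h : cx.Ok χ d) (hs : cx.A.Val N s) (ht : cx.A.Val N t)
    (e : cx.St χ s = cx.St χ t) : s = t := by
  have h1 : s.1 = t.1 := code_inj h.hp (congrFun (congrFun e 0) (.inr true, 0))
  have h2 : s.2.1 = t.2.1 := by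
    have h3 : (if s.2.1 = s.2.1 then (1 : ZMod p) else 0) = if s.2.1 = t.2.1 then 1 else 0 :=
      congrFun (congrFun e 0) (.inr false, ⟨s.2.1, Nat.lt_succ_of_le hs.1⟩)
    by_contra h4
    rw [if_pos rfl, if_neg h4] at h3
    exact one_ne_zero h3
  have h3 := fun dir => top_pair h hs dir 0
  simp only [e, h1, top_pair h ht] at h3
  exact Prod.ext h1 (Prod.ext h2 (Prod.ext (encB_inj h ht.2.1.1 hs.2.1.1 (h3 false)).symm
    (encB_inj h ht.2.2.1.1 hs.2.2.1.1 (h3 true)).symm))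

lemma ysta_prev {A : Mach} {s' : Sta} (h1 : A.LNx N s' s) (h0 : s.1.2 = 0)
    (hj : s.2.1 = RR N + 1) : ∃ w, A.Edge (!s.1.1) w s.2.2.1 := by
  obtain ⟨⟨a1, a2⟩, -, a3⟩ := h1
  split_ifs at a3 with b1 b2 b3
  · refine ⟨s'.2.2.1, ?_⟩
    rw [a3.1, a3.2.2, nxC, if_pos b2, Bool.not_not]
    exact a2
  · rw [a3.1, nxC, if_neg b2] at h0
    exact absurd h0 ((by decide : ∀ ph : Fin 4, ph ≠ 3 → ph + 1 ≠ 0) _ b2)
  · rw [← a3.1, up, h0] at b3
    exact absurd b3 (by decide)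
  · omega

lemma ysta_next {A : Mach} (h2 : A.LNx N s t) (h3 : s.1.2 = 3) (hj : s.2.1 = RR N + 1) :
    ∃ w, A.Edge (!s.1.1) s.2.2.2 w := by
  obtain ⟨-, ⟨-, a2⟩, a3⟩ := h2
  rw [if_pos (by rw [up, h3, hj]; rfl), if_pos h3, nxC, if_pos h3] at a3
  rw [a3.1, a3.2.2] at a2
  exact ⟨_, a2⟩

theorem St_relE (h : cx.Ok χ d) {s' : Sta} (h1 : cx.A.LNx N s' s) (h2 : cx.A.LNx N s t) :
    Cx.RelE s.1 s.2.1 (cx.St χ s) := by
  intro hj dir b hp x
  have e : ∀ σ, cx.St χ s x (.inl (σ, b), 0) = Cx.top (cx.St χ s) σ b (tw (sh N σ) x) :=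
    fun σ => by rw [Cx.top, tw_tw, neg_add_cancel, tw_zero]
  have a1 : (dir, !s.1.1) = act s.1 := by
    rw [act, hp]
    cases dir <;> rfl
  have a2 : ing (dir, !s.1.1) = ing (!dir, s.1.1) := by cases dir <;> simp [ing]
  rw [e, e, top_pair h h2.1, top_full h (by rw [hgt, if_pos a1, hj]), sh, sh, a2]
  cases dir
  · obtain ⟨w, b1, b2, b3, b4⟩ := ysta_next h2 hp hj
    have a3 : cx.A.msg s (false, !s.1.1) = w := by simp [Mach.msg, hp, b3]
    rw [a3, outF_ok h _ b (by simpa [ing] using b2), b4]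
    rfl
  · obtain ⟨w, b1, b2, b3, b4⟩ := ysta_prev h1 hp hj
    have a3 : cx.A.msg s (true, !s.1.1) = w := by simp [Mach.msg, hp, b4]
    rw [a3, outF_ok h _ b (by simpa [ing] using b1), b3]
    rfl

theorem extW_wd (h : cx.Ok χ d) (hs : cx.A.Val N s) (dir : Bool) :
    cx.extW χ (cx.wd χ s) (dir, s.1.1) = if dir then s.2.2.2 else s.2.2.1 := by
  have h1 : (fun y => cx.wd χ s (tw (-sh N (dir, s.1.1)) y,
      Pi.single (.inl ((dir, s.1.1), 0), 0) 1, 0)) = Cx.top (cx.St χ s) (dir, s.1.1) 0 := by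
    funext y
    simp only [Cx.wd, hw, Cx.top, Pi.single_apply, ite_mul, one_mul, zero_mul, Finset.sum_ite_eq',
      Finset.mem_univ, if_true]
  have h2 : (if dir then s.2.2.2 else s.2.2.1).length = cx.A.k := by
    cases dir
    exacts [hs.2.1.1, hs.2.2.1.1]
  rw [Cx.extW, h1, top_pair h hs]
  generalize (if dir then s.2.2.2 else s.2.2.1) = v at h2
  refine List.ext_getElem (by simp [h2]) fun i hi hv => ?_
  rw [List.getElem_map, List.getElem_range, coef_encB h _ _ _ (h2 ▸ hv), bitv,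
    List.getD_eq_getElem _ _ hv]
  cases v[i] <;> simp

end Vale.Agent.P330
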