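import Vale.Agent.P330.YEnc
import Vale.Agent.P330.RLS
import Vale.Agent.P330.KCor

/-! The robust line system of a machine: states, reads and rules. -/

namespace Vale.Agent.P330

open Finset
open scoped BigOperators

/-- The control: parity of the current pair and phase. -/
abbrev Ctl := Bool × Fin 4

/-- The parity of the input of a slot. -/
def ing (σ : Slot) : Bool := if σ.1 then σ.2 else !σ.2

/-- The active slot. -/
def act (κ : Ctl) : Slot := (decide (κ.2.val % 2 = 0), !κ.1)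

/-- The active stack grows. -/
def up (κ : Ctl) : Bool := decide (2 ≤ κ.2.val)

/-- The full slots. -/
def full (κ : Ctl) (σ : Slot) : Bool :=
  decide (σ.2 = κ.1 ∨ (κ.2 = 0 ∧ σ = (false, !κ.1)) ∨ (κ.2 = 3 ∧ σ = (true, !κ.1)))

/-- The slot whose top is the input of a slot. -/
def src (κ : Ctl) (σ : Slot) : Slot :=
  if σ.2 = κ.1 then (!σ.1, κ.1)
  else if σ.1 then (if κ.2 = 0 then (false, !κ.1) else (true, κ.1))
  else if κ.2 = 3 then (true, !κ.1) else (false, κ.1)

/-- The next control. -/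
def nxC (κ : Ctl) : Ctl := if κ.2 = 3 then (!κ.1, 0) else (κ.1, κ.2 + 1)

/-- The previous control. -/
def pvC (κ : Ctl) : Ctl := if κ.2 = 0 then (!κ.1, 3) else (κ.1, κ.2 - 1)

/-- The code of a control. -/
def code (p : ℕ) (κ : Ctl) : ZMod p := (4 * κ.1.toNat + κ.2.val : ℕ)

/-- The height of a stack. -/
def hgt (N : ℕ) (κ : Ctl) (j : ℕ) (σ : Slot) : ℕ :=
  if σ = act κ then j else if full κ σ then RR N + 1 else 0

/-- The position `0` or the last position. -/
def posB (N : ℕ) (top : Bool) : ℕ := if top then RR N + 1 else 0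

/-- The time of a position in a phase. -/
def tv (N : ℕ) (ph : Fin 4) (s : ℕ) : ℕ :=
  (ph.val * (RR N + 2) + if 2 ≤ ph.val then s else RR N + 1 - s) % 4

/-- The shift of the top of a stack. -/
def sh (N : ℕ) (σ : Slot) : ZMod N := lo N (ing σ) + RR N

/-- A state: control, counter and the current edge. -/
abbrev Sta := Ctl × ℕ × List Bool × List Bool

namespace Mach

variable (A : Mach) (N : ℕ)

/-- The input word of a slot. -/
def msg (s : Sta) (σ : Slot) : List Bool :=
  if σ.2 = s.1.1 then (if σ.1 then s.2.2.1 else s.2.2.2)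
  else if σ.1 then (if s.1.2 = 0 then A.step false s.2.2.1 else s.2.2.2)
  else if s.1.2 = 3 then A.step true s.2.2.2 else s.2.2.1

/-- A valid state. -/
def Val (s : Sta) : Prop := s.2.1 ≤ RR N + 1 ∧ A.Edge s.1.1 s.2.2.1 s.2.2.2

/-- The successor relation on states. -/
def LNx (s t : Sta) : Prop :=
  A.Val N s ∧ A.Val N t ∧
    if s.2.1 = posB N (up s.1) then
      t.1 = nxC s.1 ∧ t.2.1 = posB N (!up t.1) ∧
        if s.1.2 = 3 then t.2.2.1 = s.2.2.2 else t.2.2 = s.2.2
    else t.1 = s.1 ∧ t.2.2 = s.2.2 ∧ t.2.1 = if up s.1 then s.2.1 + 1 else s.2.1 - 1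

/-- The two first states. -/
def s0 (τ : Bool) : Sta :=
  ((A.g0, 0), if τ then RR N else RR N + 1, A.w0, A.step true A.w0)

end Mach

/-- Factors: an entry of the vector near the position, a constant or indicator, a time. -/
abbrev Fac := (Row × Fin 3) ⊕ Fin 4 ⊕ Fin 4

/-- Descriptors of linear forms. -/
abbrev PD := Row → Fac × Fac

/-- Descriptors of points: shift, first coordinate, mask, line. -/
abbrev XD (M : ℕ) := Fin 3 × ZMod M × Option (Option (Slot × Fin 5)) × ZMod M

/-- The reads. -/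
abbrev QQ (M : ℕ) (J : Type) := (XD M × PD) ⊕ XD M ⊕ Unit ⊕ (J × ZMod M)

/-- The constant of a cell. -/
abbrev GG (p : ℕ) :=
  (Row → Fin 3 → ZMod p) × (Bool → Fin 5 → ZMod p) ×
    (Bool → Bool → (Fin 5 → Bool) → Fin 5 → ZMod p) × (Bool → ZMod p)

/-- The constant factor or indicator: `0`, `1`, first position, last position. -/
def fK (t : Fin 4) : Fac := .inr (.inl t)

/-- The entry of row `r` at the previous, the same or the next position. -/
def fA (r : Row) (t : Fin 3) : Fac := .inl (r, t)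

/-- The zero form. -/
def pdZ : PD := fun _ => (fK 0, fK 0)

/-- A form on one row. -/
def pd1 (r : Row) (f f' : Fac) : PD := fun r' => if r' = r then (f, f') else (fK 0, fK 0)

/-- The rows that move with the slot `σ`. -/
def mov (σ : Slot) : Row → Bool
  | .inl z => decide (z.1 = σ)
  | .inr b => !b

/-- The form that shifts the rows of a slot and the counter. -/
def pdS (σ : Slot) (t : Fin 3) : PD := fun r => (fA r (if mov σ r then t else 1), fK 1)

variable {M p c N : ℕ} [Fact M.Prime] [Fact p.Prime] [NeZero N] {J : Type}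

/-- The extension by zero. -/
def ext (a : CC N → ZMod p) (r : Row) (n : ℕ) : ZMod p :=
  if h : n < RR N + 2 then a (r, ⟨n, h⟩) else 0

/-- The value of a factor. -/
def Fac.ev (a : CC N → ZMod p) (s : ℕ) : Fac → ZMod p
  | .inl z => if s + z.2 = 0 then 0 else ext a z.1 (s + z.2 - 1)
  | .inr (.inl t) => if t = 0 then 0 else if t = 1 then 1
      else if s = posB N (decide (t = 3)) then 1 else 0
  | .inr (.inr ph) => (tv N ph s : ℕ)

/-- The vector of a form. -/
def PD.ev (pd : PD) (a : CC N → ZMod p) : CC N → ZMod p :=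
  fun z => Fac.ev a z.2 (pd z.1).1 * Fac.ev a z.2 (pd z.1).2

/-- The three shifts. -/
def twz (N : ℕ) (t : Fin 3) : ZMod N := if t = 0 then 0 else if t = 1 then 1 else -(2 * RR N : ℕ)

/-- The masks. -/
def msk : Option (Option (Slot × Fin 5)) → XX M N → XX M N
  | none, _ => 0
  | some none, v => v
  | some (some z), v => fun l => if InB (bn (!ing z.1) z.2) (l + sh N z.1) then 0 else v l

/-- A stack of height `h`. -/
def stk (φ : XX M N → ZMod p) (h s : ℕ) : XX M N → ZMod p :=
  if s < h then Aop^[h - 1 - s] φ else 0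

section Rules

variable (χ : AddChar (ZMod M) (ZMod p)) (γ : GG p) (ρ : QQ M J → ZMod p)

/-- The own point. -/
def xd0 : XD M := (0, 0, none, 0)

/-- The value of a form at a point. -/
def val (xd : XD M) (pd : PD) : ZMod p := ρ (.inl (xd, pd)) - ρ (.inl (xd, pdZ))

/-- The own symbol. -/
def own : ZMod p := ρ (.inr (.inl xd0))

/-- The first entry of a row. -/
def at0 (xd : XD M) (r : Row) : ZMod p := val ρ xd (pd1 r (fK 2) (fK 1))

open Classical in
/-- The control that is read. -/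
noncomputable def gam : Ctl :=
  if h : ∃ κ, code p κ = at0 ρ xd0 (.inr true) then h.choose else default

/-- The counter is at the first or the last position. -/
def muB (top : Bool) : ZMod p := val ρ xd0 (pd1 (.inr false) (fK (if top then 3 else 2)) (fK 1))

/-- The bottom of a stack. -/
def basev (κ : Ctl) (σ : Slot) (b : Fin 5) : ZMod p :=
  psiL (fun β => γ.2.2.1 σ.1 (ing σ) β b) (γ.2.1 (ing σ)) fun b' =>
    at0 ρ (if ing σ then 0 else 2, 0, none, 0) (.inl (src κ σ, b'))

/-- The average of a form. -/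
def Aval (pd : PD) : ZMod p := (M : ZMod p)⁻¹ * ∑ α : ZMod M, val ρ (1, α, none, 0) pd

/-- The symbol after a push. -/
def pushv (κ : Ctl) : ZMod p :=
  val ρ xd0 (pdS (act κ) 2) + ∑ b, γ.1 (.inl (act κ, b)) 0 *
    (Aval ρ (pd1 (.inl (act κ, b)) (fK 2) (fK 1)) + muB ρ false * basev γ ρ κ (act κ) b)

/-- The symbol after a pop. -/
def popv (κ : Ctl) : ZMod p := val ρ xd0 (pdS (act κ) 0)

/-- The symbol after a change of control and counter. -/
def chg (κ κ' : Ctl) (top top' : Bool) : ZMod p :=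
  own ρ + γ.1 (.inr false) (if top' then 2 else 0) - γ.1 (.inr false) (if top then 2 else 0) +
    γ.1 (.inr true) 0 * (code p κ' - code p κ)

/-- The successor rule. -/
noncomputable def sucF : ZMod p :=
  if muB ρ (up (gam ρ)) = 1 then chg γ ρ (gam ρ) (nxC (gam ρ)) (up (gam ρ)) (!up (nxC (gam ρ)))
  else if up (gam ρ) then pushv γ ρ (gam ρ) else popv ρ (gam ρ)

/-- The predecessor rule. -/
noncomputable def prdF : ZMod p :=
  if muB ρ (!up (gam ρ)) = 1 then chg γ ρ (gam ρ) (pvC (gam ρ)) (!up (gam ρ)) (up (pvC (gam ρ)))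
  else if up (gam ρ) then popv ρ (gam ρ) else pushv γ ρ (gam ρ)

/-- The time rule. -/
noncomputable def tmF : ZMod 4 :=
  ((val ρ xd0 (pd1 (.inr false) (.inr (.inr (gam ρ).2)) (fK 1))).val : ℕ)

/-- The coefficient of the bottom of a stack. -/
def Jv (κ : Ctl) (σ : Slot) (b : Fin 5) : ZMod p :=
  if σ = act κ then val ρ xd0 (pd1 (.inr false) (fA (.inl (σ, b)) 0) (fK 1))
  else if full κ σ then γ.1 (.inl (σ, b)) 1 else 0

/-- The tests for being a Hadamard codeword. -/
structure TstA (D : ℕ) : Prop where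
  rep : ∀ j, ρ (.inr (.inr (.inr (j, 0)))) = own ρ
  blr : ρ (.inr (.inr (.inl ()))) = own ρ + ρ (.inl (xd0, pdZ))
  line : LD χ D fun α => ρ (.inr (.inl (0, 0, none, α)))

/-- The tests for being a state. -/
structure TstB (τ : Bool) : Prop where
  cst : ∀ b, val ρ (0, 0, some none, 0) (pd1 (.inr b) (fA (.inr b) 1) (fK 1)) =
    val ρ xd0 (pd1 (.inr b) (fA (.inr b) 1) (fK 1))
  ctl : code p (gam ρ) = at0 ρ xd0 (.inr true)
  rest : val ρ xd0 (pd1 (.inr true) (fA (.inr true) 1) (fK 1)) =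
    γ.1 (.inr true) 0 * at0 ρ xd0 (.inr true)
  par : par (tmF ρ) = τ
  hot : val ρ xd0 (pd1 (.inr false) (fA (.inr false) 1) (fA (.inr true) 1)) =
    val ρ xd0 (pd1 (.inr false) (fA (.inr false) 1) (fK 1)) *
      val ρ xd0 (pd1 (.inr false) (fA (.inr true) 1) (fK 1))
  one : val ρ xd0 (pd1 (.inr false) (fK 1) (fK 1)) = 1
  stk : ∀ σ b, val ρ xd0 (pd1 (.inl (σ, b)) (fA (.inl (σ, b)) 1) (fK 1)) =
    Aval ρ (pd1 (.inl (σ, b)) (fA (.inl (σ, b)) 0) (fK 1)) +
      Jv γ ρ (gam ρ) σ b * basev γ ρ (gam ρ) σ b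
  inv : ∀ dir b, at0 ρ (0, 0, some (some ((dir, (gam ρ).1), b)), 0) (.inl ((dir, (gam ρ).1), b)) =
    at0 ρ xd0 (.inl ((dir, (gam ρ).1), b))
  eq : muB ρ true = 1 → ∀ dir b, (gam ρ).2 = (if dir then 0 else 3) →
    at0 ρ xd0 (.inl ((dir, !(gam ρ).1), b)) = at0 ρ xd0 (.inl ((!dir, (gam ρ).1), b))

end Rules

/-- The rules. -/
noncomputable def rule (χ : AddChar (ZMod M) (ZMod p)) (J : Type) [Fintype J] (D : ℕ) :
    Rule (QQ M J) (GG p) (ZMod p) where
  tst τ γ ρ := TstA χ ρ D ∧ TstB γ ρ τ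
  cor _ ρ := corF χ D fun z => ρ (.inr (.inr (.inr z)))
  suc := sucF
  prd := prdF
  tm _ ρ := tmF ρ
  z0 γ := γ.2.2.2

namespace Cx

variable [NeZero c] (χ : AddChar (ZMod M) (ZMod p)) (cx : Cx M p c N J)

/-- The bottom of the stack of a slot with input word `w`. -/
def base (σ : Slot) (b : Fin 5) (w : List Bool) (x : XX M N) : ZMod p :=
  cx.psi χ σ.1 (ing σ) b (fun b' => cx.encB χ (ing σ) b' (bitv p w)) (tw (lo N (ing σ)) x)

/-- The entries of the vector valued function of a state. -/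
def StR (s : Sta) (x : XX M N) : Row → ℕ → ZMod p
  | .inl z, n => stk (cx.base χ z.1 z.2 (cx.A.msg s z.1)) (hgt N s.1 s.2.1 z.1) n x
  | .inr false, n => if n = s.2.1 then 1 else 0
  | .inr true, n => if n = 0 then code p s.1 else 0

/-- The vector valued function of a state. -/
def St (s : Sta) (x : XX M N) (z : CC N) : ZMod p := cx.StR χ s x z.1 z.2

/-- The word of a state. -/
def wd (s : Sta) : PP M p c N → ZMod p := hw (cx.St χ s)

/-- The successor relation on words. -/
def Nx (u v : PP M p c N → ZMod p) : Prop :=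
  ∃ s t, cx.A.LNx N s t ∧ u = cx.wd χ s ∧ v = cx.wd χ t

/-- The point of a descriptor. -/
def xa (xd : XD M) (x : XX M N) (w : WW M p c N) : XX M N :=
  tw (twz N xd.1) x +
    (xd.2.1 • Pi.single 0 1 + msk xd.2.2.1 w.2.2 + xd.2.2.2 • dirs cx.g w.1)

/-- The inverse of the point map. -/
def xb (xd : XD M) (x : XX M N) (w : WW M p c N) : XX M N :=
  tw (-twz N xd.1)
    (x - (xd.2.1 • Pi.single 0 1 + msk xd.2.2.1 w.2.2 + xd.2.2.2 • dirs cx.g w.1))

omit [Fact p.Prime] [NeZero N] [NeZero c] in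
lemma xb_xa (xd : XD M) (x : XX M N) (w : WW M p c N) : cx.xb xd (cx.xa xd x w) w = x := by
  simp [xa, xb, tw_tw, tw_zero]

omit [Fact p.Prime] [NeZero N] [NeZero c] in
lemma xa_xb (xd : XD M) (x : XX M N) (w : WW M p c N) : cx.xa xd (cx.xb xd x w) w = x := by
  simp [xa, xb, tw_tw, tw_zero]

/-- The read addresses as functions. -/
def adF : QQ M J → PP M p c N → PP M p c N
  | .inl q, z => (cx.xa q.1 z.1 z.2.2, q.2.ev z.2.1 + z.2.2.2.1, z.2.2.1, z.2.1, z.2.2.2.2)
  | .inr (.inl xd), z => (cx.xa xd z.1 z.2.2, z.2)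
  | .inr (.inr (.inl _)), z => (z.1, z.2.1 + z.2.2.2.1, z.2.2)
  | .inr (.inr (.inr q)), z => orbF χ (dirs cx.g) q.2 (z.1, z.2.1, cx.sp q.1 z.2.2)

lemma adF_inj (q : QQ M J) : Function.Injective (cx.adF χ q) := by
  rintro ⟨x, a, i, r, v⟩ ⟨x', a', i', r', v'⟩ h
  rcases q with ⟨xd, pd⟩ | xd | _ | ⟨j, α⟩
  · simp only [adF, Prod.mk.injEq] at h
    obtain ⟨h1, h2, rfl, rfl, rfl⟩ := h
    obtain rfl : r = r' := add_left_cancel h2
    rw [← cx.xb_xa xd x (i, r, v), h1, xb_xa]
  · simp only [adF, Prod.mk.injEq] at h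
    obtain ⟨h1, rfl, rfl, rfl, rfl⟩ := h
    rw [← cx.xb_xa xd x (i, r, v), h1, xb_xa]
  · simp only [adF, Prod.mk.injEq] at h
    obtain ⟨rfl, h2, rfl, rfl, rfl⟩ := h
    rw [add_right_cancel h2]
  · have h2 := congrArg (orbF χ (dirs cx.g) (-α)) h
    simp only [adF, orbF_add, neg_add_cancel, orbF_zero, Prod.mk.injEq] at h2
    obtain ⟨rfl, rfl, h3⟩ := h2
    rw [(cx.sp j).injective h3]

/-- The constant of a cell. -/
def tab (z : PP M p c N) : GG p :=
  (fun r t => ext z.2.1 r (if t = 0 then 0 else if t = 1 then RR N else RR N + 1),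
    fun g b => cx.encB χ g b (fun _ => 1) (tw (lo N g) z.1),
    fun dir g β b => cx.Ptab χ dir g β b (tw (lo N g) z.1),
    fun τ => cx.wd χ (cx.A.s0 N τ) z)

/-- The wiring. -/
noncomputable def sys : Sys (QQ M J) (GG p) (PP M p c N) where
  ad q := Equiv.ofBijective _ (Finite.injective_iff_bijective.1 (cx.adF_inj χ q))
  tab := cx.tab χ

/-- The reads of a Hadamard word. -/
noncomputable def rh (Θ : XX M N → CC N → ZMod p) (z : PP M p c N) : QQ M J → ZMod p :=
  (cx.sys χ).rd (hw Θ) z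

/-- The unshifted top of a stack. -/
def top (Θ : XX M N → CC N → ZMod p) (σ : Slot) (b : Fin 5) (y : XX M N) : ZMod p :=
  Θ (tw (-sh N σ) y) (.inl (σ, b), 0)

/-- The bottom of a stack computed from the top of its source. -/
def baseT (Θ : XX M N → CC N → ZMod p) (κ : Ctl) (σ : Slot) (b : Fin 5) (x : XX M N) : ZMod p :=
  cx.psi χ σ.1 (ing σ) b (top Θ (src κ σ)) (tw (lo N (ing σ)) x)

/-- The relations that hold in every valid state. -/
structure Rel (κ : Ctl) (j : ℕ) (Θ : XX M N → CC N → ZMod p) : Prop where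
  le : j ≤ RR N + 1
  mu : ∀ x s, Θ x (.inr false, s) = if s.val = j then 1 else 0
  ctl : ∀ x s, Θ x (.inr true, s) = if s.val = 0 then code p κ else 0
  stk : ∀ σ b x s, ext (Θ x) (.inl (σ, b)) s =
    Aop (fun y => ext (Θ y) (.inl (σ, b)) (s + 1)) x +
      if s + 1 = hgt N κ j σ then cx.baseT χ Θ κ σ b x else 0
  inv : ∀ dir b, DepB (bn (!ing (dir, κ.1)) b) (top Θ (dir, κ.1) b)

/-- The relation that holds in states with both neighbours. -/
def RelE (κ : Ctl) (j : ℕ) (Θ : XX M N → CC N → ZMod p) : Prop :=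
  j = RR N + 1 → ∀ dir b, κ.2 = (if dir then 0 else 3) → ∀ x,
    Θ x (.inl ((dir, !κ.1), b), 0) = Θ x (.inl ((!dir, κ.1), b), 0)

/-- The time of a word. -/
noncomputable def time (u : PP M p c N → ZMod p) : ZMod 4 := tmF ((cx.sys χ).rd u 0)

/-- The machine word in the top of the first row of a slot. -/
def extW (u : PP M p c N → ZMod p) (σ : Slot) : List Bool :=
  (List.range cx.A.k).map fun i => decide
    (coef χ (fun y => u (tw (-sh N σ) y, Pi.single (.inl (σ, 0), 0) 1, 0)) (cx.al (!ing σ) 0 i) = 1)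

end Cx

end Vale.Agent.P330
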